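import Crest.Agent.R134.Steps

/-! Row 134: capturing the generators. -/

set_option autoImplicit false
set_option linter.unusedSectionVars false

open scoped InnerProductSpace ComplexOrder
open Crest.OpAlg Crest.Agent.R124 Crest.Agent.R95 Filter Topology Function

namespace Crest.Agent.R134

variable {A C : Type*} [CStarAlgebra A] [CStarAlgebra C] {T : TS A} {P : StarSubalgebra ℂ A}
  {ι : Type*}

theorem params {ζ θ : ℝ} (hζ : 0 < ζ) (hζ1 : ζ ≤ 1 / 2) (hθ : 0 < θ) :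
    ∃ (n K : ℕ) (c : ℝ), 2 ≤ n ∧ 0 < c ∧ c < 1 ∧ 1 - ζ ≤ c ^ K ∧ ((c ^ n) ^ 2) ^ K ≤ θ ∧
      1 - θ ≤ c ^ (n - 1) := by
  obtain ⟨n, hn⟩ := exists_nat_ge (max 2 (1 / (ζ * θ)))
  obtain ⟨K, hK⟩ := exists_nat_ge (max 1 (n * ζ / θ))
  have n2 : (2 : ℝ) ≤ n := (le_max_left _ _).trans hn
  have n3 := (le_max_right _ _).trans hn
  have k1 : (1 : ℝ) ≤ K := (le_max_left _ _).trans hK
  have k2 := (le_max_right _ _).trans hK
  rw [div_le_iff₀ (by positivity)] at n3 k2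
  have a0 : 0 < ζ / K := by positivity
  have a1 : ζ / K ≤ 1 / 2 := (div_le_self hζ.le k1).trans hζ1
  have aK : K * (ζ / K) = ζ := by field_simp
  generalize ζ / K = a at a0 a1 aK
  have c0 : 0 < 1 - a := by linarith
  refine ⟨n, K, 1 - a, by exact_mod_cast n2, c0, by linarith, ?_, ?_, ?_⟩
  · have := one_add_mul_le_pow (a := -a) (by linarith) K
    rw [← sub_eq_add_neg] at this
    linarith
  · have h1 := one_add_mul_le_pow (a := a) (by linarith) (n * K)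
    have h2 : ((1 - a) * (1 + a)) ^ (n * K) ≤ 1 := pow_le_one₀ (by nlinarith) (by nlinarith)
    have h3 : (1 - a) ^ (n * K) ≤ 1 := pow_le_one₀ c0.le (by linarith)
    have h4 : 0 ≤ (1 - a) ^ (n * K) := by positivity
    have e : (((1 - a) ^ n) ^ 2) ^ K = (1 - a) ^ (n * K) * (1 - a) ^ (n * K) := by ring
    rw [mul_pow] at h2
    rw [Nat.cast_mul, mul_assoc, aK] at h1
    rw [e]
    generalize (1 - a) ^ (n * K) = w at *
    have h5 : w * (n * ζ) ≤ 1 := by nlinarith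
    have h6 : w ≤ θ := by nlinarith
    nlinarith
  · have := one_add_mul_le_pow (a := -a) (by linarith) (n - 1)
    rw [← sub_eq_add_neg, Nat.cast_sub (by exact_mod_cast (by linarith : (1 : ℝ) ≤ n))] at this
    have h1 : n * a * K ≤ θ * K := by nlinarith
    have h2 := le_of_mul_le_mul_right h1 (by linarith)
    push_cast at this
    nlinarith

theorem block (D : TD T C) (hf : T.Faith) {p q : A} {θ : ℝ} (hθ : 0 < θ) (hθ1 : θ ≤ 1 / 4)
    (hL : ∀ m n, ∃ L : Let T P m n θ, L.p = p ∧ L.q = q) {x t : ℕ} (hxt : x ≠ t) {Y : ℕ → A}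
    (h : SD T P Y) {N : ℕ} (hx : x < N) (ht : t < N) {η : ℝ} (hη : 0 < η) :
    ∃ Y' : ℕ → A, SD T P Y' ∧ (∀ k < N, k ≠ x → k ≠ t → Y' k = Y k) ∧
      Bs P Y Set.univ ≤ Bs P Y' Set.univ ∧
      (∀ u ∈ P, ∀ v ∈ P, (u * p = 0 ∨ q * v = 0) → (u * q = 0 ∨ p * v = 0) →
        u * Y' t * v = u * Y t * v) ∧
      T.n2 (Y' x - Y x) ≤ η ∧
      ∃ b ∈ gen P (Y' x), T.n2 (p * Y t * q + q * Y t * p - b) ^ 2 ≤ 18 * θ ^ 3 := by
  obtain ⟨n, K, c, hn, c0, c1, k1, k2, k3⟩ := params (ζ := min (η ^ 2 / 2) (1 / 2))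
    (by positivity) (min_le_right _ _) hθ
  obtain ⟨m, hm⟩ := exists_nat_ge (max 1 (8 * n ^ 2 * 3 ^ (8 * n) / θ ^ 3))
  have m1 : (1 : ℝ) ≤ m := (le_max_left _ _).trans hm
  have m2 := (le_max_right _ _).trans hm
  rw [div_le_comm₀ (by positivity) (by positivity)] at m2
  obtain ⟨L, rfl, rfl⟩ := hL m n
  have cn : (c ^ n) ^ 2 < 1 := pow_lt_one₀ (by positivity) (pow_lt_one₀ c0.le c1 (by omega))
    two_ne_zero
  have c2 : c ^ 2 < 1 := pow_lt_one₀ c0.le c1 two_ne_zero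
  have hs : c ^ 2 + √(1 - c ^ 2) ^ 2 = 1 := by rw [Real.sq_sqrt (by linarith)]; ring
  have hμ : (c ^ n) ^ 2 + √(1 - (c ^ n) ^ 2) ^ 2 = 1 := by rw [Real.sq_sqrt (by linarith)]; ring
  have μ0 : 0 < √(1 - (c ^ n) ^ 2) := Real.sqrt_pos.2 (by linarith)
  have s0 : 0 ≤ √(1 - c ^ 2) := Real.sqrt_nonneg _
  generalize √(1 - c ^ 2) = s at hs s0
  generalize √(1 - (c ^ n) ^ 2) = μ at hμ μ0
  obtain ⟨Y', h1, h2, h3, h4, h5, h6⟩ := L.steps D hf (by exact_mod_cast m1) hn c0.le s0 hs hμ hxt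
    K Y N h hx ht
  refine ⟨Y', h1, h2, h3 _ trivial trivial fun _ _ => trivial, fun u hu v hv a b =>
    h4 u hu v hv ⟨a, b⟩, ?_, (√m)⁻¹ • L.YY (Y' x), rmem _ L.YY_mem, ?_⟩
  · refine (pow_le_pow_iff_left₀ (T.n2_nonneg _) hη.le two_ne_zero).1 ?_
    rw [T.n2_sub_sq, T.n2_sq, T.n2_sq, (h1.1 x).star_eq, (h.1 x).star_eq, h1.τ_sq, h.τ_sq, h5,
      ← Complex.ofReal_pow, Complex.ofReal_re, Complex.one_re]
    linarith [min_le_left (η ^ 2 / 2) (1 / 2)]
  have e1 := L.es_n2 D h t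
  have e2 := L.YY_n2 (h1.single x) (by omega)
  have sm : 0 < √m := by positivity
  have sm2 : √m ^ 2 = m := Real.sq_sqrt (by positivity)
  change T.n2 (L.es (Y t) - _) ^ 2 ≤ _
  rw [T.n2_sub_sq, e1, T.n2_rsmul, mul_pow, e2, sq_abs, L.es_sa (h.1 t), mul_smul_comm, T.τ_rsmul,
    Complex.re_ofReal_mul, T.comm]
  rw [Real.sqrt_mul (by positivity)] at h6
  have hb : μ ≤ s * √n := by
    have := one_add_mul_le_pow (a := -s ^ 2) (by nlinarith) n
    rw [← sub_eq_add_neg, show 1 - s ^ 2 = c ^ 2 by linarith, ← pow_mul, mul_comm 2, pow_mul] at this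
    refine (pow_le_pow_iff_left₀ μ0.le (by positivity) two_ne_zero).1 ?_
    rw [mul_pow, Real.sq_sqrt (by positivity)]
    linarith
  generalize (T.τ (L.YY (Y' x) * L.es (Y t))).re = a at h6 ⊢
  have g0 : 0 ≤ 2 * θ ^ 2 - 5 * θ ^ 3 := by nlinarith [pow_pos hθ 2]
  have g1 : μ * (√m * ((1 - θ) * (2 * θ ^ 2 - 5 * θ ^ 3) * (1 - θ))) ≤ μ * a := by
    refine le_trans ?_ h6
    calc _ ≤ s * √n * (√m * (c ^ (n - 1) *
          (2 * θ ^ 2 - 4 * θ ^ 3 - 8 * n ^ 2 * 3 ^ (8 * n) / m) * (1 - ((c ^ n) ^ 2) ^ K))) := by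
          have : 0 ≤ 1 - θ := by linarith
          have g : 2 * θ ^ 2 - 5 * θ ^ 3 ≤ 2 * θ ^ 2 - 4 * θ ^ 3 - 8 * n ^ 2 * 3 ^ (8 * n) / m := by
            linarith
          generalize 2 * θ ^ 2 - 4 * θ ^ 3 - 8 * n ^ 2 * 3 ^ (8 * n) / m = G at g
          generalize 2 * θ ^ 2 - 5 * θ ^ 3 = G' at g g0
          have := g0.trans g
          have : 1 - θ ≤ 1 - ((c ^ n) ^ 2) ^ K := by linarith
          generalize 1 - ((c ^ n) ^ 2) ^ K = G'' at this
          gcongr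
      _ = _ := by ring
  have g2 := le_of_mul_le_mul_left g1 μ0
  rw [← le_inv_mul_iff₀ sm] at g2
  have g3 : (√m)⁻¹ ^ 2 * (2 * m * θ ^ 2) = 2 * θ ^ 2 := by
    rw [inv_pow, sm2]; field_simp
  rw [g3]
  nlinarith [pow_pos hθ 3, mul_nonneg (pow_pos hθ 4).le (show 0 ≤ 12 - 5 * θ by linarith)]

theorem nearF (T : TS A) {Y : ι → A} {b : A}
    (hb : b ∈ StarAlgebra.adjoin ℂ ((P : Set A) ∪ Set.range Y)) :
    ∃ (F : Finset ι) (c : ℝ), ∀ (Q : StarSubalgebra ℂ A) (δ : ℝ), P ≤ Q → 0 ≤ δ →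
      (∀ j ∈ F, ∃ y ∈ Q, ‖y‖ ≤ 3 ∧ T.n2 (Y j - y) ≤ δ) →
      ∃ b' ∈ Q, ‖b'‖ ≤ c ∧ T.n2 (b - b') ≤ c * δ := by
  classical
  have h0 : ∀ b ∈ P, ∃ (F : Finset ι) (c : ℝ), ∀ (Q : StarSubalgebra ℂ A) (δ : ℝ), P ≤ Q → 0 ≤ δ →
      (∀ j ∈ F, ∃ y ∈ Q, ‖y‖ ≤ 3 ∧ T.n2 (Y j - y) ≤ δ) →
      ∃ b' ∈ Q, ‖b'‖ ≤ c ∧ T.n2 (b - b') ≤ c * δ := fun b hb => ⟨∅, ‖b‖, fun Q δ hQ hδ _ =>
    ⟨b, hQ hb, le_rfl, by rw [sub_self, T.n2_zero]; positivity⟩⟩
  induction hb using StarAlgebra.adjoin_induction with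
  | mem x h =>
    rcases h with h | ⟨j, rfl⟩
    · exact h0 x h
    · refine ⟨{j}, 3, fun Q δ _ hδ h => ?_⟩
      obtain ⟨y, y1, y2, y3⟩ := h j (Finset.mem_singleton_self j)
      exact ⟨y, y1, y2, by linarith⟩
  | algebraMap r => exact h0 _ (algebraMap_mem P r)
  | add x y _ _ hx hy =>
    obtain ⟨F, c, hc⟩ := hx
    obtain ⟨G, d, hd⟩ := hy
    refine ⟨F ∪ G, c + d, fun Q δ hQ hδ h => ?_⟩
    obtain ⟨a, a1, a2, a3⟩ := hc Q δ hQ hδ fun j hj => h j (Finset.mem_union_left _ hj)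
    obtain ⟨b, b1, b2, b3⟩ := hd Q δ hQ hδ fun j hj => h j (Finset.mem_union_right _ hj)
    refine ⟨a + b, add_mem a1 b1, (norm_add_le _ _).trans (add_le_add a2 b2), ?_⟩
    rw [show x + y - (a + b) = (x - a) + (y - b) by abel, add_mul]
    exact (T.n2_add_le _ _).trans (add_le_add a3 b3)
  | mul x y _ _ hx hy =>
    obtain ⟨F, c, hc⟩ := hx
    obtain ⟨G, d, hd⟩ := hy
    refine ⟨F ∪ G, ‖x‖ * d + c * d, fun Q δ hQ hδ h => ?_⟩
    obtain ⟨a, a1, a2, a3⟩ := hc Q δ hQ hδ fun j hj => h j (Finset.mem_union_left _ hj)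
    obtain ⟨b, b1, b2, b3⟩ := hd Q δ hQ hδ fun j hj => h j (Finset.mem_union_right _ hj)
    have hD0 : 0 ≤ d := (norm_nonneg _).trans b2
    have hC0 : 0 ≤ c := (norm_nonneg _).trans a2
    refine ⟨a * b, mul_mem a1 b1, ?_, ?_⟩
    · have := (norm_mul_le a b).trans (mul_le_mul a2 b2 (norm_nonneg _) hC0)
      have := mul_nonneg (norm_nonneg x) hD0
      linarith
    · rw [show x * y - a * b = x * (y - b) + (x - a) * b by noncomm_ring]
      have h1 := (T.n2_mul_le x (y - b)).trans (mul_le_mul_of_nonneg_left b3 (norm_nonneg _))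
      have h2 := (T.n2_mul_le' (x - a) b).trans (mul_le_mul a3 b2 (norm_nonneg _)
        (mul_nonneg hC0 hδ))
      have h3 := T.n2_add_le (x * (y - b)) ((x - a) * b)
      linarith
  | star x _ hx =>
    obtain ⟨F, c, hc⟩ := hx
    refine ⟨F, c, fun Q δ hQ hδ h => ?_⟩
    obtain ⟨a, a1, a2, a3⟩ := hc Q δ hQ hδ h
    exact ⟨star a, star_mem a1, by rwa [norm_star], by rwa [← star_sub, T.n2_star]⟩

theorem Nr_open' {x u : A} {c : ℝ} (h : T.Nr P x c u) :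
    ∃ δ > 0, ∀ v, ‖v‖ ≤ 3 → T.n2 (u - v) ≤ δ → T.Nr P x c v := by
  obtain ⟨b, hb, h⟩ := h
  obtain ⟨F, C, hC⟩ := nearF (P := P) T (Y := fun _ : Unit => u) (b := b) (by
    rwa [Set.range_const, Set.union_singleton])
  have h0 : 0 < (c - T.n2 (x - b)) / (|C| + 1) := div_pos (by linarith) (by positivity)
  refine ⟨_, h0, fun v hv hd => ?_⟩
  obtain ⟨b', h1, -, h3⟩ := hC (gen P v) _ (fun _ => gen_P v) h0.le fun _ _ =>
    ⟨v, gen_self P v, hv, hd⟩
  refine ⟨b', h1, (T.n2_tri x b b').trans_lt ?_⟩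
  have : (|C| + 1) * ((c - T.n2 (x - b)) / (|C| + 1)) = c - T.n2 (x - b) := by field_simp
  nlinarith [le_abs_self C]

theorem blocks (D : TD T C) (hf : T.Faith) {J : ℕ} {p : Fin J → A} {θ : ℝ} (hθ : 0 < θ)
    (hθ1 : θ ≤ 1 / 4) (hp : ∀ a, p a ∈ P ∧ IsStarProjection (p a))
    (ho : ∀ a b, a ≠ b → p a * p b = 0)
    (hL : ∀ a b, a ≠ b → ∀ m n, ∃ L : Let T P m n θ, L.p = p a ∧ L.q = p b) {Y : ℕ → A}
    (h : SD T P Y) {N : ℕ} (hN : 0 < N) {δ : ℝ} (hδ : 0 < δ) (hδ' : 18 * θ ^ 3 < δ ^ 2)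
    (s : Finset (ℕ × Fin J × Fin J)) (hs : ∀ i ∈ s, i.1 ≠ 0 ∧ i.1 < N ∧ i.2.1 < i.2.2) :
    ∀ η > 0, ∃ Y' : ℕ → A, SD T P Y' ∧ Bs P Y Set.univ ≤ Bs P Y' Set.univ ∧
      T.n2 (Y' 0 - Y 0) ≤ η ∧
      (∀ i ∈ s, T.Nr P (p i.2.1 * Y i.1 * p i.2.2 + p i.2.2 * Y i.1 * p i.2.1) δ (Y' 0)) ∧
      ∀ i ∉ s, i.1 ≠ 0 → i.1 < N → i.2.1 < i.2.2 →
        p i.2.1 * Y' i.1 * p i.2.2 = p i.2.1 * Y i.1 * p i.2.2 := by
  classical
  induction s using Finset.induction_on with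
  | empty => exact fun η hη => ⟨Y, h, le_rfl, by simp [T.n2_zero, hη.le], by simp, by simp⟩
  | insert i s hi ih =>
    intro η hη
    obtain ⟨Y1, a1, a2, a3, a4, a5⟩ := ih (fun j hj => hs j (Finset.mem_insert_of_mem hj)) _
      (half_pos hη)
    obtain ⟨t, a, b⟩ := i
    obtain ⟨i1, i2, i3⟩ := hs _ (Finset.mem_insert_self _ _)
    have : ∀ᶠ ε in 𝓝[>] (0 : ℝ), ε ≤ η / 2 ∧ ∀ i ∈ s, ∀ v, ‖v‖ ≤ 3 → T.n2 (Y1 0 - v) ≤ ε →
        T.Nr P (p i.2.1 * Y i.1 * p i.2.2 + p i.2.2 * Y i.1 * p i.2.1) δ v := by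
      refine Filter.Eventually.and (nhdsWithin_le_nhds (Iic_mem_nhds (half_pos hη)))
        ((Finset.eventually_all s).2 fun i hi => ?_)
      obtain ⟨ε, hε, h⟩ := Nr_open' (a4 i hi)
      filter_upwards [nhdsWithin_le_nhds (Iic_mem_nhds hε)] with ε' hε' v hv hd using
        h v hv (hd.trans hε')
    obtain ⟨ε, ⟨e1, e2⟩, e0⟩ := (this.and self_mem_nhdsWithin).exists
    obtain ⟨Y2, b1, b2, b3, b4, b5, c, c1, c2⟩ := block D hf hθ hθ1 (hL a b i3.ne) i1.symm a1 hN i2 e0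
    refine ⟨Y2, b1, a2.trans b3, ?_, fun j hj => ?_, fun j hj j1 j2 j3 => ?_⟩
    · linarith [T.n2_tri (Y2 0) (Y1 0) (Y 0)]
    · rcases Finset.mem_insert.1 hj with rfl | hj
      · have e3 := a5 _ hi i1 i2 i3
        have e4 := congrArg star e3
        simp only [star_mul, (hp _).2.isSelfAdjoint.star_eq, (h.1 _).star_eq, (a1.1 _).star_eq,
          ← mul_assoc] at e3 e4
        rw [e3, e4] at c2
        exact ⟨c, c1, lt_of_pow_lt_pow_left₀ 2 hδ.le (c2.trans_lt hδ')⟩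
      · exact e2 j hj _ (b1.norm_le D hf 0) (by rwa [T.n2_sub_comm])
    · rw [Finset.mem_insert, not_or] at hj
      rw [← a5 j hj.2 j1 j2 j3]
      obtain ⟨t', a', b'⟩ := j
      by_cases ht : t' = t
      · subst ht
        refine b4 _ (hp _).1 _ (hp _).1 ?_ ?_
        · by_cases ha : a' = a
          · exact Or.inr (ho _ _ fun hb => hj.1 (by rw [ha, hb]))
          · exact Or.inl (ho _ _ ha)
        · by_cases ha : a' = b
          · exact Or.inr (ho _ _ fun hb => by subst ha hb; exact lt_asymm i3 j3)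
          · exact Or.inl (ho _ _ ha)
      · rw [b2 t' j2 j1 ht]

theorem pyth {J : ℕ} {p : Fin J → A} (hp : ∀ a, IsStarProjection (p a)) (hs : ∑ a, p a = 1) (z : A) :
    T.n2 z ^ 2 = ∑ a, ∑ b, T.n2 (p a * z * p b) ^ 2 := by
  have : ∀ a b, T.n2 (p a * z * p b) ^ 2 = (T.τ (star z * p a * z * p b)).re := fun a b => by
    rw [T.n2_sq, star_mul, star_mul, (hp a).isSelfAdjoint.star_eq, (hp b).isSelfAdjoint.star_eq,
      mul_assoc, T.comm]
    simp only [mul_assoc]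
    rw [(hp b).isIdempotentElem.eq, ← mul_assoc (p a), (hp a).isIdempotentElem.eq]
  simp only [this, ← Complex.re_sum, ← map_sum, ← Finset.mul_sum, ← Finset.sum_mul, hs, mul_one]
  exact T.n2_sq z

theorem SD.n2_lr (D : TD T C) {Y : ι → A} (h : SD T P Y) (i : ι) {u v : A} (hu : u ∈ P)
    (hv : v ∈ P) : T.n2 (u * Y i * v) ^ 2 = T.n2 u ^ 2 * T.n2 v ^ 2 := by
  simpa [D.n2_lr, mul_pow] using CL_n2 h (fun _ _ _ => rfl)
    (CL_gen (D := D) (e := fun _ : Unit => i) () (Bs_P hu) (Bs_P hv))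

theorem capture (D : TD T C) (hf : T.Faith) (hR : Rich T P) {Y : ℕ → A} (h : SD T P Y)
    (hD : Dn T P Y) (x : A) {ε η : ℝ} (hε : 0 < ε) (hη : 0 < η) :
    ∃ Y' : ℕ → A, SD T P Y' ∧ Dn T P Y' ∧ T.n2 (Y' 0 - Y 0) ≤ η ∧ T.Nr P x ε (Y' 0) := by
  classical
  obtain ⟨b, hb, hxb⟩ := hD x _ (half_pos hε)
  obtain ⟨F, c, hc⟩ := nearF T hb
  have hδ : 0 < ε / 4 / (|c| + 1) := by positivity
  have hδc : (|c| + 1) * (ε / 4 / (|c| + 1)) = ε / 4 := by field_simp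
  generalize ε / 4 / (|c| + 1) = δ at hδ hδc
  obtain ⟨J, hJ⟩ := exists_nat_ge (max 4 (20 / δ ^ 2))
  have J4 : (4 : ℝ) ≤ J := (le_max_left _ _).trans hJ
  have J5 := (le_max_right _ _).trans hJ
  rw [div_le_comm₀ (by positivity) (by positivity)] at J5
  obtain ⟨p, p1, p2, p3, p4⟩ := hR J (by exact_mod_cast (by linarith : (0 : ℝ) < J))
  have hθ : 0 < 1 / (J : ℝ) := by positivity
  have hθ1 : 1 / (J : ℝ) ≤ 1 / 4 := by gcongr
  have hθJ : J * (1 / (J : ℝ)) = 1 := by field_simp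
  rw [← mul_one_div] at J5
  generalize 1 / (J : ℝ) = θ at *
  obtain ⟨Y', h1, h2, h3, h4, -⟩ := blocks D hf hθ hθ1 (fun a => ⟨(p1 a).1, (p1 a).2.1⟩) p2
    (fun a b hab m n => by
      obtain ⟨e, e1, e2, e3, e4⟩ := p4 (Finset.range m ×ˢ Finset.range (n + 1))
      exact ⟨⟨p a, p b, e, p1 a, p1 b, p2 a b hab, e1, fun i => e2 i a, fun i => e2 i b, e3,
        fun r hr j hj y hy => e4 _ (by simp [hr, hj]) y
          (Algebra.adjoin_mono (Set.union_subset_union_left _ (by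
            rintro _ (rfl | rfl) <;> simp)) hy)⟩, rfl, rfl⟩)
    h (N := F.sup id + 1) (by omega) (δ := √(19 * θ ^ 3)) (by positivity)
    (by rw [Real.sq_sqrt (by positivity)]; linarith [pow_pos hθ 3])
    (F.erase 0 ×ˢ Finset.univ.filter fun i => i.1 < i.2) (fun i hi => by
      simp only [Finset.mem_product, Finset.mem_erase, Finset.mem_filter, Finset.mem_univ,
        true_and] at hi
      exact ⟨hi.1.1, Nat.lt_succ_of_le (Finset.le_sup (f := id) hi.1.2), hi.2⟩) _ (lt_min hη hδ)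
  have cl : ∀ {Q : StarSubalgebra ℂ A} {y z : A} {a r : ℝ}, y ∈ Q.topologicalClosure → 0 < r →
      T.n2 (z - y) ≤ a → ∃ y' ∈ Q, T.n2 (z - y') < a + r := fun {Q y z a r} hy hr ha => by
    obtain ⟨y', h1, h2⟩ := Metric.mem_closure_iff.1 hy r hr
    rw [dist_eq_norm] at h2
    exact ⟨y', h1, by linarith [T.n2_tri z y y', T.n2_le_norm (y - y')]⟩
  refine ⟨Y', h1, fun z r hr => ?_, h3.trans (min_le_left _ _), ?_⟩
  · obtain ⟨y, hy, hz⟩ := hD z _ (half_pos hr)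
    rw [← Set.image_univ] at hy ⊢
    simpa using cl (h2 (StarSubalgebra.le_topologicalClosure _ hy)) (half_pos hr) hz.le
  obtain ⟨b', b1, -, b3⟩ := hc (gen P (Y' 0)).topologicalClosure δ
    (fun y hy => StarSubalgebra.le_topologicalClosure _ (gen_P _ hy)) hδ.le fun j hj => by
      by_cases hj0 : j = 0
      · subst hj0
        exact ⟨_, StarSubalgebra.le_topologicalClosure _ (gen_self _ _), h1.norm_le D hf 0,
          by rw [T.n2_sub_comm]; exact h3.trans (min_le_right _ _)⟩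
      have key : ∀ a b, ∃ g ∈ gen P (Y' 0), T.n2 (p a * (Y j - g) * p b) ^ 2 ≤
          19 * θ ^ 3 + if a = b then θ ^ 2 else 0 := fun a b => by
        have k1 : ∀ a b, a ≠ b → ∀ g z, T.n2 (p a * Y j * p b + p b * Y j * p a - g) < z →
            T.n2 (p a * (Y j - g) * p b) ^ 2 ≤ z ^ 2 := fun a b hab g z hz => by
          have e : p a * (Y j - g) * p b = p a * (p a * Y j * p b + p b * Y j * p a - g) * p b := by
            simp only [mul_sub, sub_mul, mul_add, ← mul_assoc, p2 a b hab, zero_mul,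
              add_zero, (p1 a).2.1.isIdempotentElem.eq]
            rw [mul_assoc _ (p b), (p1 b).2.1.isIdempotentElem.eq]
          refine pow_le_pow_left₀ (T.n2_nonneg _) ?_ 2
          rw [e]
          refine (T.n2_mul_le' _ _).trans ((mul_le_of_le_one_right (T.n2_nonneg _)
            (p1 b).2.1.norm_le).trans ((T.n2_mul_le _ _).trans ((mul_le_of_le_one_left
            (T.n2_nonneg _) (p1 a).2.1.norm_le).trans hz.le)))
        rcases lt_trichotomy a b with hab | rfl | hab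
        · obtain ⟨g, g1, g2⟩ := h4 (j, a, b) (by simp [hj0, hj, hab])
          refine ⟨g, g1, (k1 a b hab.ne g _ g2).trans ?_⟩
          rw [Real.sq_sqrt (by positivity), if_neg hab.ne, add_zero]
        · refine ⟨0, zero_mem _, ?_⟩
          rw [sub_zero, h.n2_lr D j (p1 a).1 (p1 a).1, T.n2_proj_sq (p1 a).2.1, (p1 a).2.2,
            if_pos rfl, Complex.ofReal_re]
          nlinarith [pow_pos hθ 3]
        · obtain ⟨g, g1, g2⟩ := h4 (j, b, a) (by simp [hj0, hj, hab])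
          refine ⟨g, g1, (k1 a b hab.ne' g _ (by rwa [add_comm])).trans ?_⟩
          rw [Real.sq_sqrt (by positivity), if_neg hab.ne', add_zero]
      choose g g1 g2 using key
      obtain ⟨y, y1, -, y2, y3⟩ := T.approx (StarSubalgebra.isClosed_topologicalClosure _) (h.1 j)
        (StarSubalgebra.le_topologicalClosure _ (sum_mem fun a (_ : a ∈ Finset.univ) =>
          sum_mem fun b (_ : b ∈ Finset.univ) =>
            mul_mem (mul_mem (gen_P _ (p1 a).1) (g1 a b)) (gen_P _ (p1 b).1)))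
      refine ⟨y, y1, y2.trans (h.norm_le D hf j), y3.trans ?_⟩
      refine (pow_le_pow_iff_left₀ (T.n2_nonneg _) hδ.le two_ne_zero).1 ?_
      rw [pyth (fun a => (p1 a).2.1) p3]
      have e : ∀ a b, p a * (Y j - ∑ a, ∑ b, p a * g a b * p b) * p b = p a * (Y j - g a b) * p b := by
        intro a b
        simp only [mul_sub, sub_mul, Finset.mul_sum, Finset.sum_mul]
        congr 1
        rw [Finset.sum_eq_single a (fun a' _ ha => by simp [← mul_assoc, p2 a a' ha.symm]) (by simp),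
          Finset.sum_eq_single b (fun b' _ hb => by simp [mul_assoc, p2 b' b hb]) (by simp)]
        rw [← mul_assoc, ← mul_assoc, (p1 a).2.1.isIdempotentElem.eq, mul_assoc,
          (p1 b).2.1.isIdempotentElem.eq]
      simp only [e]
      refine (Finset.sum_le_sum fun a _ => Finset.sum_le_sum fun b _ => g2 a b).trans ?_
      simp only [Finset.sum_add_distrib, Finset.sum_const, Finset.card_univ, Fintype.card_fin,
        nsmul_eq_mul, Finset.sum_ite_eq, Finset.mem_univ, if_true]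
      have : J * (J * (19 * θ ^ 3)) + J * θ ^ 2 = 19 * (J * θ) ^ 2 * θ + J * θ * θ := by ring
      rw [this, hθJ]
      linarith
  obtain ⟨y, y1, y2⟩ := cl (z := x) (a := ε / 2 + ε / 4) b1 (show 0 < ε / 4 by positivity)
    (by nlinarith [T.n2_tri x b b', le_abs_self c])
  exact ⟨y, y1, by linarith⟩

end Crest.Agent.R134
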