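import Crest.Agent.R134.Let

/-! Row 134: uniqueness of moments and the graph of the free difference quotient. -/

set_option autoImplicit false
set_option linter.unusedSectionVars false

open scoped InnerProductSpace ComplexOrder
open Crest.OpAlg Crest.Agent.R124 Crest.Agent.R95

namespace Crest.Agent.R134

variable {A C : Type*} [CStarAlgebra A] [CStarAlgebra C] {T : TS A} {P : StarSubalgebra ℂ A}
  {ι κ : Type*}

theorem OK.append {u v : List (ι ⊕ A)} (hu : OK P u) (hv : OK P v) : OK P (u ++ v) :=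
  fun x hx => (List.mem_append.1 hx).elim (hu x) (hv x)

theorem OK.left {u v : List (ι ⊕ A)} (h : OK P (u ++ v)) : OK P u :=
  fun x hx => h x (List.mem_append_left _ hx)

theorem OK.right {u v : List (ι ⊕ A)} (h : OK P (u ++ v)) : OK P v :=
  fun x hx => h x (List.mem_append_right _ hx)

theorem OK.tail {a : ι ⊕ A} {v : List (ι ⊕ A)} (h : OK P (a :: v)) : OK P v :=
  fun x hx => h x (List.mem_cons_of_mem _ hx)

theorem OK.inl {j : ι} {v : List (ι ⊕ A)} (h : OK P v) : OK P (Sum.inl j :: v) :=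
  fun x hx => h x (by simpa using hx)

theorem uniqJ {Y Y' : ι → A} {J : Set ι} (h : SDJ T P Y J) (h' : SDJ T P Y' J)
    (e : ∀ j ∉ J, Y j = Y' j) (w : List (ι ⊕ A)) (hw : OK P w) :
    T.τ (wp Y w) = T.τ (wp Y' w) := by
  induction hn : w.length using Nat.strong_induction_on generalizing w with
  | _ n ih =>
  by_cases hJ : ∃ j ∈ J, Sum.inl j ∈ w
  · obtain ⟨j, hj, hm⟩ := hJ
    obtain ⟨u, v, rfl⟩ := List.append_of_mem hm
    have ho : OK P (v ++ u) := hw.right.tail.append hw.left
    have key : ∀ Z : ι → A, T.τ (wp Z (u ++ Sum.inl j :: v)) = T.τ (Z j * wp Z (v ++ u)) :=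
      fun Z => by rw [wp_append, T.comm, wp_inl, wp_append, mul_assoc]
    rw [key, key, h j hj _ ho, h' j hj _ ho]
    refine ssum_congr fun u' a v' e' => ?_
    have hl := congrArg List.length e'
    simp only [List.length_append, List.length_cons] at hl hn
    rw [e'] at ho
    rw [ih _ (by omega) u' ho.left rfl, ih _ (by omega) v' ho.right.tail rfl]
  · push Not at hJ
    congr 1
    refine congrArg List.prod (List.map_congr_left ?_)
    rintro (j | x) ha
    · exact e j fun hj => hJ j hj ha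
    · rfl

theorem SD.of_moments {Y Y' : ι → A} (h : SD T P Y) (sa : ∀ j, IsSelfAdjoint (Y' j))
    (hm : ∀ w, OK P w → T.τ (wp Y w) = T.τ (wp Y' w)) : SD T P Y' := by
  refine ⟨sa, fun j _ w hw => ?_⟩
  rw [← wp_inl, ← hm _ hw.inl, wp_inl, h.2 j trivial w hw]
  refine ssum_congr fun u a v e => ?_
  rw [e] at hw
  rw [hm u hw.left, hm v hw.right.tail]

theorem SD.of_J {Y Y' : ι → A} {J : Set ι} (h : SD T P Y) (sa : ∀ j, IsSelfAdjoint (Y' j))
    (h' : SDJ T P Y' J) (e : ∀ j ∉ J, Y j = Y' j) : SD T P Y' :=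
  h.of_moments sa (uniqJ (fun j _ => h.2 j trivial) h' e)

theorem wp_map (Y : ι → A) (e : κ → ι) (w : List (κ ⊕ A)) :
    wp Y (w.map (Sum.map e id)) = wp (fun k => Y (e k)) w := by
  simp only [wp, List.map_map]
  congr 2
  funext a; cases a <;> rfl

theorem OK.map (e : κ → ι) {w : List (κ ⊕ A)} (h : OK P w) : OK P (w.map (Sum.map e id)) := by
  intro x hx
  obtain ⟨a, ha, e⟩ := List.mem_map.1 hx
  cases a with
  | inl a => cases e
  | inr a => cases e; exact h _ ha

theorem SD.comp {Y : ι → A} (h : SD T P Y) {e : κ → ι} (he : Function.Injective e) :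
    SD T P fun k => Y (e k) := by
  refine ⟨fun k => h.1 _, fun j _ w hw => ?_⟩
  rw [← wp_map, h.2 _ trivial _ (hw.map e), ssum_map]
  refine ssum_congr fun u a v _ => ?_
  rw [wp_map, wp_map]
  congr 1
  cases a <;> simp [he.eq_iff]

theorem SD.single {Y : ι → A} (h : SD T P Y) (j : ι) : SD T P fun _ : Unit => Y j :=
  h.comp (e := fun _ => j) fun _ _ _ => rfl

theorem clspan_ind {R V : Type*} [Semiring R] [AddCommGroup V] [Module R V] [TopologicalSpace V]
    [ContinuousAdd V] [ContinuousConstSMul R V] {S : Set V} {p : V → Prop}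
    (hc : IsClosed {z | p z}) (h0 : p 0) (ha : ∀ x y, p x → p y → p (x + y))
    (hs : ∀ (c : R) x, p x → p (c • x)) (hg : ∀ x ∈ S, p x) {z : V}
    (hz : z ∈ (Submodule.span R S).topologicalClosure) : p z := by
  let Q : Submodule R V :=
    { carrier := {z | p z}
      zero_mem' := h0
      add_mem' := fun {a b} => ha a b
      smul_mem' := hs }
  exact Submodule.topologicalClosure_minimal _ (t := Q) (Submodule.span_le.2 fun x hx => hg x hx) hc hz

theorem _root_.Crest.Agent.R95.TS.cont (T : TS A) : Continuous T.τ :=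
  (T.τ.mkContinuous 1 fun x => by simpa using T.norm_τ_le x).continuous

theorem _root_.Crest.Agent.R95.TS.cont_n2 (T : TS A) : Continuous T.n2 := by
  have : T.n2 = fun x => √(T.τ (star x * x)).re := funext T.n2_eq
  have := T.cont
  rw [‹T.n2 = _›]; fun_prop

variable (D : TD T C) (P) (Y : ι → A) (e : κ → ι)

open Classical in
/-- The free difference quotients of a word. -/
noncomputable def dw (w : List (ι ⊕ A)) : κ → C := fun k =>
  ssum (fun u a v => if a = Sum.inl (e k) then D.l (wp Y u) * D.r (wp Y v) else 0) w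

/-- The closed graph of the free difference quotients. -/
noncomputable def Gr : Submodule ℂ (A × (κ → C)) :=
  (Submodule.span ℂ {z | ∃ w, OK P w ∧ z = (wp Y w, dw D Y e w)}).topologicalClosure

/-- The closed algebra generated by `P` and a subfamily. -/
noncomputable def Bs (J : Set ι) : StarSubalgebra ℂ A :=
  (StarAlgebra.adjoin ℂ ((P : Set A) ∪ Y '' J)).topologicalClosure

variable {D P Y e}

theorem Gr_closed : IsClosed (Gr P D Y e : Set (A × (κ → C))) :=
  Submodule.isClosed_topologicalClosure _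

theorem Gr_word {w : List (ι ⊕ A)} (hw : OK P w) : (wp Y w, dw D Y e w) ∈ Gr P D Y e :=
  Submodule.le_topologicalClosure _ (Submodule.subset_span ⟨w, hw, rfl⟩)

theorem mul_ssum {Λ : Type*} (c : C) (F : List Λ → Λ → List Λ → C) (w : List Λ) :
    c * ssum F w = ssum (fun u a v => c * F u a v) w :=
  map_ssum (AddMonoidHom.mulLeft c) F w

theorem lb_word (w w' : List (ι ⊕ A)) :
    lb D (wp Y w, dw D Y e w) (wp Y w', dw D Y e w') = (wp Y (w ++ w'), dw D Y e (w ++ w')) := by
  refine Prod.ext (wp_append _ _ _).symm (funext fun k => ?_)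
  simp only [lb, dw, ssum_append, mul_ssum, mul_ite, mul_zero, wp_append, D.r_mul, D.l_mul,
    ← mul_assoc, D.comm]

theorem cont_lb : Continuous fun z : (A × (κ → C)) × (A × (κ → C)) => lb D z.1 z.2 := by
  unfold lb; fun_prop

theorem Gr_mul {z z' : A × (κ → C)} (hz : z ∈ Gr P D Y e) (hz' : z' ∈ Gr P D Y e) :
    lb D z z' ∈ Gr P D Y e := by
  refine clspan_ind (p := fun z => lb D z z' ∈ Gr P D Y e)
    (Gr_closed.preimage (cont_lb.comp (Continuous.prodMk_left z'))) ?_ ?_ ?_ ?_ hz
  · convert zero_mem (Gr P D Y e) using 1; ext <;> simp [lb]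
  · intro x y hx hy
    convert add_mem hx hy using 1
    ext <;> simp only [lb, Prod.fst_add, Prod.snd_add, Pi.add_apply, map_add, add_mul, mul_add]
    abel
  · intro c x hx
    convert Submodule.smul_mem _ c hx using 1
    ext <;> simp [lb]
  rintro _ ⟨w, hw, rfl⟩
  refine clspan_ind (p := fun z' => lb D (wp Y w, dw D Y e w) z' ∈ Gr P D Y e)
    (Gr_closed.preimage (cont_lb.comp (Continuous.prodMk_right _))) ?_ ?_ ?_ ?_ hz'
  · convert zero_mem (Gr P D Y e) using 1; ext <;> simp [lb]
  · intro x y hx hy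
    convert add_mem hx hy using 1
    ext <;> simp only [lb, Prod.fst_add, Prod.snd_add, Pi.add_apply, map_add, add_mul, mul_add]
    abel
  · intro c x hx
    convert Submodule.smul_mem _ c hx using 1
    ext <;> simp [lb]
  rintro _ ⟨w', hw', rfl⟩
  rw [lb_word]
  exact Gr_word (hw.append hw')

theorem Gr_P {x : A} (hx : x ∈ P) : (x, 0) ∈ Gr P D Y e := by
  convert Gr_word (D := D) (Y := Y) (e := e) (w := [Sum.inr x]) (by simpa [OK] using hx) using 2
  · simp
  · ext k; simp [dw, ssum_cons]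

theorem Gr_off {j : ι} (hj : j ∉ Set.range e) : (Y j, 0) ∈ Gr P D Y e := by
  convert Gr_word (P := P) (D := D) (Y := Y) (e := e) (w := [Sum.inl j]) (by simp [OK]) using 2
  · simp
  · ext k
    have : j ≠ e k := fun h => hj ⟨k, h.symm⟩
    simp [dw, ssum_cons, this]

theorem Gr_gen [DecidableEq κ] (he : Function.Injective e) (k : κ) :
    (Y (e k), Pi.single k 1) ∈ Gr P D Y e := by
  convert Gr_word (P := P) (D := D) (Y := Y) (e := e) (w := [Sum.inl (e k)]) (by simp [OK]) using 2
  · simp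
  · ext k'
    simp [dw, ssum_cons, he.eq_iff, D.l_one, D.r_one, Pi.single_apply, eq_comm]

theorem Gr_sd (h : SD T P Y) (k : κ) {z : A × (κ → C)} (hz : z ∈ Gr P D Y e) :
    T.τ (Y (e k) * z.1) = D.T2.τ (z.2 k) := by
  have c1 := T.cont
  have c2 := D.T2.cont
  refine clspan_ind (p := fun z => T.τ (Y (e k) * z.1) = D.T2.τ (z.2 k))
    (isClosed_eq (by fun_prop) (by fun_prop)) (by simp) ?_ ?_ ?_ hz
  · intro x y hx hy
    simp only [Prod.fst_add, Prod.snd_add, Pi.add_apply, mul_add, map_add, hx, hy]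
  · intro c x hx
    simp only [Prod.smul_fst, Prod.smul_snd, Pi.smul_apply, mul_smul_comm, map_smul, hx]
  rintro _ ⟨w, hw, rfl⟩
  simp only [h.2 _ trivial w hw, dw, map_ssum]
  refine ssum_congr fun u a v _ => ?_
  split_ifs
  · rw [D.τ_lr]
  · simp

theorem Bs_closed {J : Set ι} : IsClosed (Bs P Y J : Set A) :=
  StarSubalgebra.isClosed_topologicalClosure _

theorem Bs_P {J : Set ι} {x : A} (hx : x ∈ P) : x ∈ Bs P Y J :=
  StarSubalgebra.le_topologicalClosure _ (StarAlgebra.subset_adjoin _ _ (Or.inl hx))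

theorem Bs_Y {J : Set ι} {j : ι} (hj : j ∈ J) : Y j ∈ Bs P Y J :=
  StarSubalgebra.le_topologicalClosure _ (StarAlgebra.subset_adjoin _ _ (Or.inr ⟨j, hj, rfl⟩))

theorem Bs_le {J : Set ι} {Q : StarSubalgebra ℂ A} (hQ : IsClosed (Q : Set A)) (hP : P ≤ Q)
    (hY : ∀ j ∈ J, Y j ∈ Q) : Bs P Y J ≤ Q :=
  StarSubalgebra.topologicalClosure_minimal (StarAlgebra.adjoin_le (by
    rintro x (hx | ⟨j, hj, rfl⟩)
    · exact hP hx
    · exact hY j hj)) hQ

theorem Gr_B (h : SD T P Y) {x : A} (hx : x ∈ Bs P Y (Set.range e)ᶜ) : (x, 0) ∈ Gr P D Y e := by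
  let Q : StarSubalgebra ℂ A :=
    { carrier := {x | (x, 0) ∈ Gr P D Y e ∧ (star x, 0) ∈ Gr P D Y e}
      mul_mem' := fun {a b} ha hb => ⟨by simpa [lb, Pi.zero_def] using Gr_mul ha.1 hb.1,
        by simpa [lb, Pi.zero_def] using Gr_mul hb.2 ha.2⟩
      add_mem' := fun {a b} ha hb => ⟨by simpa using add_mem ha.1 hb.1,
        by simpa using add_mem ha.2 hb.2⟩
      algebraMap_mem' := fun c => ⟨Gr_P (algebraMap_mem P c), Gr_P (star_mem (algebraMap_mem P c))⟩
      star_mem' := fun {a} ha => ⟨ha.2, by simpa using ha.1⟩ }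
  have hQ : IsClosed (Q : Set A) := (Gr_closed.preimage (by fun_prop)).inter
    (Gr_closed.preimage (f := fun x : A => (star x, (0 : κ → C))) (by fun_prop))
  exact (Bs_le hQ (fun x hx => ⟨Gr_P hx, Gr_P (star_mem hx)⟩)
    (fun j hj => ⟨Gr_off hj, by rw [(h.1 j).star_eq]; exact Gr_off hj⟩) hx).1

theorem Gr_prod {Λ : Type*} (f : Λ → A) (V : Λ → κ → C) (w : List Λ)
    (h : ∀ a ∈ w, (f a, V a) ∈ Gr P D Y e) :
    ((w.map f).prod, fun k => ssum (fun u a v =>
      D.l (u.map f).prod * D.r (v.map f).prod * V a k) w) ∈ Gr P D Y e := by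
  induction w with
  | nil => exact Gr_P (one_mem P)
  | cons a w ih =>
    convert Gr_mul (h a List.mem_cons_self) (ih fun b hb => h b (List.mem_cons_of_mem _ hb))
      using 1
    refine Prod.ext (by simp [lb]) (funext fun k => ?_)
    simp only [lb, ssum_cons, List.map_nil, List.prod_nil, D.l_one, one_mul, mul_ssum,
      List.map_cons, List.prod_cons, D.l_mul, mul_assoc]

end Crest.Agent.R134
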