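import Crest.Agent.R134.Core1

/-! Row 134: first-chaos elements and their norms. -/

set_option autoImplicit false
set_option linter.unusedSectionVars false

open scoped InnerProductSpace ComplexOrder
open Crest.OpAlg Crest.Agent.R124 Crest.Agent.R95 Filter Topology

namespace Crest.Agent.R134

variable {A C : Type*} [CStarAlgebra A] [CStarAlgebra C] {T : TS A} {P : StarSubalgebra ℂ A}
  {ι κ : Type*}

theorem norm_le_of_moments (hf : T.Faith) {y : A} (hy : IsSelfAdjoint y) {R : ℝ} (hR : 0 ≤ R)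
    (h : ∀ k, T.n2 (y ^ k) ≤ R ^ k) : ‖y‖ ≤ R := by
  refine le_of_forall_gt_imp_ge_of_dense fun R' hR' => ?_
  have hR0 : 0 < R' := hR.trans_lt hR'
  let f : ℝ → ℝ := fun t => max (|t| - R') 0
  have hfc : Continuous f := by fun_prop
  have h1 : ∀ k, T.n2 (cfc f y) ≤ ‖cfc f y‖ * (R / R') ^ k := fun k => by
    have h2 := T.re_τ_cfc y y (f := fun t => f t ^ 2 * (t ^ (2 * k) - R' ^ (2 * k)))
      (g := fun _ => 1) (by fun_prop) (by fun_prop) (fun t _ => by
        rcases le_total |t| R' with h | h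
        · simp [f, max_eq_right (sub_nonpos.2 h)]
        · refine mul_nonneg (sq_nonneg _) (sub_nonneg.2 ?_)
          rw [pow_mul, pow_mul, ← sq_abs t]
          gcongr) fun _ => zero_le_one
    have e : cfc (fun t => f t ^ 2 * (t ^ (2 * k) - R' ^ (2 * k))) y =
        star (cfc f y * y ^ k) * (cfc f y * y ^ k) - (R' ^ (2 * k)) • (star (cfc f y) * cfc f y) := by
      have e1 : cfc f y * y ^ k = cfc (fun t => f t * t ^ k) y := by
        rw [cfc_mul _ _ y, cfc_pow_id y k]
      rw [e1, (cfc_predicate _ _ : IsSelfAdjoint _).star_eq,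
        (cfc_predicate _ _ : IsSelfAdjoint _).star_eq, ← cfc_mul _ _ y, ← cfc_mul _ _ y,
        ← cfc_const_mul _ _ y, ← cfc_sub _ _ y]
      exact cfc_congr fun t _ => by ring
    rw [cfc_const_one ℝ y, mul_one, e, map_sub, T.τ_rsmul, Complex.sub_re, Complex.re_ofReal_mul,
      ← T.n2_sq, ← T.n2_sq, pow_mul', ← mul_pow, sub_nonneg,
      pow_le_pow_iff_left₀ (mul_nonneg (by positivity) (T.n2_nonneg _)) (T.n2_nonneg _)
        two_ne_zero] at h2
    have h3 := (T.n2_mul_le (cfc f y) (y ^ k)).trans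
      (mul_le_mul_of_nonneg_left (h k) (norm_nonneg _))
    rw [div_pow, ← mul_div_assoc, le_div_iff₀ (by positivity)]
    linarith
  have h2 : cfc f y = 0 := hf _ (le_antisymm (ge_of_tendsto' (by
    simpa using (tendsto_pow_atTop_nhds_zero_of_lt_one (by positivity)
      ((div_lt_one hR0).2 hR')).const_mul ‖cfc f y‖) h1) (T.n2_nonneg _))
  rw [← cfc_zero ℝ y] at h2
  have h3 := eqOn_of_cfc_eq_cfc h2
  rw [← cfc_id' ℝ y]
  refine norm_cfc_le hR0.le fun t ht => ?_
  have := h3 ht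
  simp only [f, Pi.zero_apply, max_eq_right_iff] at this
  rw [Real.norm_eq_abs]; linarith

theorem sum_range_odd (f : ℕ → ℝ) (j : ℕ) : ∑ a ∈ Finset.range (2 * j + 1), f a =
    ∑ i ∈ Finset.range (j + 1), f (2 * i) + ∑ i ∈ Finset.range j, f (2 * i + 1) := by
  induction j with
  | zero => simp
  | succ j ih =>
    rw [show 2 * (j + 1) + 1 = 2 * j + 1 + 1 + 1 by ring, Finset.sum_range_succ,
      Finset.sum_range_succ, ih, Finset.sum_range_succ _ (j + 1),
      Finset.sum_range_succ (fun i => f (2 * i + 1)) j, show 2 * (j + 1) = 2 * j + 1 + 1 by ring]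
    ring

theorem cat_bound {N : ℕ → ℝ} {R : ℝ} (hR : 0 ≤ R) (h0 : N 0 ^ 2 ≤ 1)
    (h : ∀ j, N (j + 1) ^ 2 ≤ R * ∑ a ∈ Finset.range (2 * j + 1),
      N (a / 2) * N ((a + 1) / 2) * (N ((2 * j - a) / 2) * N ((2 * j - a + 1) / 2))) (k : ℕ) :
    N k ^ 2 ≤ (8 * R) ^ k := by
  have key : ∀ k, N k ^ 2 ≤ catalan k * (2 * R) ^ k := fun k => by
    induction k using Nat.strong_induction_on with
    | _ k ih =>
    rcases k with _ | j
    · simpa using h0
    refine (h j).trans ?_
    have s0 : ∑ i ∈ Finset.range (j + 1), N i ^ 2 * N (j - i) ^ 2 ≤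
        catalan (j + 1) * (2 * R) ^ j := by
      rw [catalan_succ, Fin.sum_univ_eq_sum_range (fun i => catalan i * catalan (j - i)),
        Nat.cast_sum, Finset.sum_mul]
      refine Finset.sum_le_sum fun i hi => ?_
      have hi' := Finset.mem_range.1 hi
      refine (mul_le_mul (ih i hi') (ih (j - i) (by omega)) (sq_nonneg _) (by positivity)).trans
        (le_of_eq ?_)
      rw [mul_mul_mul_comm, ← pow_add, Nat.add_sub_cancel' (by omega)]; push_cast; ring
    have s1 : ∑ i ∈ Finset.range j, N i ^ 2 * N (j - i) ^ 2 ≤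
        ∑ i ∈ Finset.range (j + 1), N i ^ 2 * N (j - i) ^ 2 := by
      rw [Finset.sum_range_succ]; exact le_add_of_nonneg_right (by positivity)
    have s2 : ∑ i ∈ Finset.range j, N (i + 1) ^ 2 * N (j - (i + 1)) ^ 2 ≤
        ∑ i ∈ Finset.range (j + 1), N i ^ 2 * N (j - i) ^ 2 := by
      rw [Finset.sum_range_succ']; exact le_add_of_nonneg_right (by positivity)
    rw [sum_range_odd]
    have s3 : ∑ i ∈ Finset.range (j + 1), N (2 * i / 2) * N ((2 * i + 1) / 2) *
        (N ((2 * j - 2 * i) / 2) * N ((2 * j - 2 * i + 1) / 2)) =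
        ∑ i ∈ Finset.range (j + 1), N i ^ 2 * N (j - i) ^ 2 := Finset.sum_congr rfl fun i _ => by
      rw [show 2 * i / 2 = i by omega, show (2 * i + 1) / 2 = i by omega,
        show (2 * j - 2 * i) / 2 = j - i by omega, show (2 * j - 2 * i + 1) / 2 = j - i by omega]
      ring
    have s4 : ∑ i ∈ Finset.range j, N ((2 * i + 1) / 2) * N ((2 * i + 1 + 1) / 2) *
        (N ((2 * j - (2 * i + 1)) / 2) * N ((2 * j - (2 * i + 1) + 1) / 2)) ≤
        ∑ i ∈ Finset.range j, (1 / 2 * (N i ^ 2 * N (j - i) ^ 2) +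
          1 / 2 * (N (i + 1) ^ 2 * N (j - (i + 1)) ^ 2)) := Finset.sum_le_sum fun i hi => by
      have hi' := Finset.mem_range.1 hi
      rw [show (2 * i + 1 + 1) / 2 = i + 1 by omega, show (2 * i + 1) / 2 = i by omega,
        show (2 * j - (2 * i + 1)) / 2 = j - (i + 1) by omega,
        show (2 * j - (2 * i + 1) + 1) / 2 = j - i by omega]
      nlinarith [sq_nonneg (N i * N (j - i) - N (i + 1) * N (j - (i + 1)))]
    rw [Finset.sum_add_distrib, ← Finset.mul_sum, ← Finset.mul_sum] at s4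
    rw [s3, pow_succ]
    nlinarith
  refine (key k).trans ?_
  have : (catalan k : ℝ) ≤ 4 ^ k := by
    have h1 : catalan k ≤ 2 ^ (2 * k) := by
      rw [catalan_eq_centralBinom_div]
      exact (Nat.div_le_self _ _).trans (Nat.choose_le_two_pow _ _)
    rw [pow_mul] at h1
    exact_mod_cast h1
  rw [show 8 * R = 4 * (2 * R) by ring, mul_pow 4]
  gcongr

namespace TD
variable (D : TD T C)

theorem star_lr (u v : A) : star (D.l u * D.r v) = D.l (star u) * D.r (star v) := by
  rw [star_mul, ← D.l_star, ← D.r_star, D.comm]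

theorem lr_mul (u v u' v' : A) :
    D.l u * D.r v * (D.l u' * D.r v') = D.l (u * u') * D.r (v' * v) := by
  rw [D.l_mul, D.r_mul, mul_assoc, ← mul_assoc (D.r v), D.comm]; simp only [mul_assoc]

theorem n2_lr (u v : A) : D.T2.n2 (D.l u * D.r v) = T.n2 u * T.n2 v := by
  rw [← pow_left_inj₀ (D.T2.n2_nonneg _) (mul_nonneg (T.n2_nonneg _) (T.n2_nonneg _)) two_ne_zero,
    TS.n2_sq, star_lr, lr_mul, D.τ_lr, mul_pow, T.n2_sq, ← T.n2_star v, T.n2_sq, star_star,
    Complex.mul_re, T.τ_sa (IsSelfAdjoint.star_mul_self u), zero_mul, sub_zero]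

end TD

variable (D : TD T C) (P) (Y : ι → A) (e : κ → ι) [Fintype κ] [DecidableEq κ]

/-- First-chaos elements with their coefficients. -/
noncomputable def CL : Submodule ℂ (A × (κ → C)) :=
  (Submodule.span ℂ {z | ∃ k, ∃ u ∈ Bs P Y (Set.range e)ᶜ, ∃ v ∈ Bs P Y (Set.range e)ᶜ,
    z = (u * Y (e k) * v, Pi.single k (D.l u * D.r v))}).topologicalClosure

variable {D P Y e}

theorem CL_closed : IsClosed (CL P D Y e : Set (A × (κ → C))) :=
  Submodule.isClosed_topologicalClosure _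

theorem CL_gen (k : κ) {u v : A} (hu : u ∈ Bs P Y (Set.range e)ᶜ) (hv : v ∈ Bs P Y (Set.range e)ᶜ) :
    (u * Y (e k) * v, Pi.single k (D.l u * D.r v)) ∈ CL P D Y e :=
  Submodule.le_topologicalClosure _ (Submodule.subset_span ⟨k, u, hu, v, hv, rfl⟩)

theorem CL_Y (k : κ) : (Y (e k), Pi.single k 1) ∈ CL P D Y e := by
  simpa [D.l_one, D.r_one] using CL_gen (D := D) (Y := Y) (e := e) k (one_mem (Bs P Y _))
    (one_mem (Bs P Y _))

theorem Gr_lr (h : SD T P Y) {u v : A} (hu : u ∈ Bs P Y (Set.range e)ᶜ)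
    (hv : v ∈ Bs P Y (Set.range e)ᶜ) {z : A × (κ → C)} (hz : z ∈ Gr P D Y e) :
    (u * z.1 * v, fun k => D.l u * D.r v * z.2 k) ∈ Gr P D Y e := by
  convert Gr_mul (Gr_mul (Gr_B h hu) hz) (Gr_B h hv) using 1
  refine Prod.ext rfl (funext fun k => ?_)
  simp [lb, ← mul_assoc, D.comm]

theorem CL_Gr (h : SD T P Y) (he : Function.Injective e) {z : A × (κ → C)} (hz : z ∈ CL P D Y e) :
    z ∈ Gr P D Y e := by
  refine Submodule.topologicalClosure_minimal _ (Submodule.span_le.2 ?_) Gr_closed hz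
  rintro _ ⟨k, u, hu, v, hv, rfl⟩
  rw [SetLike.mem_coe]
  convert Gr_lr (D := D) h hu hv (Gr_gen he k) using 2
  ext k'
  simp [Pi.single_apply]

theorem CL_lr {u v : A} (hu : u ∈ Bs P Y (Set.range e)ᶜ) (hv : v ∈ Bs P Y (Set.range e)ᶜ)
    {z : A × (κ → C)} (hz : z ∈ CL P D Y e) :
    (u * z.1 * v, fun k => D.l u * D.r v * z.2 k) ∈ CL P D Y e := by
  refine clspan_ind (p := fun z => (u * z.1 * v, fun k => D.l u * D.r v * z.2 k) ∈ CL P D Y e)
    (CL_closed.preimage (by fun_prop)) ?_ ?_ ?_ ?_ hz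
  · convert zero_mem (CL P D Y e) using 1; ext <;> simp
  · intro x y hx hy
    convert add_mem hx hy using 1
    ext <;> simp [mul_add, add_mul]
  · intro c x hx
    convert Submodule.smul_mem _ c hx using 1
    ext <;> simp
  rintro _ ⟨k, u', hu', v', hv', rfl⟩
  convert CL_gen (D := D) k (mul_mem hu hu') (mul_mem hv' hv) using 2
  · simp only [mul_assoc]
  · ext k'
    simp only [Pi.single_apply, mul_ite, mul_zero, D.lr_mul]

theorem CL_pair (h : SD T P Y) {z z' : A × (κ → C)} (hz : z ∈ CL P D Y e) (hz' : z' ∈ Gr P D Y e) :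
    T.τ (star z.1 * z'.1) = ∑ k, D.T2.τ (star (z.2 k) * z'.2 k) := by
  have c1 := T.cont
  have c2 := D.T2.cont
  refine clspan_ind (p := fun z => T.τ (star z.1 * z'.1) = ∑ k, D.T2.τ (star (z.2 k) * z'.2 k))
    (isClosed_eq (by fun_prop) (by fun_prop)) (by simp) ?_ ?_ ?_ hz
  · intro x y hx hy
    simp only [Prod.fst_add, Prod.snd_add, Pi.add_apply, star_add, add_mul, map_add, hx, hy,
      Finset.sum_add_distrib]
  · intro c x hx
    simp only [Prod.smul_fst, Prod.smul_snd, Pi.smul_apply, star_smul, smul_mul_assoc, map_smul, hx,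
      Finset.smul_sum]
  rintro _ ⟨k, u, hu, v, hv, rfl⟩
  have := Gr_sd h k (Gr_lr h (star_mem hu) (star_mem hv) hz')
  simp only at this ⊢
  rw [Finset.sum_eq_single k (fun k' _ hk => by simp [hk]) (by simp), Pi.single_eq_same, D.star_lr,
    ← this, star_mul, star_mul, (h.1 _).star_eq, mul_assoc, T.comm]
  simp only [mul_assoc]

theorem CL_n2 (h : SD T P Y) (he : Function.Injective e) {z : A × (κ → C)} (hz : z ∈ CL P D Y e) :
    T.n2 z.1 ^ 2 = ∑ k, D.T2.n2 (z.2 k) ^ 2 := by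
  simp only [TS.n2_sq, CL_pair h hz (CL_Gr h he hz), Complex.re_sum]

theorem CL_uniq (hf : T.Faith) (h : SD T P Y) (he : Function.Injective e) {y y' : A} {U : κ → C}
    (hy : (y, U) ∈ CL P D Y e) (hy' : (y', U) ∈ CL P D Y e) : y = y' := by
  have := CL_n2 h he (sub_mem hy hy')
  simp only [Prod.mk_sub_mk, sub_self, Pi.zero_apply, TS.n2_zero, ne_eq, OfNat.ofNat_ne_zero,
    not_false_eq_true, zero_pow, Finset.sum_const_zero, pow_eq_zero_iff] at this
  exact sub_eq_zero.1 (hf _ this)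

theorem Gr_pow {y : A} {U : κ → C} (hz : (y, U) ∈ Gr P D Y e) (n : ℕ) :
    (y ^ n, fun k => ∑ a ∈ Finset.range n, D.l (y ^ a) * D.r (y ^ (n - 1 - a)) * U k) ∈
      Gr P D Y e := by
  induction n with
  | zero => simpa [Pi.zero_def] using Gr_P (D := D) (Y := Y) (e := e) (one_mem P)
  | succ n ih =>
    convert Gr_mul ih hz using 1
    refine Prod.ext (pow_succ _ _) (funext fun k => ?_)
    simp only [lb, Finset.sum_range_succ, Nat.add_sub_cancel, Nat.sub_self, pow_zero, D.r_one,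
      mul_one, Finset.mul_sum]
    congr 1
    refine Finset.sum_congr rfl fun a ha => ?_
    have := Finset.mem_range.1 ha
    rw [show n - a = n - 1 - a + 1 by omega, pow_succ, D.r_mul, ← mul_assoc, ← mul_assoc,
      ← mul_assoc, D.comm]

theorem CL_norm (hf : T.Faith) (h : SD T P Y) (he : Function.Injective e) {y : A} {U : κ → C}
    (hy : IsSelfAdjoint y) (hz : (y, U) ∈ CL P D Y e) : ‖y‖ ≤ 3 * ∑ k, ‖U k‖ := by
  have hR : 0 ≤ ∑ k, ‖U k‖ ^ 2 := by positivity
  have key := cat_bound (N := fun k => T.n2 (y ^ k)) hR (by simp [T.n2_one]) fun j => by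
    have h1 := CL_pair h hz (Gr_pow (CL_Gr h he hz) (2 * j + 1))
    simp only [hy.star_eq, Nat.add_sub_cancel, Finset.mul_sum, map_sum] at h1
    rw [T.n2_sq, (hy.pow _).star_eq, ← pow_add, show j + 1 + (j + 1) = 2 * j + 1 + 1 by ring,
      pow_succ', h1, Finset.sum_mul]
    refine (Complex.re_le_norm _).trans ((norm_sum_le _ _).trans (Finset.sum_le_sum fun k _ => ?_))
    rw [Finset.mul_sum]
    refine (norm_sum_le _ _).trans (Finset.sum_le_sum fun a _ => ?_)
    generalize 2 * j - a = b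
    have e1 : star (U k) * (D.l (y ^ a) * D.r (y ^ b) * U k) =
        star (D.l (y ^ (a / 2)) * D.r (y ^ (b / 2)) * U k) *
          (D.l (y ^ ((a + 1) / 2)) * D.r (y ^ ((b + 1) / 2)) * U k) := by
      rw [star_mul, D.star_lr, (hy.pow _).star_eq, (hy.pow _).star_eq, mul_assoc (star (U k)),
        ← mul_assoc (D.l _ * D.r _), D.lr_mul, ← pow_add, ← pow_add,
        show a / 2 + (a + 1) / 2 = a by omega, show (b + 1) / 2 + b / 2 = b by omega]
    rw [e1]
    refine (D.T2.cs _ _).trans ?_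
    rw [TS.n2_star]
    refine (mul_le_mul (D.T2.n2_mul_le' _ _) (D.T2.n2_mul_le' _ _) (D.T2.n2_nonneg _)
      (mul_nonneg (D.T2.n2_nonneg _) (norm_nonneg _))).trans (le_of_eq ?_)
    rw [D.n2_lr, D.n2_lr]; ring
  refine norm_le_of_moments hf hy (by positivity) fun k => ?_
  refine (pow_le_pow_iff_left₀ (T.n2_nonneg _) (by positivity) two_ne_zero).1 ((key k).trans ?_)
  rw [← pow_mul, mul_comm k, pow_mul]
  refine pow_le_pow_left₀ (by positivity) ?_ k
  have := Finset.sum_sq_le_sq_sum_of_nonneg (s := Finset.univ) (f := fun k => ‖U k‖)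
    fun _ _ => norm_nonneg _
  nlinarith

theorem SD.norm_le (D : TD T C) (hf : T.Faith) (h : SD T P Y) (j : ι) : ‖Y j‖ ≤ 3 := by
  have := CL_norm (D := D) (e := fun _ : Unit => j) hf h (fun _ _ _ => rfl) (h.1 j) (CL_Y ())
  have h1 : ‖(1 : C)‖ ≤ 1 := TS.norm_unitary_le (one_mem _)
  simp only [Finset.univ_unique, Finset.sum_singleton, PUnit.default_eq_unit,
    Pi.single_eq_same] at this
  linarith

end Crest.Agent.R134
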