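import Crest.Agent.R134.Core2

/-! Row 134: unitary moves of a free semicircular family. -/

set_option autoImplicit false
set_option linter.unusedSectionVars false

open scoped InnerProductSpace ComplexOrder
open Crest.OpAlg Crest.Agent.R124 Crest.Agent.R95 Filter Topology

namespace Crest.Agent.R134

variable {A C : Type*} [CStarAlgebra A] [CStarAlgebra C] {T : TS A} {P : StarSubalgebra ℂ A}
  {ι κ : Type*} {D : TD T C} {Y : ι → A} {e : κ → ι} [Fintype κ] [DecidableEq κ]

theorem act (hf : T.Faith) (h : SD T P Y) (he : Function.Injective e) {N : StarSubalgebra ℂ A}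
    (hN : N ≤ Bs P Y (Set.range e)ᶜ) {t : C} (ht : t ∈ RS D N) :
    ∀ (y : A) (U : κ → C), IsSelfAdjoint y → (y, U) ∈ CL P D Y e →
      ∃ y', IsSelfAdjoint y' ∧ (y', fun k => t * U k) ∈ CL P D Y e ∧
        ∀ Q : StarSubalgebra ℂ A, IsClosed (Q : Set A) → N ≤ Q → y ∈ Q → y' ∈ Q := by
  intro y U hy hU
  obtain ⟨s, hs, hlim⟩ := mem_closure_iff_seq_limit.1 ht
  have alg : ∀ t ∈ StarAlgebra.adjoin ℝ {t | ∃ u ∈ N, ∃ v ∈ N,
      t = D.l u * D.r v + D.l (star v) * D.r (star u)},
      ∀ (y : A) (U : κ → C), IsSelfAdjoint y → (y, U) ∈ CL P D Y e →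
      ∃ y', IsSelfAdjoint y' ∧ (y', fun k => t * U k) ∈ CL P D Y e ∧
        ∀ Q : StarSubalgebra ℂ A, IsClosed (Q : Set A) → N ≤ Q → y ∈ Q → y' ∈ Q := by
    intro t ht
    rw [← StarSubalgebra.mem_toSubalgebra, StarAlgebra.adjoin_toSubalgebra] at ht
    induction ht using Algebra.adjoin_induction with
    | mem t ht =>
      obtain ⟨u, hu, v, hv, rfl⟩ : ∃ u ∈ N, ∃ v ∈ N,
          t = D.l u * D.r v + D.l (star v) * D.r (star u) := by
        rcases ht with ht | ⟨u, hu, v, hv, ht⟩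
        · exact ht
        · refine ⟨star u, star_mem hu, star v, star_mem hv, ?_⟩
          rw [← star_star t, ht, star_add, D.star_lr, D.star_lr]
      intro y U hy hU
      refine ⟨u * y * v + star v * y * star u, ?_, ?_, fun Q _ hQ hyQ => add_mem
        (mul_mem (mul_mem (hQ hu) hyQ) (hQ hv))
        (mul_mem (mul_mem (hQ (star_mem hv)) hyQ) (hQ (star_mem hu)))⟩
      · simp only [IsSelfAdjoint, star_add, star_mul, star_star, hy.star_eq, mul_assoc, add_comm]
      · convert add_mem (CL_lr (hN hu) (hN hv) hU)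
          (CL_lr (hN (star_mem hv)) (hN (star_mem hu)) hU) using 1
        ext <;> simp [add_mul]
    | algebraMap c =>
      intro y U hy hU
      refine ⟨(c : ℂ) • y, ?_, ?_, fun Q _ _ hyQ => SMulMemClass.smul_mem _ hyQ⟩
      · rw [Complex.coe_smul]; exact (IsSelfAdjoint.all c).smul hy
      · convert Submodule.smul_mem _ (c : ℂ) hU using 1
        ext <;> simp [Algebra.algebraMap_eq_smul_one]
    | add a b _ _ ha hb =>
      intro y U hy hU
      obtain ⟨y₁, h1, h2, h3⟩ := ha y U hy hU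
      obtain ⟨y₂, h4, h5, h6⟩ := hb y U hy hU
      refine ⟨y₁ + y₂, h1.add h4, ?_, fun Q a b c => add_mem (h3 Q a b c) (h6 Q a b c)⟩
      convert add_mem h2 h5 using 1
      ext <;> simp [add_mul]
    | mul a b _ _ ha hb =>
      intro y U hy hU
      obtain ⟨y₁, h1, h2, h3⟩ := hb y U hy hU
      obtain ⟨y₂, h4, h5, h6⟩ := ha y₁ _ h1 h2
      exact ⟨y₂, h4, by simpa only [mul_assoc] using h5, fun Q a b c => h6 Q a b (h3 Q a b c)⟩
  choose g g1 g2 g3 using fun n => alg _ (hs n) y U hy hU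
  have hc : CauchySeq g := by
    refine Metric.cauchySeq_iff.2 fun ε hε => ?_
    have h0 : 0 < 3 * ∑ k, ‖U k‖ + 1 := by positivity
    obtain ⟨M, hM⟩ := Metric.cauchySeq_iff.1 hlim.cauchySeq _ (div_pos hε h0)
    refine ⟨M, fun a ha b hb => ?_⟩
    have h1 := CL_norm hf h he ((g1 a).sub (g1 b)) (sub_mem (g2 a) (g2 b))
    have h2 := hM a ha b hb
    rw [dist_eq_norm] at h2 ⊢
    rw [lt_div_iff₀ h0] at h2
    have h3 : ∑ k, ‖((fun k => s a * U k) - fun k => s b * U k) k‖ ≤ ‖s a - s b‖ * ∑ k, ‖U k‖ := by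
      rw [Finset.mul_sum]
      exact Finset.sum_le_sum fun k _ => by
        simp only [Pi.sub_apply, ← sub_mul]; exact norm_mul_le _ _
    nlinarith [norm_nonneg (s a - s b)]
  obtain ⟨y', hy'⟩ := cauchySeq_tendsto_of_complete hc
  refine ⟨y', ?_, CL_closed.mem_of_tendsto (hy'.prodMk_nhds (tendsto_pi_nhds.2 fun k =>
    hlim.mul_const (U k))) (Eventually.of_forall g2), fun Q hQ a b =>
    hQ.mem_of_tendsto hy' (Eventually.of_forall fun n => g3 n Q hQ a b)⟩
  exact tendsto_nhds_unique (hy'.star.congr fun n => (g1 n).star_eq) hy'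

theorem sum_ssum {Λ V α : Type*} [AddCommMonoid V] (s : Finset α)
    (F : α → List Λ → Λ → List Λ → V) (w : List Λ) :
    ∑ i ∈ s, ssum (F i) w = ssum (fun u a v => ∑ i ∈ s, F i u a v) w := by
  induction w generalizing F with
  | nil => simp
  | cons b w ih => simp only [ssum_cons, Finset.sum_add_distrib, ih]

theorem move (h : SD T P Y) (he : Function.Injective e) {Y' : ι → A} {U : κ → κ → C}
    (h1 : ∀ k, IsSelfAdjoint (Y' (e k)) ∧ (Y' (e k), U k) ∈ CL P D Y e)
    (hU : ∀ k k', ∑ l, U k l * star (U k' l) = if k = k' then 1 else 0)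
    (h2 : ∀ j ∉ Set.range e, Y j = Y' j) : SD T P Y' := by
  classical
  refine h.of_J (fun j => ?_) ?_ h2
  · by_cases hj : j ∈ Set.range e
    · obtain ⟨k, rfl⟩ := hj; exact (h1 k).1
    · rw [← h2 j hj]; exact h.1 j
  rintro _ ⟨k, rfl⟩ w hw
  let V : ι ⊕ A → κ → C := fun a => ∑ k', if a = Sum.inl (e k') then U k' else 0
  have hg := Gr_prod (P := P) (D := D) (Y := Y) (e := e) (Sum.elim Y' id) V w (by
    rintro (j | x) ha
    · by_cases hj : j ∈ Set.range e
      · obtain ⟨k, rfl⟩ := hj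
        simpa [V, he.eq_iff] using CL_Gr h he (h1 k).2
      · have : ∀ k, j ≠ e k := fun k h => hj ⟨k, h.symm⟩
        simpa [V, this, ← h2 j hj] using Gr_off hj
    · simpa [V] using Gr_P (hw x ha))
  have := CL_pair h (h1 k).2 hg
  simp only [(h1 k).1.star_eq, mul_ssum, map_ssum, sum_ssum] at this
  refine this.trans (ssum_congr fun u a v _ => ?_)
  have e1 : ∀ l, D.T2.τ (star (U k l) * (D.l (u.map (Sum.elim Y' id)).prod *
      D.r (v.map (Sum.elim Y' id)).prod * V a l)) =
      D.T2.τ (D.l (wp Y' u) * D.r (wp Y' v) * (V a l * star (U k l))) := fun l => by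
    rw [D.T2.comm, mul_assoc]; rfl
  simp only [e1, ← map_sum, ← Finset.mul_sum]
  by_cases ha : ∃ k', a = Sum.inl (e k')
  · obtain ⟨k', rfl⟩ := ha
    simp only [V, Sum.inl.injEq, he.eq_iff, Finset.sum_ite_eq, Finset.mem_univ, if_true, hU]
    split_ifs
    · rw [mul_one, D.τ_lr]
    · simp
  · push Not at ha
    simp [V, ha]

open Classical in
theorem drive (D : TD T C) (h : SD T P Y) {i : ι} {X X' : A} {c s : ℝ} (hX : X ∈ Bs P Y {i}ᶜ)
    (he : X' = c • X + s • Y i) (w : List (Unit ⊕ A)) (hw : OK P w) {z : A} (hz : z ∈ Bs P Y {i}ᶜ) :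
    T.τ (Y i * (wp (fun _ => X') w * z)) = ssum (fun u a v => if a = Sum.inl () then
        s * (T.τ (wp (fun _ => X') u) * T.τ (wp (fun _ => X') v * z)) else 0) w := by
  have hr : Set.range (fun _ : Unit => i) = {i} := Set.range_const
  rw [← hr] at hX hz
  have hg := Gr_prod (P := P) (D := D) (Y := Y) (e := fun _ : Unit => i) (Sum.elim (fun _ => X') id)
    (fun a _ => if a = Sum.inl () then (s : ℂ) • 1 else 0) w (by
    rintro (j | x) ha
    · convert add_mem (Submodule.smul_mem _ (c : ℂ) (Gr_B (D := D) h hX))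
        (Submodule.smul_mem _ (s : ℂ) (Gr_gen (fun _ _ _ => rfl) ())) using 1
      ext <;> simp [he]
    · simpa [Pi.zero_def] using Gr_P (hw x ha))
  have := Gr_sd h () (Gr_mul hg (Gr_B h hz))
  simp only [lb, Pi.zero_apply, mul_zero, add_zero, mul_ssum, map_ssum] at this
  refine this.trans (ssum_congr fun u a v _ => ?_)
  split_ifs
  · rw [mul_smul_comm, mul_one, mul_smul_comm, map_smul, ← mul_assoc, D.comm, mul_assoc, ← D.r_mul,
      D.τ_lr, smul_eq_mul]
    rfl
  · simp

/-- The pair of indices `i`, `j`. -/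
def pr (i j : ι) : Bool → ι := fun b => cond b i j

theorem pr_inj {i j : ι} (h : i ≠ j) : Function.Injective (pr i j) := by
  rintro (_ | _) (_ | _) <;> simp [pr, h, h.symm]

theorem range_pr (i j : ι) : Set.range (pr i j) = {i, j} := by
  ext x; simp [pr, eq_comm, or_comm]

theorem rot (D : TD T C) (h : SD T P Y) {i j : ι} (hij : i ≠ j) {c s : ℝ} (hcs : c ^ 2 + s ^ 2 = 1)
    {Y' : ι → A} (hi : Y' i = c • Y i + s • Y j) (hj : Y' j = (-s) • Y i + c • Y j)
    (h2 : ∀ k, k ≠ i → k ≠ j → Y' k = Y k) : SD T P Y' := by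
  have g : ∀ a b : ℝ, IsSelfAdjoint (a • Y i + b • Y j) ∧ (a • Y i + b • Y j,
      fun l => cond l (a • (1 : C)) (b • 1)) ∈ CL P D Y (pr i j) := fun a b => by
    refine ⟨((IsSelfAdjoint.all a).smul (h.1 i)).add ((IsSelfAdjoint.all b).smul (h.1 j)), ?_⟩
    convert add_mem (Submodule.smul_mem _ (a : ℂ) (CL_Y (P := P) (D := D) (Y := Y) (e := pr i j) true))
      (Submodule.smul_mem _ (b : ℂ) (CL_Y false)) using 1
    ext l
    · simp [pr]
    · cases l <;> simp
  refine move (D := D) h (pr_inj hij) (U := fun k l => cond k (cond l (c • 1) (s • 1))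
    (cond l ((-s) • 1) (c • 1))) ?_ ?_ fun k hk => ?_
  · rintro (_ | _)
    · simpa only [pr, cond_false, hj] using g (-s) c
    · simpa only [pr, cond_true, hi] using g c s
  · rintro (_ | _) (_ | _) <;>
      simp only [Fintype.sum_bool, cond_true, cond_false, star_smul, star_one, star_trivial,
        smul_mul_smul_comm, mul_one, ← add_smul] <;>
      simp [← sq, hcs, add_comm, mul_comm]
  · rw [range_pr] at hk
    simp only [Set.mem_insert_iff, Set.mem_singleton_iff, not_or] at hk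
    exact (h2 k hk.1 hk.2).symm

theorem RS_closed (N : StarSubalgebra ℂ A) : IsClosed (RS D N : Set C) :=
  StarSubalgebra.isClosed_topologicalClosure _

theorem exists_inv {N : StarSubalgebra ℂ A} {Z : C} (hZ : Z ∈ RS D N) :
    ∃ G ∈ RS D N, star G = G ∧ G * (1 + Z * star Z) = 1 ∧ (1 + Z * star Z) * G = 1 ∧
      ∀ x : C, 0 ≤ (D.T2.τ (star x * G * x)).re := by
  have := RS_closed (D := D) N
  have hsa : IsSelfAdjoint (Z * star Z) := IsSelfAdjoint.mul_star_self Z
  have hsp : ∀ t ∈ spectrum ℝ (Z * star Z), 0 ≤ t := by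
    let := CStarAlgebra.spectralOrder C
    have := CStarAlgebra.spectralOrderedRing C
    exact fun t ht => spectrum_nonneg_of_nonneg (mul_star_self_nonneg Z) ht
  have hm : Z * star Z ∈ RS D N := mul_mem hZ (star_mem hZ)
  generalize Z * star Z = a at hsa hsp hm
  obtain ⟨f, hf⟩ : ∃ f : ℝ → ℝ, f = fun t => (1 + |t|)⁻¹ := ⟨_, rfl⟩
  have hc : Continuous f := hf ▸ Continuous.inv₀ (by fun_prop) fun t => by positivity
  have h0 : ∀ t, 0 ≤ f t := fun t => by rw [hf]; positivity
  have h1 : ∀ t ∈ spectrum ℝ a, f t * (1 + t) = 1 := fun t ht => by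
    have := hsp t ht
    simp only [hf, abs_of_nonneg this]
    exact inv_mul_cancel₀ (by positivity)
  have e : 1 + a = cfc (fun t : ℝ => 1 + t) a := by
    rw [cfc_add a _ _, cfc_const_one ℝ a, cfc_id' ℝ a]
  refine ⟨cfc f a, cfc_mem (𝕜' := ℝ) _ hm, (cfc_predicate _ _ : IsSelfAdjoint _).star_eq, ?_, ?_,
    fun x => ?_⟩
  · rw [e, ← cfc_mul _ _ a, ← cfc_const_one ℝ a]
    exact cfc_congr h1
  · rw [e, ← cfc_mul _ _ a, ← cfc_const_one ℝ a]
    exact cfc_congr fun t ht => (mul_comm _ _).trans (h1 t ht)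
  · have := (Complex.nonneg_iff.1 (D.T2.pos (cfc (fun t : ℝ => √(f t)) a * x))).1
    rwa [star_mul, (cfc_predicate _ _ : IsSelfAdjoint _).star_eq, mul_assoc, ← mul_assoc (cfc _ _),
      ← cfc_mul _ _ a, ← mul_assoc,
      cfc_congr (g := f) fun t _ => Real.mul_self_sqrt (h0 t)] at this

theorem typeII (hf : T.Faith) (h : SD T P Y) {i j : ι} (hij : i ≠ j) {N : StarSubalgebra ℂ A}
    (hN : N ≤ Bs P Y {i, j}ᶜ) {Z : C} (hZ : Z ∈ RS D N) :
    ∃ (S S' : A) (U : Bool → C), (S', U) ∈ CL P D Y (pr i j) ∧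
      (∀ Y' : ι → A, Y' i = S → Y' j = S' → (∀ k, k ≠ i → k ≠ j → Y' k = Y k) → SD T P Y') ∧
      (∀ Q : StarSubalgebra ℂ A, IsClosed (Q : Set A) → N ≤ Q → S ∈ Q → S' ∈ Q →
        Y i ∈ Q ∧ Y j ∈ Q) ∧
      (∀ u ∈ Bs P Y {i, j}ᶜ, ∀ v ∈ Bs P Y {i, j}ᶜ, D.l u * D.r v * Z = 0 →
        u * S * v = u * Y i * v) ∧
      (∀ x : C, x * Z = Z → star x = x → U true * x = U true) ∧
      3 / 2 * (D.T2.τ (Z * star Z)).re - 1 / 2 * (D.T2.τ (Z * star Z * (Z * star Z))).re ≤
        (D.T2.τ (Z * U true)).re := by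
  have he := pr_inj hij
  rw [← range_pr] at hN ⊢
  obtain ⟨G, gm, gs, g1, g2, -⟩ := exists_inv hZ
  obtain ⟨G', gm', gs', g1', g2', gp⟩ := exists_inv (star_mem hZ)
  rw [star_star] at g1' g2'
  have c1 : G * Z = Z * G' := by
    calc G * Z = G * Z * ((1 + star Z * Z) * G') := by rw [g2', mul_one]
      _ = G * (1 + Z * star Z) * Z * G' := by noncomm_ring
      _ = _ := by rw [g1, one_mul]
  have c2 : star Z * G = G' * star Z := by
    have := congrArg star c1
    rwa [star_mul, star_mul, gs, gs'] at this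
  have a1 : G * (Z * star Z) = 1 - G := by rw [← g1]; noncomm_ring
  have a2 : Z * star Z * G = 1 - G := by rw [← g2]; noncomm_ring
  have a1' : G' * (star Z * Z) = 1 - G' := by rw [← g1']; noncomm_ring
  have a2' : star Z * Z * G' = 1 - G' := by rw [← g2']; noncomm_ring
  obtain ⟨a, ha⟩ : ∃ a, a = star Z * G + star Z * G := ⟨_, rfl⟩
  obtain ⟨b, hb⟩ : ∃ b, b = G + G - 1 := ⟨_, rfl⟩
  obtain ⟨b', hb'⟩ : ∃ b, b = G' + G' - 1 := ⟨_, rfl⟩
  have sa : star a = G * Z + G * Z := by rw [ha, star_add, star_mul, gs, star_star]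
  have sb : star b = b := by rw [hb, star_sub, star_add, gs, star_one]
  have sb' : star b' = b' := by rw [hb', star_sub, star_add, gs', star_one]
  have u1 : star a * a + b * b = 1 := by
    have : G * Z * (star Z * G) = G - G * G := by
      rw [mul_assoc, ← mul_assoc Z, a2]; noncomm_ring
    rw [sa, ha, hb]
    simp only [add_mul, mul_add, this]; noncomm_ring
  have u2 : a * star a + b' * b' = 1 := by
    have : star Z * G * (G * Z) = G' - G' * G' := by
      rw [c1, c2, mul_assoc, ← mul_assoc (star Z), a2']; noncomm_ring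
    rw [sa, ha, hb']
    simp only [add_mul, mul_add, this]; noncomm_ring
  have u3 : a * b = b' * a := by
    have : G' * (star Z * G) = star Z * G * G := by rw [← mul_assoc, ← c2]
    rw [ha, hb, hb']
    simp only [add_mul, mul_add, mul_sub, sub_mul, this, mul_one, one_mul]; abel
  have u4 : b * star a = star a * b' := by
    have := congrArg star u3
    rwa [star_mul, star_mul, sb, sb'] at this
  have ma : a ∈ RS D N := ha ▸ add_mem (mul_mem (star_mem hZ) gm) (mul_mem (star_mem hZ) gm)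
  have mb : b ∈ RS D N := hb ▸ sub_mem (add_mem gm gm) (one_mem _)
  have mb' : b' ∈ RS D N := hb' ▸ sub_mem (add_mem gm' gm') (one_mem _)
  have comb : ∀ t ∈ RS D N, ∀ t' ∈ RS D N, ∀ (y y' : A) (U U' : Bool → C), IsSelfAdjoint y →
      IsSelfAdjoint y' → (y, U) ∈ CL P D Y (pr i j) → (y', U') ∈ CL P D Y (pr i j) →
      ∃ z, IsSelfAdjoint z ∧ (z, fun k => t * U k + t' * U' k) ∈ CL P D Y (pr i j) ∧
        ∀ Q : StarSubalgebra ℂ A, IsClosed (Q : Set A) → N ≤ Q → y ∈ Q → y' ∈ Q → z ∈ Q := by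
    intro t ht t' ht' y y' U U' hy hy' hU hU'
    obtain ⟨z, z1, z2, z3⟩ := act hf h he hN ht y U hy hU
    obtain ⟨z', z1', z2', z3'⟩ := act hf h he hN ht' y' U' hy' hU'
    exact ⟨z + z', z1.add z1', add_mem z2 z2', fun Q a b c d => add_mem (z3 Q a b c) (z3' Q a b d)⟩
  obtain ⟨S, s1, s2, -⟩ := comb b mb (-star a) (neg_mem (star_mem ma)) _ _ _ _ (h.1 _) (h.1 _)
    (CL_Y true) (CL_Y false)
  obtain ⟨S', s1', s2', -⟩ := comb a ma b' mb' _ _ _ _ (h.1 _) (h.1 _) (CL_Y true) (CL_Y false)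
  refine ⟨S, S', _, s2', fun Y' h1 h2 h3 => ?_, fun Q hQ hNQ hS hS' => ?_, fun u hu v hv h0 => ?_,
    fun x hx hx' => ?_, ?_⟩
  · refine move (D := D) h he (U := fun k l => cond k (cond l b (-star a)) (cond l a b')) ?_ ?_
      fun k hk => ?_
    · rintro (_ | _)
      · refine ⟨h2 ▸ s1', ?_⟩
        convert s2' using 2
        · exact h2
        · ext l; cases l <;> simp
      · refine ⟨h1 ▸ s1, ?_⟩
        convert s2 using 2
        · exact h1
        · ext l; cases l <;> simp
    · rintro (_ | _) (_ | _) <;> simp [sb, sb', u2, u3, u4, add_comm (b * b), u1]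
    · rw [range_pr] at hk
      simp only [Set.mem_insert_iff, Set.mem_singleton_iff, not_or] at hk
      exact (h3 k hk.1 hk.2).symm
  · obtain ⟨y, -, y2, y3⟩ := comb b mb (star a) (star_mem ma) _ _ _ _ s1 s1' s2 s2'
    obtain ⟨y', -, y2', y3'⟩ := comb (-a) (neg_mem ma) b' mb' _ _ _ _ s1 s1' s2 s2'
    have e1 : y = Y i := CL_uniq hf h he y2 (by
      convert CL_Y (P := P) (D := D) (Y := Y) (e := pr i j) true using 2
      · rfl
      ext l; cases l <;> simp [u4, add_comm (b * b), u1])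
    have e2 : y' = Y j := CL_uniq hf h he y2' (by
      convert CL_Y (P := P) (D := D) (Y := Y) (e := pr i j) false using 2
      · rfl
      ext l; cases l <;> simp [u3, u2])
    exact ⟨e1 ▸ y3 Q hQ hNQ hS hS', e2 ▸ y3' Q hQ hNQ hS hS'⟩
  · refine CL_uniq hf h he (CL_lr hu hv s2) ?_
    have h1 : D.l u * D.r v * G = D.l u * D.r v := by
      nth_rewrite 2 [← mul_one (D.l u * D.r v)]
      rw [← g2, ← mul_assoc, mul_add, ← mul_assoc, h0, zero_mul, add_zero, mul_one]
    convert CL_lr hu hv (CL_Y (P := P) (D := D) (Y := Y) (e := pr i j) true) using 2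
    · rfl
    ext l
    generalize D.l u * D.r v = x at h0 h1
    cases l <;> simp [sa, hb, mul_add, mul_sub, ← mul_assoc, h1, h0]
  · have h1 : star Z * x = star Z := by
      have := congrArg star hx
      rwa [star_mul, hx'] at this
    simp [ha, c2, add_mul, mul_assoc, h1]
  · have h1 := gp (star Z * (Z * star Z - 1))
    have e1 : star (star Z * (Z * star Z - 1)) * G' * (star Z * (Z * star Z - 1)) =
        (2 : ℝ) • (Z * a) - (3 : ℝ) • (Z * star Z) + Z * star Z * (Z * star Z) := by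
      have e2 : star (star Z * (Z * star Z - 1)) * G' * (star Z * (Z * star Z - 1)) =
          (Z * star Z - 1) * (1 - G) * (Z * star Z - 1) := by
        rw [← a2, star_mul, star_sub, star_mul, star_star, star_one]
        simp only [mul_assoc]
        rw [← mul_assoc G', ← c2, mul_assoc]
      have e3 : Z * a = (1 - G) + (1 - G) := by rw [ha, mul_add, ← mul_assoc, a2]
      rw [e2, e3]
      generalize Z * star Z = t at a1 a2
      have e4 : (t - 1) * (1 - G) = t - 1 - 1 + G + G := by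
        rw [sub_mul, mul_sub, a2]; noncomm_ring
      rw [e4]
      simp only [add_mul, sub_mul, mul_sub, a1, mul_one, one_mul]
      module
    rw [e1, map_add, map_sub, TS.τ_rsmul, TS.τ_rsmul, Complex.add_re, Complex.sub_re,
      Complex.re_ofReal_mul, Complex.re_ofReal_mul] at h1
    simp only [Pi.single_eq_same, mul_one, ne_eq, Bool.true_eq_false, not_false_eq_true,
      Pi.single_eq_of_ne, mul_zero, add_zero]
    linarith

end Crest.Agent.R134
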