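import Crest.Prelude.Def_GroupVNA
import Crest.Agent.R95.Main

/-! Row 134 (free group factors are isomorphic): definitions. -/

set_option autoImplicit false
set_option linter.unusedSectionVars false

open scoped InnerProductSpace ComplexOrder
open Crest.OpAlg Crest.Agent.R124 Crest.Agent.R95

namespace Crest.Agent.R134

/-- Sum of `F u a v` over all splittings `w = u ++ a :: v`. -/
def ssum {Λ V : Type*} [AddCommMonoid V] : (List Λ → Λ → List Λ → V) → List Λ → V
  | _, [] => 0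
  | F, a :: w => F [] a w + ssum (fun u => F (a :: u)) w

section ssum
variable {Λ V : Type*} [AddCommMonoid V]

@[simp] theorem ssum_nil (F : List Λ → Λ → List Λ → V) : ssum F [] = 0 := rfl
theorem ssum_cons (F : List Λ → Λ → List Λ → V) (a : Λ) (w : List Λ) :
    ssum F (a :: w) = F [] a w + ssum (fun u => F (a :: u)) w := rfl

theorem ssum_congr {F G : List Λ → Λ → List Λ → V} {w : List Λ}
    (h : ∀ u a v, w = u ++ a :: v → F u a v = G u a v) : ssum F w = ssum G w := by
  induction w generalizing F G with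
  | nil => rfl
  | cons b w ih =>
    rw [ssum_cons, ssum_cons, h [] b w rfl, ih fun u a v e => h (b :: u) a v (by rw [e]; rfl)]

theorem ssum_zero (w : List Λ) : ssum (fun _ _ _ => (0 : V)) w = 0 := by
  induction w with
  | nil => rfl
  | cons b w ih => rw [ssum_cons, ih, add_zero]

theorem ssum_eq_zero {F : List Λ → Λ → List Λ → V} {w : List Λ}
    (h : ∀ u a v, w = u ++ a :: v → F u a v = 0) : ssum F w = 0 := by
  rw [ssum_congr h, ssum_zero]

theorem ssum_append (F : List Λ → Λ → List Λ → V) (w₁ w₂ : List Λ) :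
    ssum F (w₁ ++ w₂) = ssum (fun u a v => F u a (v ++ w₂)) w₁ +
      ssum (fun u => F (w₁ ++ u)) w₂ := by
  induction w₁ generalizing F with
  | nil => simp
  | cons b w ih => rw [List.cons_append, ssum_cons, ssum_cons, ih, add_assoc]; rfl

theorem map_ssum {W Φ : Type*} [AddCommMonoid W] [FunLike Φ V W] [AddMonoidHomClass Φ V W] (φ : Φ)
    (F : List Λ → Λ → List Λ → V) (w : List Λ) :
    φ (ssum F w) = ssum (fun u a v => φ (F u a v)) w := by
  induction w generalizing F with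
  | nil => simp
  | cons b w ih => rw [ssum_cons, ssum_cons, map_add, ih]

theorem ssum_map {Λ' : Type*} (f : Λ' → Λ) (F : List Λ → Λ → List Λ → V) (w : List Λ') :
    ssum F (w.map f) = ssum (fun u a v => F (u.map f) (f a) (v.map f)) w := by
  induction w generalizing F with
  | nil => rfl
  | cons b w ih => rw [List.map_cons, ssum_cons, ssum_cons, ih]; rfl

theorem ssum_reverse (F : List Λ → Λ → List Λ → V) (w : List Λ) :
    ssum F w.reverse = ssum (fun u a v => F v.reverse a u.reverse) w := by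
  induction w generalizing F with
  | nil => rfl
  | cons b w ih =>
    rw [List.reverse_cons, ssum_append, ih, ssum_cons, ssum_cons, ssum_nil, add_zero, add_comm]
    simp

end ssum

section words
variable {A : Type*} [CStarAlgebra A] {ι : Type*}

/-- Product of a word whose letters are generators `Y j` or elements of `A`. -/
def wp (Y : ι → A) (w : List (ι ⊕ A)) : A := (w.map (Sum.elim Y id)).prod

@[simp] theorem wp_nil (Y : ι → A) : wp Y [] = 1 := rfl
@[simp] theorem wp_inl (Y : ι → A) (j : ι) (w : List (ι ⊕ A)) :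
    wp Y (Sum.inl j :: w) = Y j * wp Y w := by simp [wp]
@[simp] theorem wp_inr (Y : ι → A) (x : A) (w : List (ι ⊕ A)) :
    wp Y (Sum.inr x :: w) = x * wp Y w := by simp [wp]
theorem wp_cons (Y : ι → A) (a : ι ⊕ A) (w : List (ι ⊕ A)) :
    wp Y (a :: w) = Sum.elim Y id a * wp Y w := by simp [wp]
@[simp] theorem wp_append (Y : ι → A) (u w : List (ι ⊕ A)) :
    wp Y (u ++ w) = wp Y u * wp Y w := by simp [wp]

/-- All `A`-letters of the word lie in `P`. -/
def OK (P : StarSubalgebra ℂ A) (w : List (ι ⊕ A)) : Prop := ∀ x, Sum.inr x ∈ w → x ∈ P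

open Classical in
/-- Schwinger-Dyson equation for the generators with index in `J`. -/
def SDJ (T : TS A) (P : StarSubalgebra ℂ A) (Y : ι → A) (J : Set ι) : Prop :=
  ∀ j ∈ J, ∀ w, OK P w → T.τ (Y j * wp Y w) =
    ssum (fun u a v => if a = Sum.inl j then T.τ (wp Y u) * T.τ (wp Y v) else 0) w

/-- `Y` is a free semicircular family, free from `P`. -/
def SD (T : TS A) (P : StarSubalgebra ℂ A) (Y : ι → A) : Prop :=
  (∀ j, IsSelfAdjoint (Y j)) ∧ SDJ T P Y Set.univ

/-- `P` and `Y` generate a 2-norm dense algebra. -/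
def Dn (T : TS A) (P : StarSubalgebra ℂ A) (Y : ι → A) : Prop :=
  ∀ x : A, ∀ ε > 0, ∃ b ∈ StarAlgebra.adjoin ℂ ((P : Set A) ∪ Set.range Y), T.n2 (x - b) < ε

/-- `P` contains equal-trace partitions of unity and many independent symmetries. -/
def Rich (T : TS A) (P : StarSubalgebra ℂ A) : Prop :=
  ∀ J : ℕ, 0 < J → ∃ p : Fin J → A,
    (∀ a, p a ∈ P ∧ IsStarProjection (p a) ∧ T.τ (p a) = ((1 / J : ℝ) : ℂ)) ∧
    (∀ a b, a ≠ b → p a * p b = 0) ∧ ∑ a, p a = 1 ∧
    ∀ s : Finset (ℕ × ℕ), ∃ e : ℕ × ℕ → A,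
      (∀ i, e i ∈ P ∧ star (e i) = e i ∧ e i * e i = 1) ∧ (∀ i a, Commute (e i) (p a)) ∧
      (∀ i j, Commute (e i) (e j)) ∧
      ∀ j ∈ s, ∀ y ∈ Algebra.adjoin ℂ (Set.range p ∪ e '' {j}ᶜ), T.τ (y * e j) = 0

/-- Chebyshev polynomials of the second kind `U_k(S/2)`. -/
def ch (S : A) : ℕ → A
  | 0 => 1
  | 1 => S
  | k + 2 => S * ch S (k + 1) - ch S k

/-- `x` is uniformly distributed on `[0,1]`. -/
def Unif (T : TS A) (x : A) : Prop :=
  IsSelfAdjoint x ∧ spectrum ℝ x ⊆ Set.Icc 0 1 ∧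
    ∀ g : ℝ → ℝ, Continuous g → T.τ (cfc g x) = ((∫ t in (0 : ℝ)..1, g t : ℝ) : ℂ)

/-- A model of the tensor product `A ⊗ Aᵒᵖ` with the product trace. -/
structure TD (T : TS A) (C : Type*) [CStarAlgebra C] where
  T2 : TS C
  l : A →L[ℂ] C
  r : A →L[ℂ] C
  l_one : l 1 = 1
  r_one : r 1 = 1
  l_mul : ∀ x y, l (x * y) = l x * l y
  r_mul : ∀ x y, r (x * y) = r y * r x
  l_star : ∀ x, l (star x) = star (l x)
  r_star : ∀ x, r (star x) = star (r x)
  comm : ∀ x y, r y * l x = l x * r y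
  τ_lr : ∀ x y, T2.τ (l x * r y) = T.τ x * T.τ y

end words

section hilb
variable {H : Type*} [NormedAddCommGroup H] [InnerProductSpace ℂ H] [CompleteSpace H]
variable {K : Type*} [NormedAddCommGroup K] [InnerProductSpace ℂ K] [CompleteSpace K]

/-- The von Neumann algebra generated by `s`. -/
noncomputable def W (s : Set (H →L[ℂ] H)) : VonNeumannAlgebra H := (vnOf s).commutant

theorem subset_W {s : Set (H →L[ℂ] H)} {x : H →L[ℂ] H} (hx : x ∈ s) : x ∈ W s :=
  VonNeumannAlgebra.mem_commutant_iff.2 fun _ hg => ((mem_vnOf.1 hg _ hx).1).symm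

theorem W_le {s : Set (H →L[ℂ] H)} {N : VonNeumannAlgebra H} (h : ∀ x ∈ s, x ∈ N) : W s ≤ N :=
  fun _ hy => mem_of_comm N fun _ hb => VonNeumannAlgebra.mem_commutant_iff.1 hy _
    (mem_vnOf.2 fun _ hx => ⟨(comm_of_mem (h _ hx) hb).symm,
      (comm_of_mem (star_mem (h _ hx)) hb).symm⟩)

/-- The sequence `Ω, 0, 0, …`. -/
def vseq (Ω : H) : ℕ → H := fun k => if k = 0 then Ω else 0

theorem vs_vseq (Ω : H) (x : H →L[ℂ] H) : vectorState (vseq Ω) x = ⟪Ω, x Ω⟫_ℂ := by
  rw [vectorState, tsum_eq_single 0 fun k hk => by simp [vseq, hk]]; rfl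

theorem n2_vseq (Ω : H) (x : H →L[ℂ] H) : R95.n2 (vseq Ω) x = ‖x Ω‖ := by
  rw [R95.n2, traceNormSq, tsum_eq_single 0 fun k hk => by simp [vseq, hk]]
  exact Real.sqrt_sq (norm_nonneg _)

/-- `Ω` is cyclic for `M`. -/
def Cyc (M : VonNeumannAlgebra H) (Ω : H) : Prop := ∀ η : H, ∀ ε > 0, ∃ x ∈ M, ‖x Ω - η‖ < ε

/-- Spatial isomorphism matching the distinguished vectors. -/
def Eqv (M : VonNeumannAlgebra H) (Ω : H) (M' : VonNeumannAlgebra K) (Ω' : K) : Prop :=
  ∃ V : H ≃ₗᵢ[ℂ] K, V Ω = Ω' ∧ ∀ x, x ∈ M ↔ V.conjStarAlgEquiv x ∈ M'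

open Classical in
/-- Full Fock space data: vacuum, left and right creation operators. -/
structure Fock (I : Type*) (H : Type*) [NormedAddCommGroup H] [InnerProductSpace ℂ H]
    [CompleteSpace H] where
  Ω : H
  l : I → H →L[ℂ] H
  r : I → H →L[ℂ] H
  norm_Ω : ‖Ω‖ = 1
  ll : ∀ i j, star (l i) * l j = if i = j then 1 else 0
  lΩ : ∀ i, star (l i) Ω = 0
  rΩ : ∀ i, star (r i) Ω = 0
  rl : ∀ i, r i Ω = l i Ω
  c1 : ∀ i j, r j * l i = l i * r j
  c2 : ∀ i j η, star (r j) (l i η) = l i (star (r j) η) + if i = j then ⟪Ω, η⟫_ℂ • Ω else 0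
  cyc : ∀ U : Submodule ℂ H, IsClosed (U : Set H) → Ω ∈ U → (∀ i, ∀ η ∈ U, l i η ∈ U) → U = ⊤

namespace Fock
variable {I : Type*} (F : Fock I H)

/-- The free semicircular family. -/
noncomputable def s (i : I) : H →L[ℂ] H := F.l i + star (F.l i)

/-- The generated von Neumann algebra. -/
noncomputable def M : VonNeumannAlgebra H := W (Set.range F.s)

/-- The generators as elements of `Alg F.M`. -/
noncomputable def sA (i : I) : Alg F.M := ⟨F.s i, subset_W ⟨i, rfl⟩⟩

end Fock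

end hilb

end Crest.Agent.R134
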