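import Crest.Agent.R134.Par

/-! Row 134, task E: algebraic properties of the steered words. -/

set_option autoImplicit false
set_option linter.unusedSectionVars false
set_option linter.unusedVariables false

open scoped InnerProductSpace ComplexOrder
open Crest.OpAlg Crest.Agent.R124 Crest.Agent.R95

namespace Crest.Agent.R134

variable {A C : Type*} [CStarAlgebra A] [CStarAlgebra C]

namespace EA

theorem ssum_range' {V : Type*} [AddCommMonoid V] (n : ℕ) : ∀ (s : ℕ)
    (F : List ℕ → ℕ → List ℕ → V), ssum F (List.range' s n) =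
      ∑ j ∈ Finset.range n, F (List.range' s j) (s + j) (List.range' (s + j + 1) (n - 1 - j)) := by
  induction n with
  | zero => intro s F; rfl
  | succ n ih =>
    intro s F
    rw [List.range'_succ, ssum_cons, ih, Finset.sum_range_succ', add_comm]
    congr 1
    refine Finset.sum_congr rfl fun j _ => ?_
    rw [List.range'_succ, show s + 1 + j = s + (j + 1) by omega,
      show n + 1 - 1 - (j + 1) = n - 1 - j by omega]

theorem ssum_row {V : Type*} [AddCommMonoid V] (r n : ℕ)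
    (F : List (ℕ × ℕ) → ℕ × ℕ → List (ℕ × ℕ) → V) : ssum F (row r 0 n) =
      ∑ j : Fin n, F (row r 0 j) (r, j) (row r (j + 1) (n - 1 - j)) := by
  rw [row, ssum_map, ssum_range', Finset.sum_range]
  simp only [zero_add, row]

theorem row_nodup (r s k : ℕ) : (row r s k).Nodup :=
  (List.nodup_range' ..).map fun _ _ h => (Prod.ext_iff.1 h).2

theorem row_length (r s k : ℕ) : (row r s k).length = k := by simp [row]

theorem mem_row {r s k : ℕ} {i : ℕ × ℕ} (h : i ∈ row r s k) : i.1 = r ∧ i.2 < s + k := by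
  obtain ⟨j, hj, rfl⟩ := List.mem_map.1 h
  have := List.mem_range'_1.1 hj
  exact ⟨rfl, this.2⟩

variable {T : TS A} {P : StarSubalgebra ℂ A} {m n : ℕ} {θ : ℝ} (L : Let T P m n θ) {X : A}

theorem xs_nil : L.xs X [] = 1 := rfl

theorem xs_cons (i : ℕ × ℕ) (l : List (ℕ × ℕ)) :
    L.xs X (i :: l) = L.e i * X * L.e i * L.xs X l := by simp [Let.xs]

theorem xs_append (l l' : List (ℕ × ℕ)) : L.xs X (l ++ l') = L.xs X l * L.xs X l' := by
  simp [Let.xs]

theorem star_xs (hX : IsSelfAdjoint X) (l : List (ℕ × ℕ)) :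
    star (L.xs X l) = L.xs X l.reverse := by
  induction l with
  | nil => simp [xs_nil]
  | cons i l ih =>
    rw [xs_cons, List.reverse_cons, xs_append, star_mul, ih, xs_cons, xs_nil, mul_one]
    simp only [star_mul, (L.he i).2.1, hX.star_eq, mul_assoc]

theorem xs_mem {B : StarSubalgebra ℂ A} (hPB : P ≤ B) (hXB : X ∈ B) (l : List (ℕ × ℕ)) :
    L.xs X l ∈ B := by
  induction l with
  | nil => exact one_mem B
  | cons i l ih =>
    rw [xs_cons]
    exact mul_mem (mul_mem (mul_mem (hPB (L.he i).1) hXB) (hPB (L.he i).1)) ih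

theorem HH_mem (r j : ℕ) (b : Bool) : L.HH X r j b ∈ gen P X := by
  have h1 : P ≤ gen P X := fun _ h => gen_P X h
  cases b
  · exact mul_mem (mul_mem (h1 L.hp.1) (xs_mem L h1 (gen_self P X) _)) (h1 (L.he _).1)
  · exact mul_mem (mul_mem (mul_mem (h1 L.hq.1) (h1 (L.he _).1)) (xs_mem L h1 (gen_self P X) _))
      (h1 (L.he _).1)

theorem lr_mul (D : TD T C) (u v x y : A) :
    D.l u * D.r v * (D.l x * D.r y) = D.l (u * x) * D.r (y * v) := by
  rw [D.l_mul, D.r_mul, mul_assoc, ← mul_assoc (D.r v), D.comm]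
  simp only [mul_assoc]

theorem qp : L.q * L.p = 0 := by
  have := congrArg star L.pq
  rwa [star_mul, L.hp.2.1.isSelfAdjoint.star_eq, L.hq.2.1.isSelfAdjoint.star_eq, star_zero] at this

theorem HH_false (r j : ℕ) : ∃ y, L.HH X r j false = L.p * y :=
  ⟨_, by rw [Let.HH, mul_assoc]⟩

theorem HH_true (r j : ℕ) : ∃ y, L.HH X r j true = L.q * y :=
  ⟨_, by rw [Let.HH, mul_assoc, mul_assoc]⟩

theorem xs_der (D : TD T C) {κ : Type*} (G : Submodule ℂ (A × (κ → C)))
    (hG : ∀ z ∈ G, ∀ z' ∈ G, lb D z z' ∈ G) (hP : ∀ x ∈ P, (x, 0) ∈ G) {V : κ → C}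
    (hV : (X, V) ∈ G) (l : List (ℕ × ℕ)) : ∀ {a b : A}, a ∈ P → b ∈ P →
    (a * L.xs X l * b, fun k => ssum (fun u i v =>
      D.l (a * L.xs X u * L.e i) * D.r (L.e i * L.xs X v * b) * V k) l) ∈ G := by
  induction l with
  | nil =>
    intro a b ha hb
    rw [xs_nil, mul_one]
    exact hP _ (mul_mem ha hb)
  | cons i l ih =>
    intro a b ha hb
    have h1 := hG _ (hG _ (hP _ (mul_mem ha (L.he i).1)) _ hV) _ (ih (L.he i).1 hb)
    convert h1 using 1
    refine Prod.ext ?_ (funext fun k => ?_)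
    · simp only [lb, xs_cons, mul_assoc]
    · simp only [lb, ssum_cons, xs_nil, mul_one, Pi.zero_apply, mul_zero, zero_add]
      congr 1
      · rw [← mul_assoc, D.comm]
      · rw [show ∀ (x : C) (F : List (ℕ × ℕ) → ℕ × ℕ → List (ℕ × ℕ) → C), x * ssum F l =
          ssum (fun u a v => x * F u a v) l from fun x F =>
            map_ssum (AddMonoidHom.mulLeft x) F l]
        refine ssum_congr fun u c v _ => ?_
        rw [← mul_assoc, ← mul_assoc, ← D.l_mul, xs_cons]
        simp only [mul_assoc]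

/-- The word of `xs`. -/
def wd (l : List (ℕ × ℕ)) : List (Unit ⊕ A) :=
  l.flatMap fun i => [Sum.inr (L.e i), Sum.inl (), Sum.inr (L.e i)]

theorem wp_wd (l : List (ℕ × ℕ)) : wp (fun _ => X) (wd L l) = L.xs X l := by
  induction l with
  | nil => rfl
  | cons i l ih =>
    rw [xs_cons, ← ih]
    simp [wd, mul_assoc]

theorem mem_wd {l : List (ℕ × ℕ)} {y : A} (h : Sum.inr y ∈ wd L l) : ∃ i ∈ l, y = L.e i := by
  obtain ⟨i, hi, h⟩ := List.mem_flatMap.1 h
  refine ⟨i, hi, ?_⟩
  simpa using h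

open Classical in
theorem xs_eig {X' Z : A} {c s : ℝ} (B : StarSubalgebra ℂ A) (hPB : P ≤ B) (hXB : X ∈ B)
    (hX' : SD T P fun _ : Unit => X') (he : X' = c • X + s • Z)
    (hZ : ∀ w : List (Unit ⊕ A), OK P w → ∀ z ∈ B, T.τ (Z * (wp (fun _ => X') w * z)) =
      ssum (fun u a v => if a = Sum.inl () then
        s * (T.τ (wp (fun _ => X') u) * T.τ (wp (fun _ => X') v * z)) else 0) w)
    (l : List (ℕ × ℕ)) (hn : l.Nodup) (hl : ∀ i ∈ l, i.1 < m ∧ i.2 ≤ n) :
    ∀ z ∈ B, T.τ (L.xs X' l * z) = c ^ l.length * T.τ (L.xs X l * z) := by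
  induction l with
  | nil => intro z _; simp [xs_nil]
  | cons i l ih =>
    intro z hz
    rw [List.nodup_cons] at hn
    have hi := hl i List.mem_cons_self
    have he' := hPB (L.he i).1
    have h1 := ih hn.2 (fun j hj => hl j (List.mem_cons_of_mem _ hj)) (z * (L.e i * X * L.e i))
      (mul_mem hz (mul_mem (mul_mem he' hXB) he'))
    have ph := L.ph hX' hi.1 hi.2
    have h2 : T.τ (Z * (L.e i * L.xs X' l * (z * L.e i))) = 0 := by
      have := hZ (Sum.inr (L.e i) :: wd L l) (fun y hy => by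
        rcases List.mem_cons.1 hy with h | h
        · rw [Sum.inr.inj h]; exact (L.he i).1
        · obtain ⟨j, -, rfl⟩ := mem_wd L h
          exact (L.he j).1) (z * L.e i) (mul_mem hz he')
      rw [wp_inr, wp_wd] at this
      rw [this, ssum_cons, if_neg (by simp), zero_add]
      refine ssum_eq_zero fun u a v e => ?_
      split_ifs
      · have hu : Fr (({L.p, L.q} : Set A) ∪ L.e '' {(i.1, i.2)}ᶜ) X' (wp (fun _ => X') u) :=
          ⟨u, fun y hy => by
            obtain ⟨j, hj, rfl⟩ := mem_wd L (l := l) (e ▸ List.mem_append_left _ hy)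
            refine Or.inr ⟨j, fun h => hn.1 ?_, rfl⟩
            rw [Set.mem_singleton_iff.1 h] at hj
            exact hj, rfl⟩
        rw [wp_inr, (Par.od.mul hu.par).τ ph, zero_mul, mul_zero]
      · rfl
    calc T.τ (L.xs X' (i :: l) * z)
        = T.τ (L.e i * (X' * (L.e i * L.xs X' l * z))) := by rw [xs_cons]; simp only [mul_assoc]
      _ = T.τ (X' * (L.e i * L.xs X' l * (z * L.e i))) := by rw [T.comm]; simp only [mul_assoc]
      _ = c * T.τ (X * (L.e i * L.xs X' l * (z * L.e i))) := by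
        conv_lhs => rw [show X' * (L.e i * L.xs X' l * (z * L.e i)) =
          (c • X + s • Z) * (L.e i * L.xs X' l * (z * L.e i)) by rw [← he]]
        rw [add_mul, smul_mul_assoc, smul_mul_assoc, map_add, T.τ_rsmul, T.τ_rsmul, h2, mul_zero,
          add_zero]
      _ = c * T.τ (L.xs X' l * (z * (L.e i * X * L.e i))) := by
        congr 1
        rw [mul_assoc (L.e i), ← mul_assoc X, T.comm]
        simp only [mul_assoc]
      _ = _ := by
        rw [h1, List.length_cons, xs_cons, ← mul_assoc (L.xs X l), T.comm (L.xs X l * z),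
          ← mul_assoc, ← mul_assoc, pow_succ']

theorem τ_star_eig {B : StarSubalgebra ℂ A} {y y' : A} {c : ℝ} {k : ℕ}
    (h : ∀ z ∈ B, T.τ (y' * z) = c ^ k * T.τ (y * z)) :
    ∀ z ∈ B, T.τ (star y' * z) = c ^ k * T.τ (star y * z) := fun z hz => by
  have e : ∀ x : A, T.τ (star x * z) = (starRingEnd ℂ) (T.τ (x * star z)) := fun x => by
    rw [← T.τ_star, star_mul, star_star, T.comm]
  rw [e, e, h _ (star_mem hz), map_mul, map_pow, Complex.conj_ofReal]

theorem τ_conj_eig {B : StarSubalgebra ℂ A} {y y' a b : A} {c : ℂ} (ha : a ∈ B) (hb : b ∈ B)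
    (h : ∀ z ∈ B, T.τ (y' * z) = c * T.τ (y * z)) :
    ∀ z ∈ B, T.τ (a * y' * b * z) = c * T.τ (a * y * b * z) := fun z hz => by
  have e : ∀ x : A, T.τ (a * x * b * z) = T.τ (x * (b * z * a)) := fun x => by
    rw [mul_assoc, mul_assoc, T.comm]; simp only [mul_assoc]
  rw [e, e, h _ (mul_mem (mul_mem hb hz) ha)]

end EA

namespace Let

open EA

variable {T : TS A} {P : StarSubalgebra ℂ A} {m n : ℕ} {θ : ℝ} (L : Let T P m n θ) {X : A}

theorem YY_sa : IsSelfAdjoint (L.YY X) := by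
  rw [IsSelfAdjoint, YY, star_sum]
  exact Finset.sum_congr rfl fun r _ => by rw [star_add, star_star, add_comm]

theorem YY_mem : L.YY X ∈ gen P X := by
  have h1 : P ≤ gen P X := fun _ h => gen_P X h
  have h2 : ∀ r, L.ww X r ∈ gen P X := fun r =>
    mul_mem (mul_mem (h1 L.hp.1) (xs_mem L h1 (gen_self P X) _))
      (mul_mem (h1 (L.he _).1) (h1 L.hq.1))
  exact sum_mem fun r _ => add_mem (h2 r) (star_mem (h2 r))

theorem TT_real (D : TD T C) : L.TT D X ∈ RS D (gen P X) := by
  refine StarSubalgebra.le_topologicalClosure _ ?_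
  rw [TT, Fintype.sum_prod_type]
  refine sum_mem fun r _ => ?_
  rw [Fintype.sum_prod_type]
  refine sum_mem fun j _ => StarAlgebra.subset_adjoin ℝ _
    ⟨_, HH_mem L r j true, _, star_mem (HH_mem L r j false), ?_⟩
  rw [Fintype.sum_bool, star_star]
  rfl

theorem TT_supp (D : TD T C) {u v : A} (h1 : u * L.p = 0 ∨ L.q * v = 0)
    (h2 : u * L.q = 0 ∨ L.p * v = 0) : D.l u * D.r v * L.TT D X = 0 := by
  rw [TT, Finset.mul_sum]
  refine Finset.sum_eq_zero fun ⟨r, j, b⟩ _ => ?_
  obtain ⟨y, hy⟩ := HH_false L (X := X) r j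
  obtain ⟨y', hy'⟩ := HH_true L (X := X) r j
  rw [lr_mul]
  cases b
  · simp only [Bool.not_false, hy, hy', star_mul, L.hq.2.1.isSelfAdjoint.star_eq]
    rcases h1 with h | h
    · rw [← mul_assoc u, h, zero_mul, map_zero, zero_mul]
    · rw [mul_assoc (star y'), h, mul_zero, map_zero, mul_zero]
  · simp only [Bool.not_true, hy, hy', star_mul, L.hp.2.1.isSelfAdjoint.star_eq]
    rcases h2 with h | h
    · rw [← mul_assoc u, h, zero_mul, map_zero, zero_mul]
    · rw [mul_assoc (star y), h, mul_zero, map_zero, mul_zero]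

theorem TT_e (D : TD T C) : (D.l L.p * D.r L.q + D.l L.q * D.r L.p) * L.TT D X = L.TT D X := by
  rw [TT, Finset.mul_sum]
  refine Finset.sum_congr rfl fun ⟨r, j, b⟩ _ => ?_
  obtain ⟨y, hy⟩ := HH_false L (X := X) r j
  obtain ⟨y', hy'⟩ := HH_true L (X := X) r j
  have hp : L.p * L.p = L.p := L.hp.2.1.isIdempotentElem
  have hq : L.q * L.q = L.q := L.hq.2.1.isIdempotentElem
  rw [add_mul, lr_mul, lr_mul]
  cases b
  · simp only [Bool.not_false, hy, hy', star_mul, L.hq.2.1.isSelfAdjoint.star_eq]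
    rw [← mul_assoc L.p, hp, mul_assoc (star y'), hq, ← mul_assoc L.q, qp, zero_mul, map_zero,
      zero_mul, add_zero]
  · simp only [Bool.not_true, hy, hy', star_mul, L.hp.2.1.isSelfAdjoint.star_eq]
    rw [← mul_assoc L.q, hq, mul_assoc (star y) L.p L.p, hp, ← mul_assoc L.p, L.pq, zero_mul,
      map_zero, zero_mul, zero_add]

theorem YY_der (D : TD T C) (hX : IsSelfAdjoint X) {κ : Type*} (G : Submodule ℂ (A × (κ → C)))
    (hG : ∀ z ∈ G, ∀ z' ∈ G, lb D z z' ∈ G) (hP : ∀ x ∈ P, (x, 0) ∈ G) {V : κ → C}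
    (hV : (X, V) ∈ G) : (L.YY X, fun k => L.TT D X * V k) ∈ G := by
  have hp := L.hp.2.1.isSelfAdjoint.star_eq
  have hq := L.hq.2.1.isSelfAdjoint.star_eq
  have h1 := fun r : Fin m => add_mem
    (xs_der L D G hG hP hV (row r 0 n).reverse (mul_mem L.hq.1 (L.he (r, n)).1) L.hp.1)
    (xs_der L D G hG hP hV (row r 0 n) L.hp.1 (mul_mem (L.he (r, n)).1 L.hq.1))
  convert G.sum_mem (t := Finset.univ) fun r _ => h1 r using 1
  refine Prod.ext ?_ (funext fun k => ?_)
  · show L.YY X = _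
    rw [YY, Prod.fst_sum]
    refine Finset.sum_congr rfl fun r _ => ?_
    simp only [Prod.fst_add, ww, star_mul, hp, hq, (L.he _).2.1, star_xs L hX, mul_assoc]
    exact add_comm _ _
  · show L.TT D X * V k = _
    rw [Prod.snd_sum, Finset.sum_apply, TT, Fintype.sum_prod_type, Finset.sum_mul]
    refine Finset.sum_congr rfl fun r _ => ?_
    simp only [Prod.snd_add, Pi.add_apply]
    rw [ssum_reverse, ssum_row, ssum_row, ← Finset.sum_add_distrib, Fintype.sum_prod_type,
      Finset.sum_mul]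
    refine Finset.sum_congr rfl fun j _ => ?_
    rw [Fintype.sum_bool, add_mul]
    simp only [Bool.not_true, Bool.not_false, HH, star_mul, hp, hq, (L.he _).2.1, star_xs L hX,
      List.reverse_reverse, mul_assoc]

open Classical in
theorem eig (D : TD T C) {X' Z : A} {c s : ℝ} (B : StarSubalgebra ℂ A) (hPB : P ≤ B) (hXB : X ∈ B)
    (hX : IsSelfAdjoint X) (hX' : SD T P fun _ : Unit => X') (he : X' = c • X + s • Z)
    (hZ : ∀ w : List (Unit ⊕ A), OK P w → ∀ z ∈ B, T.τ (Z * (wp (fun _ => X') w * z)) =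
      ssum (fun u a v => if a = Sum.inl () then
        s * (T.τ (wp (fun _ => X') u) * T.τ (wp (fun _ => X') v * z)) else 0) w) :
    (∀ z ∈ B, T.τ (L.YY X' * z) = c ^ n * T.τ (L.YY X * z)) ∧
    ∀ u ∈ B, ∀ v ∈ B, D.T2.τ (L.TT D X' * (D.l u * D.r v)) =
      c ^ (n - 1) * D.T2.τ (L.TT D X * (D.l u * D.r v)) := by
  have key := xs_eig L B hPB hXB hX' he hZ
  have hp := hPB L.hp.1
  have hq := hPB L.hq.1
  have he := fun i => hPB (L.he i).1
  have k1 : ∀ (r : Fin m) (s k : ℕ), s + k ≤ n → ∀ z ∈ B,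
      T.τ (L.xs X' (row r s k) * z) = c ^ k * T.τ (L.xs X (row r s k) * z) := fun r s k h => by
    have := key (row r s k) (row_nodup r s k) fun i hi => by
      obtain ⟨h1, h2⟩ := mem_row hi
      exact ⟨h1 ▸ r.2, by omega⟩
    rwa [row_length] at this
  have k2 : ∀ (r : Fin m) (s k : ℕ), s + k ≤ n → ∀ z ∈ B,
      T.τ (L.xs X' (row r s k).reverse * z) = c ^ k * T.τ (L.xs X (row r s k).reverse * z) :=
    fun r s k h => by
    have := key (row r s k).reverse (List.nodup_reverse.2 (row_nodup r s k)) fun i hi => by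
      obtain ⟨h1, h2⟩ := mem_row (List.mem_reverse.1 hi)
      exact ⟨h1 ▸ r.2, by omega⟩
    rwa [List.length_reverse, row_length] at this
  constructor
  · intro z hz
    rw [YY, YY, Finset.sum_mul, Finset.sum_mul, map_sum, map_sum, Finset.mul_sum]
    refine Finset.sum_congr rfl fun r _ => ?_
    have h1 : ∀ z ∈ B, T.τ (L.ww X' r * z) = c ^ n * T.τ (L.ww X r * z) :=
      τ_conj_eig hp (mul_mem (he _) hq) (k1 r 0 n (by omega))
    rw [add_mul, add_mul, map_add, map_add, h1 z hz, τ_star_eig h1 z hz, mul_add]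
  · intro u hu v hv
    rw [TT, TT, Finset.sum_mul, Finset.sum_mul, map_sum, map_sum, Finset.mul_sum]
    refine Finset.sum_congr rfl fun ⟨r, j, b⟩ _ => ?_
    have h1 : ∀ z ∈ B, T.τ (L.HH X' r j false * z) = c ^ (j : ℕ) * T.τ (L.HH X r j false * z) :=
      τ_conj_eig hp (he _) (k1 r 0 j (by omega))
    have h2 : ∀ z ∈ B, T.τ (L.HH X' r j true * z) =
        c ^ (n - 1 - j : ℕ) * T.τ (L.HH X r j true * z) :=
      τ_conj_eig (mul_mem hq (he _)) (he _) (k2 r (j + 1) (n - 1 - j) (by omega))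
    have e : (c : ℂ) ^ (n - 1) = c ^ (j : ℕ) * c ^ (n - 1 - j) := by
      rw [← pow_add]; congr 1; omega
    rw [lr_mul, lr_mul, D.τ_lr, D.τ_lr, T.comm v, T.comm v, e]
    cases b
    · simp only [Bool.not_false]
      rw [h1 u hu, τ_star_eig h2 v hv]; ring
    · simp only [Bool.not_true]
      rw [h2 u hu, τ_star_eig h1 v hv]; ring

end Let

end Crest.Agent.R134
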