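import Crest.Agent.R134.Tens
import Crest.Agent.R134.Cap

/-! Row 134, the abstract absorption theorem. -/

set_option autoImplicit false
set_option linter.unusedSectionVars false

open scoped InnerProductSpace ComplexOrder
open Crest.OpAlg Crest.Agent.R124 Crest.Agent.R95

namespace Crest.Agent.R134

variable {A : Type*} [CStarAlgebra A]

theorem wp_lip (T : TS A) (w : List (Unit ⊕ A)) : ∃ c, ∀ X X' : A, ‖X‖ ≤ 3 → ‖X'‖ ≤ 3 →
    ‖wp (fun _ => X) w‖ ≤ c ∧ T.n2 (wp (fun _ => X) w - wp (fun _ => X') w) ≤ c * T.n2 (X - X') := by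
  induction w with
  | nil => exact ⟨‖(1 : A)‖, fun X X' _ _ => ⟨le_rfl, by
      simpa [T.n2_zero] using mul_nonneg (norm_nonneg (1 : A)) (T.n2_nonneg (X - X'))⟩⟩
  | cons a w ih =>
    obtain ⟨c, hc⟩ := ih
    rcases a with a | a
    · refine ⟨4 * c, fun X X' h h' => ?_⟩
      obtain ⟨h1, h2⟩ := hc X X' h h'
      have h3 := (hc X' X h' h).1
      have h0 := (norm_nonneg _).trans h1
      rw [wp_inl, wp_inl]
      refine ⟨(norm_mul_le _ _).trans (by nlinarith [norm_nonneg X]), ?_⟩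
      generalize wp (fun _ => X) w = u at *
      generalize wp (fun _ => X') w = v at *
      rw [show X * u - X' * v = X * (u - v) + (X - X') * v by noncomm_ring]
      have h4 := (T.n2_mul_le X (u - v)).trans (mul_le_mul h h2 (T.n2_nonneg _) (by norm_num))
      have h5 := (T.n2_mul_le' (X - X') v).trans (mul_le_mul_of_nonneg_left h3 (T.n2_nonneg _))
      linarith [T.n2_add_le (X * (u - v)) ((X - X') * v)]
    · refine ⟨‖a‖ * c, fun X X' h h' => ?_⟩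
      obtain ⟨h1, h2⟩ := hc X X' h h'
      rw [wp_inr, wp_inr, ← mul_sub, mul_assoc]
      exact ⟨(norm_mul_le _ _).trans (by gcongr), (T.n2_mul_le _ _).trans (by gcongr)⟩

/-- The 2-norm closure of the set of first generators of generating semicircular systems. -/
def XX (T : TS A) (P : StarSubalgebra ℂ A) : Type _ := {X : A // ‖X‖ ≤ 3 ∧
  ∀ ε > 0, ∃ Y : ℕ → A, SD T P Y ∧ Dn T P Y ∧ T.n2 (X - Y 0) < ε}

variable {T : TS A} {P : StarSubalgebra ℂ A}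

noncomputable instance : PseudoMetricSpace (XX T P) :=
  PseudoMetricSpace.induced (fun u => T.v u.1) inferInstance

theorem dist_XX (u v : XX T P) : dist u v = T.n2 (u.1 - v.1) := by
  rw [TS.n2, map_sub, ← dist_eq_norm]; rfl

theorem complete_XX (hc : T.Comp) : CompleteSpace (XX T P) := by
  refine Metric.complete_of_cauchySeq_tendsto fun u hu => ?_
  obtain ⟨y, hy1, hy⟩ := hc (fun k => (u k).1) 3 (fun k => (u k).2.1) fun ε hε => by
    obtain ⟨N, hN⟩ := Metric.cauchySeq_iff.1 hu ε hε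
    exact ⟨N, fun k hk l hl => by rw [← dist_XX]; exact (hN k hk l hl).le⟩
  refine ⟨⟨y, hy1, fun ε hε => ?_⟩, Metric.tendsto_atTop.2 fun ε hε => ?_⟩
  · obtain ⟨N, hN⟩ := hy (ε / 2) (half_pos hε)
    obtain ⟨Y, h1, h2, h3⟩ := (u N).2.2 _ (half_pos hε)
    exact ⟨Y, h1, h2, by linarith [T.n2_tri y (u N).1 (Y 0), T.n2_sub_comm y (u N).1, hN N le_rfl]⟩
  · obtain ⟨N, hN⟩ := hy (ε / 2) (half_pos hε)
    exact ⟨N, fun k hk => (dist_XX _ _).trans_lt ((hN k hk).trans_lt (half_lt_self hε))⟩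

theorem main2 (T : TS A) (hf : T.Faith) (hc : T.Comp) (P : StarSubalgebra ℂ A) (hR : Rich T P)
    (Y : ℕ → A) (hY : SD T P Y) (hD : Dn T P Y) :
    ∃ X : A, IsSelfAdjoint X ∧
      (∀ w : List (Unit ⊕ A), OK P w → T.τ (wp (fun _ => X) w) = T.τ (wp (fun _ => Y 0) w)) ∧
      ∀ k, ∀ ε > 0, ∃ b ∈ (gen P X).topologicalClosure, ‖b‖ ≤ 3 ∧ T.n2 (Y k - b) ≤ ε := by
  obtain ⟨C, _, ⟨D⟩⟩ := exists_TD T hf
  have := complete_XX (P := P) hc
  have mk : ∀ Y : ℕ → A, SD T P Y → Dn T P Y → ‖Y 0‖ ≤ 3 ∧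
      ∀ ε > 0, ∃ Y' : ℕ → A, SD T P Y' ∧ Dn T P Y' ∧ T.n2 (Y 0 - Y' 0) < ε := fun Y h1 h2 =>
    ⟨h1.norm_le D hf 0, fun ε hε => ⟨Y, h1, h2, by simpa [T.n2_zero] using hε⟩⟩
  have : Nonempty (XX T P) := ⟨⟨Y 0, mk Y hY hD⟩⟩
  obtain ⟨X, hX⟩ := (dense_iInter_of_isOpen
    (f := fun k : ℕ × ℕ => {v : XX T P | T.Nr P (Y k.1) (1 / ((k.2 : ℝ) + 1)) v.1})
    (fun k => Metric.isOpen_iff.2 fun v hv => by
      obtain ⟨δ, hδ, h⟩ := Nr_open' hv
      exact ⟨δ, hδ, fun w hw => h w.1 w.2.1 (by rw [Metric.mem_ball', dist_XX] at hw; exact hw.le)⟩)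
    (fun k => Metric.dense_iff.2 fun v r hr => by
      obtain ⟨Y1, a1, a2, a3⟩ := v.2.2 _ (half_pos hr)
      obtain ⟨Y2, b1, b2, b3, b4⟩ := capture D hf hR a1 a2 (Y k.1)
        (show 0 < 1 / ((k.2 : ℝ) + 1) by positivity) (half_pos hr)
      exact ⟨⟨Y2 0, mk Y2 b1 b2⟩, (dist_XX _ _).trans_lt (by
        linarith [T.n2_tri (Y2 0) (Y1 0) v.1, T.n2_sub_comm (Y1 0) v.1]), b4⟩)).nonempty
  refine ⟨X.1, ?_, fun w hw => ?_, fun k ε hε => ?_⟩
  · rw [IsSelfAdjoint, ← sub_eq_zero]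
    refine hf _ (le_antisymm (le_of_forall_pos_le_add fun ε hε => ?_) (T.n2_nonneg _))
    obtain ⟨Y1, a1, -, a3⟩ := X.2.2 _ (half_pos hε)
    have := T.n2_star (X.1 - Y1 0)
    rw [star_sub, (a1.1 0).star_eq] at this
    linarith [T.n2_tri (star X.1) (Y1 0) X.1, T.n2_sub_comm (Y1 0) X.1]
  · obtain ⟨c, hc⟩ := wp_lip T w
    rw [← sub_eq_zero, ← norm_le_zero_iff]
    refine le_of_forall_pos_le_add fun ε hε => ?_
    obtain ⟨Y1, a1, -, a3⟩ := X.2.2 (ε / (|c| + 1)) (by positivity)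
    rw [← uniqJ (a1.single 0).2 (hY.single 0).2 (by simp) w hw, ← map_sub]
    have h1 := (T.norm_τ_le_n2 _).trans (hc X.1 (Y1 0) X.2.1 (a1.norm_le D hf 0)).2
    rw [lt_div_iff₀ (by positivity)] at a3
    nlinarith [le_abs_self c, T.n2_nonneg (X.1 - Y1 0)]
  · obtain ⟨m, hm⟩ := exists_nat_one_div_lt hε
    obtain ⟨b, b1, b2⟩ := Set.mem_iInter.1 hX (k, m)
    obtain ⟨y, y1, -, y2, y3⟩ := T.approx (StarSubalgebra.isClosed_topologicalClosure _) (hY.1 k)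
      (StarSubalgebra.le_topologicalClosure _ b1)
    exact ⟨y, y1, y2.trans (hY.norm_le D hf k), y3.trans (b2.trans hm).le⟩

end Crest.Agent.R134
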