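import Crest.Agent.R134.Defs

/-! Row 134, task C: partitions and independent symmetries. -/

set_option autoImplicit false
set_option linter.unusedSectionVars false

open scoped InnerProductSpace ComplexOrder
open Crest.OpAlg Crest.Agent.R124 Crest.Agent.R95

namespace Crest.Agent.R134

namespace RichAux

section abstr
variable {A : Type*} [CStarAlgebra A]

/-- The algebra homomorphism attached to a partition of unity. -/
noncomputable def piq {Λ : Type*} [Fintype Λ] [DecidableEq Λ] (q : Λ → A)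
    (hq : ∀ i j, q i * q j = if i = j then q i else 0) (h1 : ∑ i, q i = 1) :
    (Λ → ℂ) →ₐ[ℂ] A where
  toFun f := ∑ i, f i • q i
  map_one' := by simpa using h1
  map_mul' f g := by
    simp only [Finset.sum_mul, Finset.mul_sum, smul_mul_assoc, mul_smul_comm, hq, Pi.mul_apply,
      smul_ite, smul_zero, Finset.sum_ite_eq', Finset.mem_univ, if_true,
      smul_smul]
    exact Finset.sum_congr rfl fun i _ => by rw [mul_comm]
  map_zero' := by simp
  map_add' f g := by simp [add_smul, Finset.sum_add_distrib]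
  commutes' c := by
    simp only [Pi.algebraMap_apply, Algebra.algebraMap_self, RingHom.id_apply,
      ← Finset.smul_sum, h1, Algebra.algebraMap_eq_smul_one]

theorem piq_apply {Λ : Type*} [Fintype Λ] [DecidableEq Λ] (q : Λ → A)
    (hq : ∀ i j, q i * q j = if i = j then q i else 0) (h1 : ∑ i, q i = 1) (f : Λ → ℂ) :
    piq q hq h1 f = ∑ i, f i • q i := rfl

theorem sym_of_atoms (T : TS A) (P : StarSubalgebra ℂ A) {J : ℕ} (p : Fin J → A)
    (s : Finset (ℕ × ℕ)) (q : Fin J × (s → Bool) → A) (c : ℂ)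
    (hP : ∀ i, q i ∈ P) (hs : ∀ i, star (q i) = q i)
    (hq : ∀ i j, q i * q j = if i = j then q i else 0) (h1 : ∑ i, q i = 1)
    (hp : ∀ a, p a = ∑ w, q (a, w)) (hτ : ∀ i, T.τ (q i) = c) :
    ∃ e : ℕ × ℕ → A,
      (∀ i, e i ∈ P ∧ star (e i) = e i ∧ e i * e i = 1) ∧ (∀ i a, Commute (e i) (p a)) ∧
      (∀ i j, Commute (e i) (e j)) ∧
      ∀ j ∈ s, ∀ y ∈ Algebra.adjoin ℂ (Set.range p ∪ e '' {j}ᶜ), T.τ (y * e j) = 0 := by
  classical
  set π := piq q hq h1 with hπ
  let sg : ℕ × ℕ → Fin J × (s → Bool) → ℂ := fun j l =>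
    if h : j ∈ s then (if l.2 ⟨j, h⟩ then 1 else -1) else 1
  let ind : Fin J → Fin J × (s → Bool) → ℂ := fun a l => if l.1 = a then 1 else 0
  have hpi : ∀ a, p a = π (ind a) := by
    intro a
    rw [hp, hπ, piq_apply, Fintype.sum_prod_type, Finset.sum_eq_single a]
    · simp [ind]
    · intro b _ hb; simp [ind, hb]
    · simp
  have hcomm : ∀ f g, Commute (π f) (π g) := fun f g => by
    rw [Commute, SemiconjBy, ← map_mul, ← map_mul, mul_comm]
  refine ⟨fun j => π (sg j), fun i => ⟨?_, ?_, ?_⟩, fun i a => by rw [hpi]; exact hcomm _ _,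
    fun i j => hcomm _ _, ?_⟩
  · exact sum_mem fun l _ => P.smul_mem (hP l) _
  · simp only [hπ, piq_apply, star_sum, star_smul, hs]
    refine Finset.sum_congr rfl fun l _ => ?_
    congr 1
    simp only [sg]
    split_ifs <;> simp
  · rw [← map_mul, ← map_one π]
    congr 1
    funext l
    simp only [sg, Pi.mul_apply, Pi.one_apply]
    split_ifs <;> simp
  · intro j hj y hy
    let φ : Fin J × (s → Bool) → Fin J × (s → Bool) := fun l =>
      (l.1, Function.update l.2 ⟨j, hj⟩ (!l.2 ⟨j, hj⟩))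
    have hφ : Function.Involutive φ := fun l => by
      simp [φ]
    let B : Subalgebra ℂ (Fin J × (s → Bool) → ℂ) :=
      { carrier := {f | ∀ l, f (φ l) = f l}
        mul_mem' := fun {f g} hf hg l => by simp [hf l, hg l]
        add_mem' := fun {f g} hf hg l => by simp [hf l, hg l]
        algebraMap_mem' := fun c l => rfl }
    have hle : Algebra.adjoin ℂ (Set.range p ∪ (fun j => π (sg j)) '' {j}ᶜ) ≤ B.map π := by
      refine Algebra.adjoin_le ?_
      rintro _ (⟨a, rfl⟩ | ⟨i, hi, rfl⟩)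
      · exact ⟨ind a, fun l => rfl, (hpi a).symm⟩
      · refine ⟨sg i, fun l => ?_, rfl⟩
        simp only [sg, φ]
        by_cases h : i ∈ s
        · have hne : (⟨i, h⟩ : s) ≠ ⟨j, hj⟩ := fun e =>
            hi (Set.mem_singleton_iff.2 (Subtype.ext_iff.1 e))
          simp only [h, dif_pos, Function.update_of_ne hne]
        · simp only [h, dif_neg, not_false_eq_true]
    obtain ⟨f, hf, rfl⟩ := hle hy
    have hf' : ∀ l, f (φ l) = f l := hf
    have e1 : T.τ (π f * π (sg j)) = (∑ l, f l * sg j l) * c := by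
      rw [← map_mul, hπ, piq_apply, map_sum, Finset.sum_mul]
      exact Finset.sum_congr rfl fun l _ => by rw [map_smul, hτ]; rfl
    have e2 : ∑ l, f l * sg j l = -∑ l, f l * sg j l := by
      conv_lhs => rw [← Equiv.sum_comp hφ.toPerm]
      rw [← Finset.sum_neg_distrib]
      refine Finset.sum_congr rfl fun l _ => ?_
      have : sg j (φ l) = -sg j l := by
        simp only [sg, φ, hj, dif_pos, Function.update_self]
        cases l.2 ⟨j, hj⟩ <;> simp
      change f (φ l) * sg j (φ l) = _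
      rw [hf', this, mul_neg]
    have e3 : ∑ l, f l * sg j l = 0 := by linear_combination (1 / 2 : ℂ) * e2
    change T.τ (π f * π (sg j)) = 0
    rw [e1, e3, zero_mul]

theorem rich_of_E (T : TS A) (P : StarSubalgebra ℂ A) (E : ℝ → A) (hP : ∀ t, E t ∈ P)
    (hs : ∀ t, star (E t) = E t) (hE : ∀ s t, s ≤ t → E s * E t = E t) (h0 : E 0 = 1)
    (h1 : E 1 = 0) (hτ : ∀ t, 0 ≤ t → t ≤ 1 → T.τ (E t) = ((1 - t : ℝ) : ℂ)) : Rich T P := by
  classical
  have hE' : ∀ s t, s ≤ t → E t * E s = E t := fun s t h => by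
    have := congrArg star (hE s t h)
    rwa [star_mul, hs, hs] at this
  have hII : ∀ a b c d, a ≤ b → b ≤ c → c ≤ d → (E a - E b) * (E c - E d) = 0 := by
    intro a b c d h1 h2 h3
    rw [sub_mul, mul_sub, mul_sub, hE a c (by linarith), hE a d (by linarith), hE b c h2,
      hE b d (by linarith), sub_self]
  have hII' : ∀ a b c d, a ≤ b → b ≤ c → c ≤ d → (E c - E d) * (E a - E b) = 0 := by
    intro a b c d h1 h2 h3
    have := congrArg star (hII a b c d h1 h2 h3)
    simpa [star_mul, hs] using this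
  have hI : ∀ a b, a ≤ b → (E a - E b) * (E a - E b) = E a - E b := by
    intro a b h
    rw [sub_mul, mul_sub, mul_sub, hE a a le_rfl, hE a b h, hE' a b h, hE b b le_rfl, sub_self,
      sub_zero]
  -- atoms of the grid `1/n`
  have hat : ∀ n : ℕ, 0 < n → ∀ k l : ℕ,
      (E (k / n) - E ((k + 1 : ℕ) / n)) * (E (l / n) - E ((l + 1 : ℕ) / n)) =
        if k = l then E (k / n) - E ((k + 1 : ℕ) / n) else 0 := by
    intro n hn k l
    have hn' : (0 : ℝ) < n := by exact_mod_cast hn
    have hm : ∀ a b : ℕ, a ≤ b → (a : ℝ) / n ≤ b / n := fun a b h => by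
      gcongr
    split_ifs with h
    · subst h; exact hI _ _ (hm _ _ (by omega))
    · rcases lt_or_gt_of_ne h with h | h
      · exact hII _ _ _ _ (hm _ _ (by omega)) (hm _ _ h) (hm _ _ (by omega))
      · exact hII' _ _ _ _ (hm _ _ (by omega)) (hm _ _ h) (hm _ _ (by omega))
  have hτat : ∀ n k : ℕ, k < n → T.τ (E (k / n) - E ((k + 1 : ℕ) / n)) = ((1 / n : ℝ) : ℂ) := by
    intro n k hk
    have hn' : (0 : ℝ) < n := by exact_mod_cast (by omega : 0 < n)
    rw [map_sub, hτ _ (by positivity) ((div_le_one hn').2 (by exact_mod_cast hk.le)),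
      hτ _ (by positivity) ((div_le_one hn').2 (by exact_mod_cast hk)), ← Complex.ofReal_sub]
    congr 1
    push_cast
    ring
  intro J hJ
  have hJ' : (0 : ℝ) < J := by exact_mod_cast hJ
  let p : Fin J → A := fun a => E ((a : ℕ) / J) - E (((a : ℕ) + 1 : ℕ) / J)
  have hsum : ∑ a, p a = 1 := by
    rw [Fin.sum_univ_eq_sum_range (fun a => E ((a : ℕ) / J) - E ((a + 1 : ℕ) / J)) J,
      Finset.sum_range_sub' (fun a : ℕ => E (a / J)) J]
    simp [h0, div_self hJ'.ne', h1]
  refine ⟨p, fun a => ⟨sub_mem (hP _) (hP _), ⟨?_, ?_⟩, hτat J a a.2⟩, fun a b hab => ?_, hsum,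
    fun s => ?_⟩
  · have := hat J hJ a a
    rw [if_pos rfl] at this
    exact this
  · simp only [IsSelfAdjoint, p, star_sub, hs]
  · have := hat J hJ a b
    rw [if_neg fun e => hab (Fin.ext e)] at this
    exact this
  set m := Fintype.card (s → Bool) with hm
  have hm0 : 0 < m := Fintype.card_pos
  have hm' : (0 : ℝ) < m := by exact_mod_cast hm0
  let σ : (s → Bool) ≃ Fin m := Fintype.equivFin _
  let k : Fin J × (s → Bool) → ℕ := fun l => (l.1 : ℕ) * m + σ l.2
  have hk : ∀ l, k l < J * m := fun l => by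
    have h1 := (σ l.2).2
    have h2 : ((l.1 : ℕ) + 1) * m ≤ J * m := Nat.mul_le_mul_right _ l.1.2
    simp only [k]; nlinarith
  have hkinj : Function.Injective k := by
    rintro ⟨a, w⟩ ⟨b, v⟩ h
    simp only [k] at h
    have h1 := (σ w).2
    have h2 := (σ v).2
    have h3 : ((a : ℕ) * m + σ w) / m = a := by
      rw [mul_comm, Nat.mul_add_div hm0, Nat.div_eq_of_lt h1, add_zero]
    have h4 : ((b : ℕ) * m + σ v) / m = b := by
      rw [mul_comm, Nat.mul_add_div hm0, Nat.div_eq_of_lt h2, add_zero]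
    have h5 : (a : ℕ) = b := by rw [← h3, h, h4]
    have h6 : (σ w : ℕ) = σ v := by rw [h5] at h; omega
    exact Prod.ext (Fin.ext h5) (σ.injective (Fin.ext h6))
  let q : Fin J × (s → Bool) → A := fun l =>
    E (k l / (J * m : ℕ)) - E ((k l + 1 : ℕ) / (J * m : ℕ))
  have hp : ∀ a, p a = ∑ w, q (a, w) := by
    intro a
    have e := σ.sum_comp fun i : Fin m =>
      E ((((a : ℕ) * m + i : ℕ) : ℝ) / (J * m : ℕ)) - E (((a : ℕ) * m + i + 1 : ℕ) / (J * m : ℕ))
    refine Eq.trans ?_ e.symm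
    rw [Fin.sum_univ_eq_sum_range (fun i => E ((((a : ℕ) * m + i : ℕ) : ℝ) / (J * m : ℕ)) -
        E (((a : ℕ) * m + i + 1 : ℕ) / (J * m : ℕ))) m]
    have e2 := Finset.sum_range_sub' (fun i : ℕ => E ((((a : ℕ) * m + i : ℕ) : ℝ) / (J * m : ℕ))) m
    refine Eq.trans ?_ e2.symm
    simp only [p]
    congr 2
    · push_cast; field_simp; ring
    · push_cast; field_simp
  refine sym_of_atoms T P p s q ((1 / (J * m : ℕ) : ℝ) : ℂ) (fun i => sub_mem (hP _) (hP _))
    (fun i => by simp only [q, star_sub, hs]) (fun i j => ?_) ?_ hp fun i => hτat _ _ (hk i)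
  · have := hat (J * m) (Nat.mul_pos hJ hm0) (k i) (k j)
    simp only [hkinj.eq_iff] at this
    exact this
  · rw [Fintype.sum_prod_type, ← hsum]
    exact Finset.sum_congr rfl fun a _ => (hp a).symm

end abstr

theorem int_max {t : ℝ} (h0 : 0 ≤ t) (h1 : t ≤ 1) :
    ∫ s in (0 : ℝ)..1, max (s - t) 0 = (1 - t) ^ 2 / 2 := by
  have hc : Continuous fun s : ℝ => max (s - t) 0 := by fun_prop
  rw [← intervalIntegral.integral_add_adjacent_intervals (b := t) (hc.intervalIntegrable _ _)
    (hc.intervalIntegrable _ _), intervalIntegral.integral_congr (g := fun _ => 0),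
    intervalIntegral.integral_congr (a := t) (g := fun s => s - t)]
  · rw [intervalIntegral.integral_comp_sub_right (fun s => s) t]
    simp
  · intro s hs
    rw [Set.uIcc_of_le h1] at hs
    exact max_eq_left (by linarith [hs.1])
  · intro s hs
    rw [Set.uIcc_of_le h0] at hs
    exact max_eq_right (by linarith [hs.2])

end RichAux

variable {H : Type*} [NormedAddCommGroup H] [InnerProductSpace ℂ H] [CompleteSpace H]
variable {K : Type*} [NormedAddCommGroup K] [InnerProductSpace ℂ K] [CompleteSpace K]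

open RichAux in
theorem rich {M : VonNeumannAlgebra H} {ξ : ℕ → H} (hξ : IsFaithfulTracialVectorState M ξ)
    (N : VonNeumannAlgebra H) (hN : N ≤ M) (x : Alg M) (hx : (x : H →L[ℂ] H) ∈ N)
    (hu : Unif (ts hξ) x) : Rich (ts hξ) (sub M N) := by
  obtain ⟨hsa, -, hu⟩ := hu
  have hsa' : IsSelfAdjoint (x : H →L[ℂ] H) := congrArg Subtype.val hsa
  let E : ℝ → Alg M := fun t => ⟨sp x t, hN (sp_mem hsa' hx t)⟩
  have hcf : ∀ g : ℝ → ℝ, Continuous g →
      tr ξ (cfc g (x : H →L[ℂ] H)) = ∫ t in (0 : ℝ)..1, g t := by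
    intro g hg
    have e : ((cfc g x : Alg M) : H →L[ℂ] H) = cfc g (x : H →L[ℂ] H) :=
      StarAlgHomClass.map_cfc (R := ℝ) (S := ℂ) M.toStarSubalgebra.subtype g x hg.continuousOn
        continuous_subtype_val hsa hsa'
    have := hu g hg
    rw [ts_τ, e] at this
    rw [tr, this, Complex.ofReal_re]
  have hmono : ∀ a b : H →L[ℂ] H, a ≤ b → tr ξ a ≤ tr ξ b := by
    intro a b hab
    obtain ⟨c, hc⟩ := CStarAlgebra.nonneg_iff_eq_star_mul_self.1 (sub_nonneg.2 hab)
    have h1 := n2_sq' (ξ := ξ) c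
    rw [← hc, tr_sub hξ] at h1
    nlinarith [sq_nonneg (R95.n2 ξ c)]
  have hsm : ∀ (c : ℝ) (a : H →L[ℂ] H), tr ξ (c • a) = c * tr ξ a := by
    intro c a
    simp only [tr, ← tauL_apply hξ.1, ← Complex.coe_smul, map_smul, smul_eq_mul,
      Complex.re_ofReal_mul]
  have hstep : ∀ t ε : ℝ, 0 ≤ t → 0 < ε → t + ε ≤ 1 →
      tr ξ (sp x (t + ε)) ≤ 1 - t - ε / 2 ∧ 1 - t - ε / 2 ≤ tr ξ (sp x t) := by
    intro t ε ht hε h1
    obtain ⟨a1, a2⟩ := step_aux hsa' t hε
    have b1 := hmono _ _ a1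
    have b2 := hmono _ _ a2
    rw [hsm, tr_sub hξ, hcf _ (by fun_prop), hcf _ (by fun_prop), int_max ht (by linarith),
      int_max (by linarith) h1] at b1 b2
    constructor
    · refine le_of_mul_le_mul_left ?_ hε; nlinarith
    · refine le_of_mul_le_mul_left ?_ hε; nlinarith
  have htr : ∀ t, 0 ≤ t → t ≤ 1 → tr ξ (sp x t) = 1 - t := by
    intro t h0 h1
    refine le_antisymm ?_ ?_
    · rcases h0.eq_or_lt with rfl | h0
      · have := hmono _ _ (sub_nonneg.1 (sp_proj (x : H →L[ℂ] H) 0).one_sub.nonneg)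
        rw [tr_one hξ] at this
        linarith
      · refine le_of_forall_pos_le_add fun δ hδ => ?_
        have := (hstep (t - min t δ) (min t δ) (by linarith [min_le_left t δ]) (lt_min h0 hδ)
          (by linarith)).1
        rw [sub_add_cancel] at this
        linarith [min_le_right t δ]
    · rcases h1.eq_or_lt with rfl | h1
      · have := hmono _ _ (sp_proj (x : H →L[ℂ] H) 1).nonneg
        rw [tr_zero hξ] at this
        linarith
      · refine le_of_forall_pos_le_add fun δ hδ => ?_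
        have := (hstep t (min (1 - t) δ) h0 (lt_min (by linarith) hδ)
          (by linarith [min_le_left (1 - t) δ])).2
        linarith [min_le_right (1 - t) δ]
  have hEp : ∀ t, IsStarProjection (E t) := fun t =>
    ⟨Subtype.ext (sp_proj _ t).isIdempotentElem.eq, Subtype.ext (sp_proj _ t).isSelfAdjoint.star_eq⟩
  have hτ : ∀ t, 0 ≤ t → t ≤ 1 → (ts hξ).τ (E t) = ((1 - t : ℝ) : ℂ) := by
    intro t h0 h1
    apply Complex.ext
    · rw [Complex.ofReal_re, ← htr t h0 h1]; rfl
    · rw [Complex.ofReal_im]; exact (ts hξ).τ_sa (hEp t).isSelfAdjoint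
  have hz : ∀ e : Alg M, IsStarProjection e → (ts hξ).τ e = 0 → e = 0 := by
    intro e he h
    refine ts_faith hξ e ?_
    have := (ts hξ).n2_proj_sq he
    rw [h, Complex.zero_re] at this
    exact pow_eq_zero_iff two_ne_zero |>.1 this
  refine rich_of_E _ _ E (fun t => mem_sub.2 (sp_mem hsa' hx t))
    (fun t => (hEp t).isSelfAdjoint.star_eq) (fun s t h => Subtype.ext (sp_mul_sp hsa' h)) ?_ ?_ hτ
  · refine (sub_eq_zero.1 (hz _ (hEp 0).one_sub ?_)).symm
    rw [map_sub, hτ 0 le_rfl zero_le_one, (ts hξ).one]; simp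
  · refine hz _ (hEp 1) ?_
    rw [hτ 1 zero_le_one le_rfl]; simp

end Crest.Agent.R134
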