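import Crest.Agent.R134.Haar
import Crest.Agent.R134.Rich
import Crest.Agent.R134.Main2

/-! Row 134, task F: final assembly. -/

set_option autoImplicit false
set_option linter.unusedSectionVars false

open scoped InnerProductSpace ComplexOrder
open Crest.OpAlg Crest.Agent.R124 Crest.Agent.R95

namespace Crest.Agent.R134

variable {H : Type*} [NormedAddCommGroup H] [InnerProductSpace ℂ H] [CompleteSpace H]
variable {K : Type*} [NormedAddCommGroup K] [InnerProductSpace ℂ K] [CompleteSpace K]

theorem uniq_pure {A A' ι : Type*} [CStarAlgebra A] [CStarAlgebra A'] {T : TS A} {T' : TS A'}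
    {P : StarSubalgebra ℂ A} {P' : StarSubalgebra ℂ A'} {Y : ι → A} {Y' : ι → A'}
    (h : SD T P Y) (h' : SD T' P' Y') (w : List ι) :
    T.τ (w.map Y).prod = T'.τ (w.map Y').prod := by
  have e : ∀ u : List ι, wp Y (u.map Sum.inl) = (u.map Y).prod := fun u => by
    simp [wp, List.map_map, Function.comp_def]
  have e' : ∀ u : List ι, wp Y' (u.map Sum.inl) = (u.map Y').prod := fun u => by
    simp [wp, List.map_map, Function.comp_def]
  induction hn : w.length using Nat.strong_induction_on generalizing w with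
  | _ n ih =>
  cases w with
  | nil => simp [T.one, T'.one]
  | cons j w =>
    have h1 := h.2 j trivial (w.map Sum.inl) fun x hx => by simp at hx
    have h2 := h'.2 j trivial (w.map Sum.inl) fun x hx => by simp at hx
    rw [e, ssum_map] at h1
    rw [e', ssum_map] at h2
    rw [List.map_cons, List.map_cons, List.prod_cons, List.prod_cons, h1, h2]
    refine ssum_congr fun u a v hw => ?_
    have hl : u.length + v.length + 2 = n := by
      rw [← hn, hw]; simp only [List.length_cons, List.length_append]; omega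
    by_cases ha : a = j
    · rw [if_pos (by rw [ha]), if_pos (by rw [ha]), e, e, e', e', ih _ (by omega) u rfl,
        ih _ (by omega) v rfl]
    · rw [if_neg (by simpa using ha), if_neg (by simpa using ha)]

theorem coe_prod_map {M : VonNeumannAlgebra H} {ι : Type*} (Z : ι → Alg M) (w : List ι) :
    ((w.map Z).prod : Alg M).1 = (w.map fun i => (Z i).1).prod := by
  induction w with
  | nil => rfl
  | cons a w ih => rw [List.map_cons, List.map_cons, List.prod_cons, List.prod_cons, ← ih]; rfl

theorem eqv_fin {n : ℕ} (hn : 2 ≤ n) (F : Fock (Fin n) H) (G : Fock ℕ K) :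
    Eqv F.M F.Ω G.M G.Ω := by
  classical
  obtain ⟨m, rfl⟩ : ∃ m, n = m + 1 := ⟨n - 1, by omega⟩
  have hm : 0 < m := by omega
  set J : Set ℕ := {i | i < m} with hJ
  set N := W (G.s '' J) with hN
  have hNM : N ≤ G.M := W_le (by rintro _ ⟨i, -, rfl⟩; exact subset_W ⟨i, rfl⟩)
  have hsa : IsSelfAdjoint (G.sA 0) := Subtype.ext (G.s_sa 0).star_eq
  obtain ⟨Φ, Ψ, hΦ, -, hU, -⟩ := law (ts G.tr) hsa (G.norm_s 0) (G.τ_ch 0)
  have hx : ((cfc Φ (G.sA 0) : Alg G.M) : K →L[ℂ] K) ∈ N := by
    have e : ((cfc Φ (G.sA 0) : Alg G.M) : K →L[ℂ] K) = cfc Φ (G.s 0) :=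
      StarAlgHomClass.map_cfc (R := ℝ) (S := ℂ) G.M.toStarSubalgebra.subtype Φ (G.sA 0)
        hΦ.continuousOn continuous_subtype_val hsa (G.s_sa 0)
    rw [e]
    exact R124.cfc_mem _ (subset_W ⟨0, hm, rfl⟩)
  have hR := rich G.tr N hNM _ hx hU
  obtain ⟨X, hX, hXm, hXa⟩ := main2 (ts G.tr) (ts_faith G.tr) (ts_comp G.tr) _ hR
    (fun j => G.sA (j + m))
    (G.sd J (fun j => j + m) (add_left_injective m) fun j => by simp [hJ])
    (G.dn J (fun j => j + m) fun i => by
      rcases lt_or_ge i m with h | h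
      · exact Or.inl h
      · exact Or.inr ⟨i - m, by simp only; omega⟩)
  let Z : Fin (m + 1) → Alg G.M := fun i => if (i : ℕ) < m then G.sA i else X
  let c : Fin (m + 1) → Unit ⊕ Alg G.M := fun i =>
    if (i : ℕ) < m then Sum.inr (G.sA i) else Sum.inl ()
  have hZ : ∀ w : List (Fin (m + 1)), (ts F.tr).τ (w.map F.sA).prod = (ts G.tr).τ (w.map Z).prod := by
    intro w
    have e1 : wp (fun _ => X) (w.map c) = (w.map Z).prod := by
      rw [wp, List.map_map]
      congr 2
      funext i
      simp only [c, Z, Function.comp]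
      split_ifs <;> rfl
    have e2 : wp (fun _ => G.sA (0 + m)) (w.map c) =
        (w.map fun i : Fin (m + 1) => G.sA i).prod := by
      rw [wp, List.map_map]
      congr 2
      funext i
      simp only [c, Function.comp]
      split_ifs with h
      · rfl
      · have : 0 + m = i := by have := i.2; omega
        rw [this]; rfl
    have h3 := hXm (w.map c) (by
      intro x hx
      obtain ⟨i, -, hi⟩ := List.mem_map.1 hx
      simp only [c] at hi
      split_ifs at hi with h
      obtain rfl := Sum.inr_injective hi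
      exact subset_W ⟨i, h, rfl⟩)
    rw [e1, e2] at h3
    rw [h3]
    exact uniq_pure (F.sd ∅ id Function.injective_id fun j => by simp)
      (G.sd ∅ (fun i : Fin (m + 1) => (i : ℕ)) Fin.val_injective fun j => by simp) w
  have hW : W (Set.range fun i => (Z i).1) = G.M := by
    refine le_antisymm (W_le (by rintro _ ⟨i, rfl⟩; exact (Z i).2)) ?_
    set N' := W (Set.range fun i => (Z i).1) with hN'
    have h1 : ∀ k < m, G.s k ∈ N' := fun k hk =>
      subset_W ⟨⟨k, by omega⟩, by simp only [Z, hk, if_true]; rfl⟩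
    have h2 : N ≤ N' := W_le (by rintro _ ⟨i, hi, rfl⟩; exact h1 i hi)
    have h3 : X.1 ∈ N' := subset_W ⟨Fin.last m, by simp [Z]⟩
    have h4 : (gen (sub G.M N) X).topologicalClosure ≤ sub G.M N' := by
      refine StarSubalgebra.topologicalClosure_minimal ?_ (isClosed_sub _ _)
      refine StarAlgebra.adjoin_le ?_
      rintro y (rfl | hy)
      · exact h3
      · exact h2 hy
    refine W_le ?_
    rintro _ ⟨k, rfl⟩
    rcases lt_or_ge k m with hk | hk
    · exact h1 k hk
    obtain ⟨j, rfl⟩ : ∃ j, k = j + m := ⟨k - m, by omega⟩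
    refine mem_of_n2_lim G.tr N' (G.sA (j + m)).2 (C := 3) fun ε hε => ?_
    obtain ⟨b, hb, hb3, hbε⟩ := hXa j ε hε
    refine ⟨b.1, h4 hb, b.2, hb3, ?_⟩
    rw [TS.n2_sub_comm, ts_n2] at hbε
    exact hbε
  have hZs : ∀ i, star (Z i).1 = (Z i).1 := fun i => by
    simp only [Z]
    split_ifs
    · exact (G.s_sa _).star_eq
    · exact congrArg Subtype.val hX.star_eq
  have := gns F.s (fun i => (Z i).1) id (fun i => (F.s_sa i).star_eq) hZs F.Ω G.Ω
    (fun w => by
      have := hZ w
      rwa [F.τ_eq, G.τ_eq, coe_prod_map, coe_prod_map] at this) F.cyc_M (by rw [hW]; exact G.cyc_M)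
  rwa [hW] at this

theorem iso_free {m n : ℕ} (hm : 2 ≤ m) (hn : 2 ≤ n) :
    ∃ Φ : (groupVNA (FreeGroup (Fin m))).toStarSubalgebra ≃⋆ₐ[ℂ]
        (groupVNA (FreeGroup (Fin n))).toStarSubalgebra,
      ∀ x : (groupVNA (FreeGroup (Fin m))).toStarSubalgebra,
        groupTrace (FreeGroup (Fin n)) (Φ x : ltwo (FreeGroup (Fin n)) →L[ℂ] _) =
          groupTrace (FreeGroup (Fin m)) (x : ltwo (FreeGroup (Fin m)) →L[ℂ] _) := by
  obtain ⟨F⟩ := exists_fock (Fin m)
  obtain ⟨F'⟩ := exists_fock (Fin n)
  obtain ⟨G⟩ := exists_fock ℕ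
  exact ((F.eqv_group.trans (eqv_fin hm F G)).trans
    (F'.eqv_group.trans (eqv_fin hn F' G)).symm).iso

end Crest.Agent.R134
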