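import Crest.Agent.R134.Defs

/-! Row 134, task A: the full Fock space. -/

set_option autoImplicit false
set_option linter.unusedSectionVars false

open scoped InnerProductSpace ComplexOrder
open Crest.OpAlg Crest.Agent.R124 Crest.Agent.R95

namespace Crest.Agent.R134

variable {H : Type*} [NormedAddCommGroup H] [InnerProductSpace ℂ H] [CompleteSpace H]
variable {K : Type*} [NormedAddCommGroup K] [InnerProductSpace ℂ K] [CompleteSpace K]

namespace FA

variable {X : Type*}

theorem sum_le {f : X → X} (hf : Function.Injective f) (ξ : ltwo X) (s : Finset X) :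
    ∑ x ∈ s, ‖ξ (f x)‖ ^ (2 : ENNReal).toReal ≤ ‖ξ‖ ^ (2 : ENNReal).toReal := by
  have := lp.sum_rpow_le_norm_rpow (p := 2) (by norm_num) ξ (s.map ⟨f, hf⟩)
  rwa [Finset.sum_map] at this

/-- Pull-back along an injective map. -/
noncomputable def pb (f : X → X) (hf : Function.Injective f) : ltwo X →L[ℂ] ltwo X :=
  LinearMap.mkContinuous
    { toFun := fun ξ => ⟨fun x => ξ (f x), memℓp_gen' (sum_le hf ξ)⟩
      map_add' := fun _ _ => rfl
      map_smul' := fun _ _ => rfl } 1 fun ξ => by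
    rw [one_mul]
    exact lp.norm_le_of_forall_sum_le (by norm_num) (norm_nonneg _) (sum_le hf ξ)

theorem pb_apply {f : X → X} (hf : Function.Injective f) (ξ : ltwo X) (x : X) :
    pb f hf ξ x = ξ (f x) := rfl

open Classical in
/-- Basis vectors. -/
noncomputable def d (x : X) : ltwo X := lp.single 2 x 1

open Classical in
theorem d_apply (x y : X) : d x y = if y = x then 1 else 0 := by
  rw [d, lp.single_apply, Pi.single_apply]

theorem inner_d (x : X) (ξ : ltwo X) : ⟪d x, ξ⟫_ℂ = ξ x := by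
  classical
  rw [d, lp.inner_single_left]
  simp

theorem star_pb {f : X → X} (hf : Function.Injective f) (x : X) :
    star (pb f hf) (d x) = d (f x) := by
  refine ext_inner_right ℂ fun ξ => ?_
  rw [ContinuousLinearMap.star_eq_adjoint, ContinuousLinearMap.adjoint_inner_left, inner_d, inner_d,
    pb_apply]

theorem op_ext {S T : ltwo X →L[ℂ] ltwo X} (h : ∀ x, S (d x) = T (d x)) : S = T := by
  classical
  refine lp.ext_continuousLinearMap (by norm_num) fun x => ?_
  ext1
  exact h x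

theorem norm_d (x : X) : ‖d x‖ = 1 := by
  classical
  rw [d, lp.norm_single (by norm_num), norm_one]

end FA

open FA in
theorem exists_fock (I : Type*) : Nonempty (Fock I (ltwo (List I))) := by
  classical
  have hl : ∀ i : I, Function.Injective fun w : List I => i :: w := fun i => List.cons_injective
  have hr : ∀ i : I, Function.Injective fun w : List I => w ++ [i] :=
    fun i => List.append_left_injective _
  have h1 : ∀ j : I, pb _ (hr j) (d []) = 0 := fun j => by
    ext v; simp [pb_apply, d_apply]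
  have h2 : ∀ (j k : I) (w : List I), pb _ (hr j) (d (w ++ [k])) = if j = k then d w else 0 :=
    fun j k w => by
      ext v
      split_ifs with h <;> simp [pb_apply, d_apply, h]
  refine ⟨⟨d [], fun i => star (pb _ (hl i)), fun i => star (pb _ (hr i)), norm_d _, fun i j => ?_,
    fun i => ?_, fun i => ?_, fun i => ?_, fun i j => ?_, fun i j η => ?_, fun U hU h0 h => ?_⟩⟩
  · refine op_ext fun w => ?_
    rw [star_star, mul_apply_eq_comp, star_pb]
    ext v
    split_ifs with h <;> simp [pb_apply, d_apply, h]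
  · rw [star_star]; ext v; simp [pb_apply, d_apply]
  · rw [star_star, h1]
  · rw [star_pb, star_pb]; rfl
  · refine op_ext fun w => ?_
    simp only [mul_apply_eq_comp, star_pb, List.cons_append]
  · have : pb _ (hr j) * star (pb _ (hl i)) = star (pb _ (hl i)) * pb _ (hr j) +
        if i = j then InnerProductSpace.rankOne ℂ (d []) (d []) else 0 := by
      refine op_ext fun w => ?_
      simp only [mul_apply_eq_comp, star_pb, add_apply]
      rcases w.eq_nil_or_concat' with rfl | ⟨w, k, rfl⟩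
      · have := h2 j i []
        rw [List.nil_append] at this
        rw [this, h1]
        by_cases h : i = j
        · simp [h, norm_d]
        · simp [h, Ne.symm h]
      · rw [← List.cons_append, h2, h2]
        split_ifs <;> simp [inner_d, d_apply, star_pb]
    have := DFunLike.congr_fun this η
    rw [star_star]
    split_ifs at this ⊢ <;> simpa using this
  · have h3 : ∀ w, d w ∈ U := fun w => by
      induction w with
      | nil => exact h0
      | cons i w ih => simpa only [star_pb] using h i _ ih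
    refine eq_top_iff.2 fun ξ _ => ?_
    refine hU.mem_of_tendsto (lp.hasSum_single (by norm_num) ξ) (.of_forall fun s => ?_)
    refine sum_mem fun w _ => ?_
    convert U.smul_mem (ξ w) (h3 w) using 1
    ext v
    simp [d_apply, lp.single_apply, Pi.single_apply]

namespace FA

/-- Strong approximation of elements of `W s` by polynomials. -/
theorem W_approx {s : Set (H →L[ℂ] H)} {x : H →L[ℂ] H} (hx : x ∈ W s) (V : Finset H) {ε : ℝ}
    (hε : 0 < ε) : ∃ a ∈ StarAlgebra.adjoin ℂ s, ∀ v ∈ V, ‖a v - x v‖ ≤ ε := by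
  have hcl : IsClosed ((StarAlgebra.adjoin ℂ s).topologicalClosure : Set (H →L[ℂ] H)) :=
    StarSubalgebra.isClosed_topologicalClosure _
  let π := (StarAlgebra.adjoin ℂ s).topologicalClosure.subtype
  have h1 : W s ≤ W (Set.range π) := W_le fun y hy => subset_W
    ⟨⟨y, StarSubalgebra.le_topologicalClosure _ (StarAlgebra.subset_adjoin ℂ s hy)⟩, rfl⟩
  obtain ⟨a, ha⟩ := Kap.bicomm π (h1 hx) V (half_pos hε)
  obtain ⟨C, hC⟩ := (V.image norm).bddAbove
  obtain ⟨b, hb, h3⟩ := Metric.mem_closure_iff.1 a.2 (ε / 2 / (|C| + 1)) (by positivity)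
  refine ⟨b, hb, fun v hv => ?_⟩
  have h4 : ‖v‖ ≤ |C| + 1 := by
    linarith [hC (Finset.mem_coe.2 (Finset.mem_image_of_mem _ hv)), le_abs_self C]
  rw [dist_comm, dist_eq_norm] at h3
  have h5 : ‖(b - a.1) v‖ ≤ ε / 2 := by
    calc _ ≤ ‖b - a.1‖ * ‖v‖ := (b - a.1).le_opNorm v
      _ ≤ ε / 2 / (|C| + 1) * (|C| + 1) := by gcongr
      _ = _ := by field_simp
  have h6 : b v - x v = (b - a.1) v + (π a v - x v) := by simp [π]
  rw [h6]
  linarith [norm_add_le ((b - a.1) v) (π a v - x v), ha v hv]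

theorem adjoin_le_W (s : Set (H →L[ℂ] H)) : StarAlgebra.adjoin ℂ s ≤ (W s).toStarSubalgebra :=
  StarAlgebra.adjoin_le fun _ hx => subset_W hx

theorem inner_star (a : H →L[ℂ] H) (x y : H) : ⟪x, a y⟫_ℂ = ⟪star a x, y⟫_ℂ := by
  rw [ContinuousLinearMap.star_eq_adjoint, ContinuousLinearMap.adjoint_inner_left]

end FA

namespace Fock
open FA
variable {I : Type*} (F : Fock I H)

theorem s_sa (i : I) : IsSelfAdjoint (F.s i) := IsSelfAdjoint.add_star_self _

theorem l_iso (i : I) : star (F.l i) * F.l i = 1 := by simpa using F.ll i i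

theorem norm_l (i : I) : ‖F.l i‖ ≤ 1 :=
  (pi_of_init (by rw [F.l_iso]; exact IsStarProjection.one _)).norm_le

theorem norm_s (i : I) : ‖F.s i‖ ≤ 2 := by
  have := norm_add_le (F.l i) (star (F.l i))
  rw [norm_star] at this
  linarith [F.norm_l i, show ‖F.s i‖ = ‖F.l i + star (F.l i)‖ from rfl]

theorem inner_Ω : ⟪F.Ω, F.Ω⟫_ℂ = 1 := by rw [inner_self_eq_norm_sq_to_K, F.norm_Ω]; simp

theorem s_Ω (i : I) : F.s i F.Ω = F.r i F.Ω := by simp [s, F.lΩ, F.rl]

open Classical in
theorem sr_s (i j : I) : star (F.r j) * F.s i = F.s i * star (F.r j) +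
    if i = j then InnerProductSpace.rankOne ℂ F.Ω F.Ω else 0 := by
  have h := congrArg star (F.c1 i j)
  rw [star_mul, star_mul] at h
  rw [s, mul_add, add_mul, h, add_right_comm]
  congr 1
  ext η
  have := F.c2 i j η
  split_ifs at this ⊢ <;> simpa using this

open Classical in
theorem s_r (i j : I) : F.s i * F.r j = F.r j * F.s i +
    if i = j then InnerProductSpace.rankOne ℂ F.Ω F.Ω else 0 := by
  have h := congrArg star (F.sr_s i j)
  rw [star_add, star_mul, star_mul, star_star, (F.s_sa i).star_eq] at h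
  rw [h]
  split_ifs
  · rw [ContinuousLinearMap.star_eq_adjoint, InnerProductSpace.adjoint_rankOne]
  · rw [star_zero]

theorem cyc_alg (η : H) {ε : ℝ} (hε : 0 < ε) :
    ∃ x ∈ StarAlgebra.adjoin ℂ (Set.range F.s), ‖x F.Ω - η‖ < ε := by
  classical
  let A := StarAlgebra.adjoin ℂ (Set.range F.s)
  let V : Submodule ℂ H := (Subalgebra.toSubmodule A.toSubalgebra).map
    (ContinuousLinearMap.apply ℂ H F.Ω : (H →L[ℂ] H) →ₗ[ℂ] H)
  let D : Submodule ℂ H := V ⊓ ⨅ i, V.comap (star (F.l i) : H →L[ℂ] H).toLinearMap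
  have hD : ∀ x, x ∈ D ↔ x ∈ V ∧ ∀ i, star (F.l i) x ∈ V := fun x => by simp [D]
  have hs : ∀ i, ∀ x ∈ V, F.s i x ∈ V := by
    rintro i _ ⟨a, ha, rfl⟩
    exact ⟨F.s i * a, A.mul_mem (StarAlgebra.subset_adjoin ℂ _ ⟨i, rfl⟩) ha, rfl⟩
  have h1 : ∀ i, ∀ x ∈ D, F.l i x ∈ D := fun i x hx => by
    obtain ⟨h1, h2⟩ := (hD x).1 hx
    refine (hD _).2 ⟨by simpa [s] using sub_mem (hs i x h1) (h2 i), fun j => ?_⟩
    have := DFunLike.congr_fun (F.ll j i) x
    rw [mul_apply_eq_comp] at this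
    rw [this]
    split_ifs
    exacts [h1, zero_mem V]
  have h2 := F.cyc D.topologicalClosure D.isClosed_topologicalClosure
    (D.le_topologicalClosure ((hD _).2 ⟨⟨1, one_mem A, rfl⟩, fun i => by
      rw [F.lΩ]; exact zero_mem V⟩))
    fun i x hx => map_mem_closure (F.l i).continuous hx (h1 i)
  have h3 : η ∈ closure (D : Set H) := by
    change η ∈ D.topologicalClosure
    rw [h2]; trivial
  obtain ⟨x, hx, h4⟩ := Metric.mem_closure_iff.1 h3 ε hε
  obtain ⟨a, ha, rfl⟩ := ((hD x).1 hx).1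
  exact ⟨a, ha, by rwa [dist_comm, dist_eq_norm] at h4⟩

theorem cyc_M : Cyc F.M F.Ω := fun η _ hε => by
  obtain ⟨x, hx, h⟩ := F.cyc_alg η hε
  exact ⟨x, adjoin_le_W _ hx, h⟩

theorem R_mem (j : I) : F.r j + star (F.r j) ∈ F.M.commutant := by
  rw [M, W, VonNeumannAlgebra.commutant_commutant]
  refine mem_vnOf.2 ?_
  rintro _ ⟨i, rfl⟩
  rw [(F.s_sa i).star_eq, and_self, mul_add, add_mul, F.s_r, F.sr_s]
  abel

/-- Every polynomial acts on the vacuum as an element of the commutant. -/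
theorem flip {x : H →L[ℂ] H} (hx : x ∈ StarAlgebra.adjoin ℂ (Set.range F.s)) :
    ∃ y ∈ F.M.commutant, x F.Ω = y F.Ω ∧ star x F.Ω = star y F.Ω := by
  induction hx using StarAlgebra.adjoin_induction with
  | mem x h =>
    obtain ⟨i, rfl⟩ := h
    have : F.s i F.Ω = (F.r i + star (F.r i)) F.Ω := by simp [F.s_Ω, F.rΩ]
    exact ⟨_, F.R_mem i, this, by
      rw [(F.s_sa i).star_eq, (IsSelfAdjoint.add_star_self _).star_eq, this]⟩
  | algebraMap r => exact ⟨_, algebraMap_mem F.M.commutant.toStarSubalgebra r, rfl, rfl⟩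
  | add x y _ _ hx hy =>
    obtain ⟨a, a1, a2, a3⟩ := hx
    obtain ⟨b, b1, b2, b3⟩ := hy
    exact ⟨a + b, add_mem a1 b1, by simp [a2, b2], by simp [a3, b3]⟩
  | mul x y h1 h2 hx hy =>
    obtain ⟨a, a1, a2, a3⟩ := hx
    obtain ⟨b, b1, b2, b3⟩ := hy
    have e1 := DFunLike.congr_fun (comm_of_mem (P := F.M) (adjoin_le_W _ h1) b1) F.Ω
    have e2 := DFunLike.congr_fun (comm_of_mem (P := F.M) (star_mem (adjoin_le_W _ h2))
      (star_mem a1)) F.Ω
    simp only [mul_apply_eq_comp] at e1 e2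
    exact ⟨b * a, mul_mem b1 a1, by simp only [mul_apply_eq_comp, b2, ← e1, a2],
      by simp only [star_mul, mul_apply_eq_comp, a3, ← e2, b3]⟩
  | star x _ hx =>
    obtain ⟨a, a1, a2, a3⟩ := hx
    exact ⟨star a, star_mem a1, a3, by simpa using a2⟩

theorem tr : IsFaithfulTracialVectorState F.M (vseq F.Ω) := by
  classical
  refine ⟨?_, fun x hx y hy => ?_, fun x hx h => ?_⟩
  · convert hasSum_single (f := fun n => ‖vseq F.Ω n‖ ^ 2) 0 fun k hk => by simp [vseq, hk]
    simp [vseq, F.norm_Ω]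
  · rw [vs_vseq, vs_vseq, ← sub_eq_zero, ← norm_le_zero_iff]
    refine le_of_forall_pos_le_add fun ε hε => ?_
    obtain ⟨a, ha, h⟩ := W_approx hy {F.Ω, x F.Ω} (show 0 < ε / (‖x‖ + 1) by positivity)
    obtain ⟨b, b1, b2, b3⟩ := F.flip ha
    have e1 := DFunLike.congr_fun (comm_of_mem hx b1) F.Ω
    simp only [mul_apply_eq_comp] at e1
    have e2 : ⟪F.Ω, x (a F.Ω)⟫_ℂ = ⟪F.Ω, a (x F.Ω)⟫_ℂ := by
      rw [b2, ← e1, inner_star b, inner_star a, b3]
    have e3 : ⟪F.Ω, (x * y) F.Ω⟫_ℂ - ⟪F.Ω, (y * x) F.Ω⟫_ℂ =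
        ⟪F.Ω, (a (x F.Ω) - y (x F.Ω)) - x (a F.Ω - y F.Ω)⟫_ℂ := by
      simp only [mul_apply_eq_comp, inner_sub_right, map_sub, e2]; ring
    rw [e3, zero_add]
    refine (norm_inner_le_norm _ _).trans ?_
    rw [F.norm_Ω, one_mul]
    calc _ ≤ ‖a (x F.Ω) - y (x F.Ω)‖ + ‖x‖ * ‖a F.Ω - y F.Ω‖ :=
          (norm_sub_le _ _).trans (by gcongr; exact x.le_opNorm _)
      _ ≤ ε / (‖x‖ + 1) + ‖x‖ * (ε / (‖x‖ + 1)) := by
          gcongr
          exacts [h _ (by simp), h _ (by simp)]
      _ = ε := by field_simp; ring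
  · have h0 : x F.Ω = 0 := h 0
    ext η
    rw [zero_apply, ← norm_le_zero_iff]
    refine le_of_forall_pos_le_add fun ε hε => ?_
    obtain ⟨a, ha, h⟩ := F.cyc_alg η (show 0 < ε / (‖x‖ + 1) by positivity)
    obtain ⟨b, b1, b2, -⟩ := F.flip ha
    have e1 := DFunLike.congr_fun (comm_of_mem hx b1) F.Ω
    simp only [mul_apply_eq_comp, h0, map_zero] at e1
    have e2 : x η = -x (a F.Ω - η) := by rw [map_sub, b2, ← e1]; simp
    rw [e2, norm_neg, zero_add]
    calc _ ≤ ‖x‖ * ‖a F.Ω - η‖ := x.le_opNorm _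
      _ ≤ (‖x‖ + 1) * (ε / (‖x‖ + 1)) := by gcongr; linarith
      _ = ε := by field_simp

theorem τ_eq (x : Alg F.M) : (ts F.tr).τ x = ⟪F.Ω, (x : H →L[ℂ] H) F.Ω⟫_ℂ := vs_vseq _ _

theorem n2_eq (x : Alg F.M) : (ts F.tr).n2 x = ‖(x : H →L[ℂ] H) F.Ω‖ := by
  rw [ts_n2, n2_vseq]

theorem sr_comm {J : Set I} {j : I} (hj : j ∉ J) {x : H →L[ℂ] H} (hx : x ∈ W (F.s '' J)) :
    star (F.r j) * x = x * star (F.r j) := by
  have : W (F.s '' J) ≤ vnOf {F.r j} := W_le (by
    rintro _ ⟨i, hi, rfl⟩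
    have h : i ≠ j := fun h => hj (h ▸ hi)
    refine mem_vnOf.2 ?_
    rintro _ rfl
    rw [F.s_r, F.sr_s, if_neg h, add_zero, add_zero]
    exact ⟨rfl, rfl⟩)
  exact (mem_vnOf.1 (this hx) _ rfl).2

theorem sd (J : Set I) {ι : Type*} (e : ι → I) (he : Function.Injective e) (hJ : ∀ j, e j ∉ J) :
    SD (ts F.tr) (sub F.M (W (F.s '' J))) (fun j => F.sA (e j)) := by
  classical
  refine ⟨fun j => Subtype.ext (F.s_sa (e j)).star_eq, fun j _ w hw => ?_⟩
  set Y := fun j => F.sA (e j) with hY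
  have key : star (F.r (e j)) ((wp Y w : Alg F.M).1 F.Ω) = ssum (fun u a v =>
      if a = Sum.inl j then (ts F.tr).τ (wp Y v) • (wp Y u : Alg F.M).1 F.Ω else 0) w := by
    induction w with
    | nil => exact F.rΩ _
    | cons a w ih =>
      have ih := ih fun x hx => hw x (List.mem_cons_of_mem _ hx)
      have e1 : ∀ u, (wp Y (a :: u) : Alg F.M).1 F.Ω =
          (Sum.elim Y id a : Alg F.M).1 ((wp Y u : Alg F.M).1 F.Ω) := fun u => by
        rw [wp_cons]; rfl
      have e2 : ∀ η, star (F.r (e j)) ((Sum.elim Y id a : Alg F.M).1 η) =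
          (if a = Sum.inl j then ⟪F.Ω, η⟫_ℂ • F.Ω else 0) +
            (Sum.elim Y id a : Alg F.M).1 (star (F.r (e j)) η) := fun η => by
        rcases a with k | x
        · have := DFunLike.congr_fun (F.sr_s (e k) (e j)) η
          simp only [he.eq_iff] at this
          rw [add_comm]
          by_cases h : k = j <;> simpa [h, Y, sA] using this
        · simpa using DFunLike.congr_fun (F.sr_comm (hJ j) (hw x List.mem_cons_self)) η
      rw [ssum_cons, e1, e2, ih, map_ssum, ← τ_eq]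
      congr 1
      refine ssum_congr fun u b v _ => ?_
      split_ifs
      · rw [e1, map_smul]
      · exact map_zero _
  have e : (ts F.tr).τ (Y j * wp Y w) =
      innerSL ℂ F.Ω (star (F.r (e j)) ((wp Y w : Alg F.M).1 F.Ω)) := by
    rw [τ_eq, innerSL_apply_apply, inner_star (star _), star_star, ← F.s_Ω,
      ← (F.s_sa (e j)).star_eq, ← inner_star]
    rfl
  rw [e, key, map_ssum]
  refine ssum_congr fun u b v _ => ?_
  split_ifs
  · rw [map_smul, innerSL_apply_apply, ← τ_eq, smul_eq_mul, mul_comm]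
  · exact map_zero _

theorem dn (J : Set I) {ι : Type*} (e : ι → I) (h : ∀ i, i ∈ J ∨ i ∈ Set.range e) :
    Dn (ts F.tr) (sub F.M (W (F.s '' J))) (fun j => F.sA (e j)) := fun x ε hε => by
  obtain ⟨a, ha, h1⟩ := F.cyc_alg (x.1 F.Ω) hε
  have : StarAlgebra.adjoin ℂ (Set.range F.s) ≤ (StarAlgebra.adjoin ℂ
      ((sub F.M (W (F.s '' J)) : Set (Alg F.M)) ∪ Set.range fun j => F.sA (e j))).map
      F.M.toStarSubalgebra.subtype := StarAlgebra.adjoin_le (by
    rintro _ ⟨i, rfl⟩
    refine ⟨F.sA i, StarAlgebra.subset_adjoin ℂ _ ?_, rfl⟩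
    rcases h i with hi | ⟨j, rfl⟩
    exacts [Or.inl (subset_W ⟨i, hi, rfl⟩), Or.inr ⟨j, rfl⟩])
  obtain ⟨b, hb, rfl⟩ := this ha
  exact ⟨b, hb, by rw [TS.n2_sub_comm, n2_eq]; exact h1⟩

/-- On vectors killed by `l i*` the Chebyshev polynomials act as powers of `l i`. -/
theorem ch_apply (i : I) {η : H} (hη : star (F.l i) η = 0) (k : ℕ) :
    (ch (F.sA i) k : Alg F.M).1 η = (F.l i ^ k) η := by
  induction k using Nat.twoStepInduction with
  | zero => rfl
  | one => change F.s i η = _; simp [s, hη]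
  | more k h1 h2 =>
    change F.s i ((ch (F.sA i) (k + 1) : Alg F.M).1 η) - (ch (F.sA i) k : Alg F.M).1 η = _
    have := DFunLike.congr_fun (F.l_iso i) ((F.l i ^ k) η)
    rw [h1, h2]
    simp only [mul_apply_eq_comp, one_apply_eq_self] at this
    simp only [s, pow_succ', mul_apply_eq_comp, add_apply, this, add_sub_cancel_right]

theorem τ_ch (i : I) (k : ℕ) : (ts F.tr).τ (ch (F.sA i) (k + 1)) = 0 := by
  rw [τ_eq, F.ch_apply i (F.lΩ i), pow_succ', mul_apply_eq_comp, inner_star, F.lΩ, inner_zero_left]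

end Fock

end Crest.Agent.R134
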