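import Crest.Agent.R134.Defs

/-! Row 134, task H: uniqueness of the GNS construction. -/

set_option autoImplicit false
set_option linter.unusedSectionVars false

open scoped InnerProductSpace ComplexOrder
open Crest.OpAlg Crest.Agent.R124 Crest.Agent.R95

namespace Crest.Agent.R134

variable {H : Type*} [NormedAddCommGroup H] [InnerProductSpace ℂ H] [CompleteSpace H]
variable {K : Type*} [NormedAddCommGroup K] [InnerProductSpace ℂ K] [CompleteSpace K]
variable {L : Type*} [NormedAddCommGroup L] [InnerProductSpace ℂ L] [CompleteSpace L]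

namespace GnsA

/-- Linear combinations of words applied to `Ω`. -/
noncomputable def wv {Λ : Type*} (a : Λ → H →L[ℂ] H) (Ω : H) : (List Λ →₀ ℂ) →ₗ[ℂ] H :=
  Finsupp.linearCombination ℂ fun w => (w.map a).prod Ω

theorem wv_single {Λ : Type*} (a : Λ → H →L[ℂ] H) (Ω : H) (w : List Λ) :
    wv a Ω (Finsupp.single w 1) = (w.map a).prod Ω := by simp [wv]

theorem apply_wv {Λ : Type*} (a : Λ → H →L[ℂ] H) (Ω : H) (i : Λ) (f : List Λ →₀ ℂ) :
    a i (wv a Ω f) = wv a Ω (Finsupp.mapDomain (List.cons i) f) := by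
  induction f using Finsupp.induction_linear with
  | zero => simp
  | add f g hf hg => simp only [map_add, Finsupp.mapDomain_add, hf, hg]
  | single w c => simp [wv]

theorem dense_wv {Λ : Type*} (a : Λ → H →L[ℂ] H) (σ : Λ → Λ) (hs : ∀ i, star (a i) = a (σ i))
    (Ω : H) (hc : Cyc (W (Set.range a)) Ω) : DenseRange (wv a Ω) := by
  obtain ⟨h1, h2, h3⟩ := closure_proj (LinearMap.range (wv a Ω))
  have h4 := (LinearMap.range (wv a Ω)).topologicalClosure.starProjection_apply_mem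
  generalize (LinearMap.range (wv a Ω)).topologicalClosure.starProjection = p at h1 h2 h3 h4
  have key : ∀ i, (1 - p) * a i * p = 0 := fun i => h3 _ (by
    rintro _ ⟨f, rfl⟩
    have := h2 _ ⟨Finsupp.mapDomain (List.cons i) f, rfl⟩
    simp only [mul_apply_eq_comp, sub_apply, apply_wv, this]
    simp)
  have hp : p ∈ vnOf (Set.range a) := mem_vnOf.2 (by
    rintro _ ⟨i, rfl⟩
    have k : ∀ i, a i * p = p * a i := fun i => comm_of_inv h1 (key i) (by rw [hs]; exact key _)
    exact ⟨k i, by rw [hs]; exact k _⟩)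
  intro η
  refine closure_minimal (t := closure (Set.range (wv a Ω))) (s := {y | ∃ x ∈ W (Set.range a), x Ω = y})
    ?_ isClosed_closure ?_
  · rintro _ ⟨x, hx, rfl⟩
    have e : p * x = x * p := VonNeumannAlgebra.mem_commutant_iff.1 hx p hp
    have e1 : p Ω = Ω := h2 _ ⟨Finsupp.single [] 1, by simp [wv_single]⟩
    have e2 : p (x Ω) = x Ω := by
      have := DFunLike.congr_fun e Ω
      simpa only [mul_apply_eq_comp, e1] using this
    rw [← e2]
    exact h4 _
  · refine Metric.mem_closure_iff.2 fun ε hε => ?_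
    obtain ⟨x, hx, h⟩ := hc η ε hε
    exact ⟨_, ⟨x, hx, rfl⟩, by rwa [dist_comm, dist_eq_norm]⟩

theorem star_prod {Λ : Type*} (a : Λ → H →L[ℂ] H) (σ : Λ → Λ) (hs : ∀ i, star (a i) = a (σ i))
    (w : List Λ) : star (w.map a).prod = ((w.reverse.map σ).map a).prod := by
  induction w with
  | nil => simp
  | cons i w ih => simp [ih, hs]

theorem inner_word {Λ : Type*} (a : Λ → H →L[ℂ] H) (σ : Λ → Λ) (hs : ∀ i, star (a i) = a (σ i))
    (Ω : H) (u w : List Λ) : ⟪(u.map a).prod Ω, (w.map a).prod Ω⟫_ℂ =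
      ⟪Ω, ((u.reverse.map σ ++ w).map a).prod Ω⟫_ℂ := by
  rw [List.map_append, List.prod_append, ← star_prod a σ hs, mul_apply_eq_comp,
    ContinuousLinearMap.star_eq_adjoint, ContinuousLinearMap.adjoint_inner_right]

theorem mem_W_iff (e : (H →L[ℂ] H) ≃⋆ₐ[ℂ] (K →L[ℂ] K)) (s : Set (H →L[ℂ] H)) (x : H →L[ℂ] H) :
    x ∈ W s ↔ e x ∈ W (e '' s) := by
  have k : ∀ y, y ∈ vnOf s ↔ e y ∈ vnOf (e '' s) := fun y => by
    have e1 : ∀ a, star (e a) = e (star a) := fun a => (e.map_star' a).symm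
    have e2 : ∀ a b, e a * e b = e (a * b) := fun a b => (e.map_mul' a b).symm
    simp only [mem_vnOf, Set.forall_mem_image, e1, e2, EmbeddingLike.apply_eq_iff_eq]
  simp only [W, VonNeumannAlgebra.mem_commutant_iff]
  refine ⟨fun h g hg => ?_, fun h g hg => ?_⟩
  · obtain ⟨g, rfl⟩ := EquivLike.surjective e g
    rw [← map_mul, ← map_mul, h g ((k g).2 hg)]
  · apply EquivLike.injective e
    rw [map_mul, map_mul, h _ ((k g).1 hg)]

end GnsA

open GnsA in
theorem gns {Λ : Type*} (a : Λ → H →L[ℂ] H) (a' : Λ → K →L[ℂ] K) (σ : Λ → Λ)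
    (hs : ∀ i, star (a i) = a (σ i)) (hs' : ∀ i, star (a' i) = a' (σ i)) (Ω : H) (Ω' : K)
    (hm : ∀ w : List Λ, ⟪Ω, (w.map a).prod Ω⟫_ℂ = ⟪Ω', (w.map a').prod Ω'⟫_ℂ)
    (hc : Cyc (W (Set.range a)) Ω) (hc' : Cyc (W (Set.range a')) Ω') :
    Eqv (W (Set.range a)) Ω (W (Set.range a')) Ω' := by
  have hi : ∀ f g, ⟪wv a' Ω' f, wv a' Ω' g⟫_ℂ = ⟪wv a Ω f, wv a Ω g⟫_ℂ := fun f g => by
    induction f using Finsupp.induction_linear with
    | zero => simp
    | add f f' h1 h2 => simp only [map_add, inner_add_left, h1, h2]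
    | single u c =>
      induction g using Finsupp.induction_linear with
      | zero => simp
      | add g g' h1 h2 => simp only [map_add, inner_add_right, h1, h2]
      | single w d =>
        simp only [wv, Finsupp.linearCombination_single, inner_smul_left, inner_smul_right]
        rw [inner_word a σ hs, inner_word a' σ hs', hm]
  have hn : ∀ f, ‖wv a' Ω' (LinearEquiv.refl ℂ _ f)‖ = ‖wv a Ω f‖ := fun f => by
    rw [LinearEquiv.refl_apply, @norm_eq_sqrt_re_inner ℂ, @norm_eq_sqrt_re_inner ℂ, hi]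
  have hd := dense_wv a σ hs Ω hc
  let V := (LinearEquiv.refl ℂ (List Λ →₀ ℂ)).extendOfIsometry _ _ hd (dense_wv a' σ hs' Ω' hc') hn
  have hV : ∀ f, V (wv a Ω f) = wv a' Ω' f := fun f =>
    LinearEquiv.extendOfIsometry_eq _ _ _ _ _ hn f
  have hVa : ∀ i η, V (a i η) = a' i (V η) := fun i η => by
    refine hd.induction_on (p := fun η => V (a i η) = a' i (V η)) η
      (isClosed_eq (by fun_prop) (by fun_prop)) fun f => ?_
    rw [apply_wv, hV, hV, apply_wv]
  refine ⟨V, by simpa [wv_single] using hV (Finsupp.single [] 1), fun x => ?_⟩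
  rw [mem_W_iff V.conjStarAlgEquiv, ← Set.range_comp]
  have : (V.conjStarAlgEquiv ∘ a) = a' := by
    ext i η
    simp [hVa]
  rw [this]

theorem Eqv.symm {M : VonNeumannAlgebra H} {Ω : H} {M' : VonNeumannAlgebra K} {Ω' : K}
    (h : Eqv M Ω M' Ω') : Eqv M' Ω' M Ω := by
  obtain ⟨V, h1, h2⟩ := h
  refine ⟨V.symm, by rw [← h1, V.symm_apply_apply], fun x => ?_⟩
  rw [h2, ← LinearIsometryEquiv.symm_conjStarAlgEquiv, StarAlgEquiv.apply_symm_apply]

theorem Eqv.trans {M : VonNeumannAlgebra H} {Ω : H} {M' : VonNeumannAlgebra K} {Ω' : K}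
    {M'' : VonNeumannAlgebra L} {Ω'' : L} (h : Eqv M Ω M' Ω') (h' : Eqv M' Ω' M'' Ω'') :
    Eqv M Ω M'' Ω'' := by
  obtain ⟨V, h1, h2⟩ := h
  obtain ⟨V', h1', h2'⟩ := h'
  exact ⟨V.trans V', by rw [LinearIsometryEquiv.trans_apply, h1, h1'],
    fun x => (h2 x).trans (h2' _)⟩

theorem Eqv.iso {M : VonNeumannAlgebra H} {Ω : H} {M' : VonNeumannAlgebra K} {Ω' : K}
    (h : Eqv M Ω M' Ω') : ∃ Φ : M.toStarSubalgebra ≃⋆ₐ[ℂ] M'.toStarSubalgebra,
      ∀ x : M.toStarSubalgebra, ⟪Ω', (Φ x : K →L[ℂ] K) Ω'⟫_ℂ = ⟪Ω, (x : H →L[ℂ] H) Ω⟫_ℂ := by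
  obtain ⟨V, h1, h2⟩ := h
  refine ⟨{ toFun := fun x => ⟨V.conjStarAlgEquiv x, (h2 _).1 x.2⟩
            invFun := fun y => ⟨V.conjStarAlgEquiv.symm y, (h2 _).2 (by
              rw [StarAlgEquiv.apply_symm_apply]; exact y.2)⟩
            left_inv := fun x => Subtype.ext (V.conjStarAlgEquiv.symm_apply_apply _)
            right_inv := fun y => Subtype.ext (V.conjStarAlgEquiv.apply_symm_apply _)
            map_mul' := fun x y => Subtype.ext (map_mul V.conjStarAlgEquiv _ _)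
            map_add' := fun x y => Subtype.ext (map_add V.conjStarAlgEquiv _ _)
            map_star' := fun x => Subtype.ext (map_star V.conjStarAlgEquiv _)
            map_smul' := fun c x => Subtype.ext (map_smul V.conjStarAlgEquiv c _) }, fun x => ?_⟩
  change ⟪Ω', V ((x : H →L[ℂ] H) (V.symm Ω'))⟫_ℂ = _
  rw [← h1, V.symm_apply_apply, V.inner_map_map]

end Crest.Agent.R134
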