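import Crest.Agent.R134.Defs

/-! Row 134, task L: the semicircle law. -/

set_option autoImplicit false
set_option linter.unusedSectionVars false

open scoped InnerProductSpace ComplexOrder
open Crest.OpAlg Crest.Agent.R124 Crest.Agent.R95

namespace Crest.Agent.R134

variable {A : Type*} [CStarAlgebra A]

namespace LawA
open Polynomial Real

/-- Chebyshev polynomials. -/
noncomputable def U : ℕ → ℝ[X]
  | 0 => 1
  | 1 => X
  | k + 2 => X * U (k + 1) - U k

theorem aeval_U (S : A) : ∀ k, aeval S (U k) = ch S k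
  | 0 => by simp [U, ch]
  | 1 => by simp [U, ch]
  | k + 2 => by simp [U, ch, aeval_U S (k + 1), aeval_U S k]

theorem eval_U (t : ℝ) : ∀ k : ℕ, (U k).eval (2 * cos t) * sin t = sin ((k + 1) * t)
  | 0 => by simp [U]
  | 1 => by
    rw [show ((1 : ℕ) + 1 : ℝ) * t = 2 * t by push_cast; ring, sin_two_mul]
    simp [U]; ring
  | k + 2 => by
    have h1 := eval_U t (k + 1)
    have h2 := eval_U t k
    simp only [U, eval_sub, eval_mul, eval_X, sub_mul, mul_assoc]
    rw [h1, h2, show (((k + 2 : ℕ) : ℝ) + 1) * t = (((k + 1 : ℕ) : ℝ) + 1) * t + t by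
      push_cast; ring, show ((k : ℝ) + 1) * t = (((k + 1 : ℕ) : ℝ) + 1) * t - t by
      push_cast; ring, sin_add, sin_sub]
    ring

/-- Integral against the semicircle law. -/
noncomputable def I (f : ℝ → ℝ) : ℝ := ∫ t in (0 : ℝ)..π, f (2 * cos t) * (2 / π * sin t ^ 2)

theorem I_one : I (fun _ => 1) = 1 := by
  simp only [I, one_mul, intervalIntegral.integral_const_mul, integral_sin_sq]
  simp

theorem I_U (k : ℕ) : I (fun s => (U (k + 1)).eval s) = 0 := by
  have e : ∀ t : ℝ, (U (k + 1)).eval (2 * cos t) * (2 / π * sin t ^ 2) =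
      1 / π * (cos ((k + 1) * t) - cos ((k + 3) * t)) := fun t => by
    have h1 := eval_U t (k + 1)
    rw [show ((k : ℝ) + 1) * t = (((k + 1 : ℕ) : ℝ) + 1) * t - t by push_cast; ring,
      show ((k : ℝ) + 3) * t = (((k + 1 : ℕ) : ℝ) + 1) * t + t by push_cast; ring,
      cos_add, cos_sub, ← h1]
    ring
  have c : ∀ n : ℕ, ∫ t in (0 : ℝ)..π, cos (((n + 1 : ℕ) : ℝ) * t) = 0 := fun n => by
    rw [intervalIntegral.integral_comp_mul_left (f := cos) (by positivity), integral_cos,
      sin_nat_mul_pi]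
    simp
  simp only [I, e, intervalIntegral.integral_const_mul]
  rw [intervalIntegral.integral_sub (by apply Continuous.intervalIntegrable; fun_prop)
    (by apply Continuous.intervalIntegrable; fun_prop)]
  have c1 := c k
  have c2 := c (k + 2)
  push_cast at c1 c2
  rw [c1, show (k : ℝ) + 3 = k + 2 + 1 by ring, c2]
  simp

theorem I_add {f g : ℝ → ℝ} (hf : Continuous f) (hg : Continuous g) :
    I (fun s => f s + g s) = I f + I g := by
  simp only [I, add_mul]
  exact intervalIntegral.integral_add (by apply Continuous.intervalIntegrable; fun_prop)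
    (by apply Continuous.intervalIntegrable; fun_prop)

theorem I_smul (c : ℝ) (f : ℝ → ℝ) : I (fun s => c * f s) = c * I f := by
  simp only [I, mul_assoc, intervalIntegral.integral_const_mul]

theorem poly (T : TS A) {S : A} (h : ∀ k, T.τ (ch S (k + 1)) = 0) (p : ℝ[X]) :
    T.τ (aeval S p) = (I (fun s => p.eval s) : ℝ) := by
  have hadd : ∀ p q : ℝ[X], T.τ (aeval S p) = (I (fun s => p.eval s) : ℝ) →
      T.τ (aeval S q) = (I (fun s => q.eval s) : ℝ) →
      T.τ (aeval S (p + q)) = (I (fun s => (p + q).eval s) : ℝ) := fun p q hp hq => by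
    simp only [map_add, eval_add]
    rw [I_add p.continuous q.continuous, hp, hq, Complex.ofReal_add]
  have key : ∀ n k, T.τ (aeval S (X ^ n * U k)) = (I (fun s => (X ^ n * U k).eval s) : ℝ) := by
    intro n
    induction n with
    | zero =>
      intro k
      rw [pow_zero, one_mul]
      cases k with
      | zero => simp [U, T.one, I_one]
      | succ k => rw [aeval_U, h, I_U, Complex.ofReal_zero]
    | succ n ih =>
      intro k
      cases k with
      | zero => simpa [U, pow_succ] using ih 1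
      | succ k =>
        have : X ^ (n + 1) * U (k + 1) = X ^ n * U (k + 2) + X ^ n * U k := by
          rw [U]; ring
        rw [this]
        exact hadd _ _ (ih _) (ih _)
  induction p using Polynomial.induction_on' with
  | add p q hp hq => exact hadd p q hp hq
  | monomial n a =>
    have := key n 0
    rw [U, mul_one] at this
    rw [← smul_X_eq_monomial, map_smul, T.τ_rsmul, this]
    simp only [eval_smul, smul_eq_mul]
    rw [I_smul, Complex.ofReal_mul]

theorem spec {S : A} (h2 : ‖S‖ ≤ 2) : spectrum ℝ S ⊆ Set.Icc (-2) 2 := fun s hs => by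
  rcases subsingleton_or_nontrivial A with h | h
  · simp [spectrum.of_subsingleton] at hs
  exact abs_le.1 ((spectrum.norm_le_norm_of_mem hs).trans h2)

theorem cont (T : TS A) {S : A} (hS : IsSelfAdjoint S) (h2 : ‖S‖ ≤ 2)
    (h : ∀ k, T.τ (ch S (k + 1)) = 0) {f : ℝ → ℝ} (hf : Continuous f) :
    T.τ (cfc f S) = (I f : ℝ) := by
  rw [← sub_eq_zero]
  refine norm_le_zero_iff.1 (le_of_forall_pos_le_add fun ε hε => ?_)
  obtain ⟨p, hp⟩ := exists_polynomial_near_of_continuousOn (-2) 2 f hf.continuousOn (ε / 3)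
    (by positivity)
  have h1 : ‖T.τ (cfc f S) - T.τ (aeval S p)‖ ≤ ε / 3 := by
    rw [← map_sub, ← cfc_polynomial p S, ← cfc_sub _ _ S]
    refine (T.norm_τ_le _).trans (norm_cfc_le (by positivity) fun s hs => ?_)
    rw [Real.norm_eq_abs, abs_sub_comm]
    exact (hp s (spec h2 hs)).le
  have h3 : |I (fun s => p.eval s) - I f| ≤ 2 * (ε / 3) := by
    have e : I (fun s => p.eval s) - I f = I (fun s => p.eval s + (-1) * f s) := by
      rw [I_add p.continuous (by fun_prop), I_smul]; ring
    rw [e, I, ← Real.norm_eq_abs]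
    refine (intervalIntegral.norm_integral_le_of_norm_le_const (C := ε / 3 * (2 / π))
      fun t _ => ?_).trans (le_of_eq ?_)
    · have h4 := hp (2 * cos t) ⟨by linarith [neg_one_le_cos t], by linarith [cos_le_one t]⟩
      have h5 : 0 < 2 / π := by positivity
      rw [norm_mul, Real.norm_eq_abs, Real.norm_eq_abs, abs_of_nonneg (by positivity : 0 ≤ 2 / π * sin t ^ 2),
        neg_one_mul, ← sub_eq_add_neg]
      refine mul_le_mul h4.le ?_ (by positivity) (by positivity)
      nlinarith [sin_sq_le_one t]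
    · rw [sub_zero, abs_of_pos pi_pos]; field_simp
  rw [poly T h] at h1
  have h4 : ‖((I fun s => p.eval s : ℝ) : ℂ) - (I f : ℝ)‖ ≤ 2 * (ε / 3) := by
    rwa [← Complex.ofReal_sub, Complex.norm_real]
  have := norm_sub_le_norm_sub_add_norm_sub (T.τ (cfc f S)) ((I fun s => p.eval s : ℝ) : ℂ) (I f : ℝ)
  linarith

/-- Distribution function in the angle variable. -/
noncomputable def F (t : ℝ) : ℝ := (t - sin t * cos t) / π

theorem F_deriv (t : ℝ) : HasDerivAt F (2 / π * sin t ^ 2) t := by
  have := ((hasDerivAt_id t).sub ((hasDerivAt_sin t).mul (hasDerivAt_cos t))).div_const π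
  refine this.congr_deriv ?_
  have h := sin_sq_add_cos_sq t
  rw [div_mul_eq_mul_div]
  congr 1
  linarith

theorem F_cont : Continuous F := by unfold F; fun_prop

theorem F_mono : StrictMonoOn F (Set.Icc 0 π) := by
  refine strictMonoOn_of_deriv_pos (convex_Icc _ _) F_cont.continuousOn fun t ht => ?_
  rw [interior_Icc] at ht
  rw [(F_deriv t).deriv]
  have := sin_pos_of_pos_of_lt_pi ht.1 ht.2
  positivity

theorem F_zero : F 0 = 0 := by simp [F]
theorem F_pi : F π = 1 := by simp [F, pi_ne_zero]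

end LawA

open LawA Real in
theorem law (T : TS A) {S : A} (hS : IsSelfAdjoint S) (h2 : ‖S‖ ≤ 2)
    (h : ∀ k, T.τ (ch S (k + 1)) = 0) :
    ∃ Φ Ψ : ℝ → ℝ, Continuous Φ ∧ Continuous Ψ ∧ Unif T (cfc Φ S) ∧ cfc Ψ (cfc Φ S) = S := by
  set Φ : ℝ → ℝ := fun s => F (arccos (s / 2)) with hΦ
  have hc : Continuous Φ := F_cont.comp (continuous_arccos.comp (by fun_prop))
  have hm : ∀ s, arccos s ∈ Set.Icc 0 π := fun s => ⟨arccos_nonneg s, arccos_le_pi s⟩
  have hinj : Function.Injective fun s : Set.Icc (-2 : ℝ) 2 => Φ s := fun s t e => by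
    have h1 := F_mono.injOn (hm _) (hm _) e
    have h3 := arccos_injOn ⟨by linarith [s.2.1], by linarith [s.2.2]⟩
      ⟨by linarith [t.2.1], by linarith [t.2.2]⟩ h1
    exact Subtype.ext (by linarith)
  obtain ⟨Ψ, hΨ⟩ := ContinuousMap.exists_extension
    ((hc.comp continuous_subtype_val).isClosedEmbedding hinj)
    (⟨Subtype.val, continuous_subtype_val⟩ : C(Set.Icc (-2 : ℝ) 2, ℝ))
  refine ⟨Φ, Ψ, hc, Ψ.continuous, ⟨cfc_predicate _ _, ?_, fun g hg => ?_⟩, ?_⟩
  · rw [cfc_map_spectrum Φ S]
    rintro _ ⟨s, -, rfl⟩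
    refine ⟨?_, ?_⟩
    · rw [← F_zero]; exact F_mono.monotoneOn ⟨le_rfl, pi_pos.le⟩ (hm _) (hm _).1
    · rw [← F_pi]; exact F_mono.monotoneOn (hm _) ⟨pi_pos.le, le_rfl⟩ (hm _).2
  · rw [← cfc_comp g Φ S, cont T hS h2 h (hg.comp hc), I]
    congr 1
    have := intervalIntegral.integral_comp_mul_deriv (a := 0) (b := π) (f := F)
      (f' := fun t => 2 / π * sin t ^ 2) (g := g) (fun t _ => F_deriv t) (by fun_prop) hg
    rw [F_zero, F_pi] at this
    rw [← this]
    refine intervalIntegral.integral_congr fun t ht => ?_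
    rw [Set.uIcc_of_le pi_pos.le] at ht
    simp only [Function.comp, hΦ]
    rw [mul_div_cancel_left₀ _ two_ne_zero, arccos_cos ht.1 ht.2]
  · rw [← cfc_comp Ψ Φ S hS Ψ.continuous.continuousOn hc.continuousOn]
    refine (cfc_congr fun s hs => ?_).trans (cfc_id ℝ S)
    have := congrArg (fun f : C(Set.Icc (-2 : ℝ) 2, ℝ) => f ⟨s, spec h2 hs⟩) hΨ
    simpa using this

end Crest.Agent.R134
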