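import Crest.Agent.R134.Fock
import Crest.Agent.R134.Law
import Crest.Agent.R134.GNS

/-! Row 134, task B: the free semicircular algebra is the free group factor. -/

set_option autoImplicit false
set_option linter.unusedSectionVars false

open scoped InnerProductSpace ComplexOrder
open Crest.OpAlg Crest.Agent.R124 Crest.Agent.R95

namespace Crest.Agent.R134

variable {H : Type*} [NormedAddCommGroup H] [InnerProductSpace ℂ H] [CompleteSpace H]
variable {K : Type*} [NormedAddCommGroup K] [InnerProductSpace ℂ K] [CompleteSpace K]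

namespace HB
open Real Filter Topology FA

section alg
variable {A : Type*} [CStarAlgebra A]

/-- `exp (i a x)`. -/
noncomputable def ex (x : A) (a : ℝ) : A :=
  cfc (fun t : ℝ => cos (a * t)) x + Complex.I • cfc (fun t : ℝ => sin (a * t)) x

theorem ex_mul (x : A) (a b : ℝ) : ex x a * ex x b = ex x (a + b) := by
  have h1 : cfc (fun t : ℝ => cos ((a + b) * t)) x =
      cfc (fun t : ℝ => cos (a * t)) x * cfc (fun t : ℝ => cos (b * t)) x -
        cfc (fun t : ℝ => sin (a * t)) x * cfc (fun t : ℝ => sin (b * t)) x := by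
    rw [← cfc_mul _ _ x, ← cfc_mul _ _ x, ← cfc_sub _ _ x]
    simp only [add_mul, cos_add]
  have h2 : cfc (fun t : ℝ => sin ((a + b) * t)) x =
      cfc (fun t : ℝ => sin (a * t)) x * cfc (fun t : ℝ => cos (b * t)) x +
        cfc (fun t : ℝ => cos (a * t)) x * cfc (fun t : ℝ => sin (b * t)) x := by
    rw [← cfc_mul _ _ x, ← cfc_mul _ _ x, ← cfc_add x _ _]
    simp only [add_mul, sin_add]
  rw [ex, ex, ex, h1, h2]
  simp only [add_mul, mul_add, smul_mul_assoc, mul_smul_comm, smul_smul,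
    Complex.I_mul_I, smul_add, neg_smul, one_smul]
  abel

theorem ex_zero {x : A} (hx : IsSelfAdjoint x) : ex x 0 = 1 := by
  simp [ex, cfc_const_one ℝ x]

theorem star_cfc (f : ℝ → ℝ) (x : A) : star (cfc f x) = cfc f x :=
  (cfc_predicate f x : IsSelfAdjoint _).star_eq

theorem star_ex (x : A) (a : ℝ) : star (ex x a) = ex x (-a) := by
  simp only [ex, star_add, star_smul, star_cfc, neg_mul, cos_neg, sin_neg, cfc_neg,
    Complex.star_def, Complex.conj_I, neg_smul, smul_neg]

theorem ex_unitary {x : A} (hx : IsSelfAdjoint x) (a : ℝ) : ex x a ∈ unitary A :=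
  ⟨by rw [star_ex, ex_mul, neg_add_cancel, ex_zero hx],
    by rw [star_ex, ex_mul, add_neg_cancel, ex_zero hx]⟩

theorem τ_ex {T : TS A} {x : A} (hx : Unif T x) {k : ℤ} (hk : k ≠ 0) :
    T.τ (ex x (k * (2 * π))) = 0 := by
  have h : (k : ℝ) * (2 * π) ≠ 0 := mul_ne_zero (Int.cast_ne_zero.2 hk) (by positivity)
  have h1 := sin_int_mul_two_pi_sub 0 k
  rw [ex, map_add, map_smul, hx.2.2 _ (by fun_prop), hx.2.2 _ (by fun_prop),
    intervalIntegral.integral_comp_mul_left cos h, intervalIntegral.integral_comp_mul_left sin h]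
  simp_all

theorem approx {T : TS A} {x : A} (hx : Unif T x) (S : StarSubalgebra ℂ A)
    (hS : IsClosed (S : Set A)) (hu : ex x (2 * π) ∈ S) {ε : ℝ} (hε : 0 < ε) :
    ∃ y ∈ S, ‖y‖ ≤ 1 ∧ T.n2 (y - cfc (fun t : ℝ => cos (π * t)) x) ≤ ε := by
  have hs := hx.1
  have h1 : cfc (fun t : ℝ => cos (2 * π * t)) x ∈ S := by
    convert SMulMemClass.smul_mem (1 / 2 : ℂ) (add_mem hu (star_mem hu)) using 1
    simp only [ex, star_add, star_smul, star_cfc, Complex.star_def, Complex.conj_I]
    module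
  have h2 : cfc (fun t : ℝ => sin (2 * π * t)) x ∈ S := by
    convert SMulMemClass.smul_mem (-Complex.I) (sub_mem hu h1) using 1
    simp [ex, smul_smul]
  let g : ℕ → ℝ → ℝ := fun n t => sin (2 * π * t) * (2 * |sin (π * t)| + 1 / (n + 1))⁻¹
  have gc : ∀ n, Continuous (g n) := fun n =>
    Continuous.mul (by fun_prop) (Continuous.inv₀ (by fun_prop) fun t => by positivity)
  have gb : ∀ n t, |g n t| ≤ 1 := fun n t => by
    have : 0 < 2 * |sin (π * t)| + 1 / ((n : ℝ) + 1) := by positivity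
    rw [abs_mul, abs_inv, abs_of_pos this, ← div_eq_mul_inv, div_le_one this, mul_assoc,
      sin_two_mul, abs_mul, abs_mul, abs_two]
    have := mul_le_of_le_one_right (abs_nonneg (sin (π * t))) (abs_cos_le_one (π * t))
    have : 0 < 1 / ((n : ℝ) + 1) := by positivity
    linarith
  have gS : ∀ n, cfc (g n) x ∈ S := fun n => by
    have hc : Continuous fun z : ℝ => (2 * √((1 - z) / 2) + 1 / ((n : ℝ) + 1))⁻¹ :=
      Continuous.inv₀ (by fun_prop) fun t => by positivity
    convert mul_mem h2 (_root_.cfc_mem (𝕜' := ℂ)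
      (fun z : ℝ => (2 * √((1 - z) / 2) + 1 / ((n : ℝ) + 1))⁻¹) h1) using 1
    have hc' : Continuous fun t : ℝ => (2 * √((1 - cos (2 * π * t)) / 2) + 1 / ((n : ℝ) + 1))⁻¹ :=
      hc.comp (by fun_prop)
    rw [← cfc_comp' _ _ x hc.continuousOn, ← cfc_mul _ _ x (by fun_prop) hc'.continuousOn]
    congr 1
    funext t
    rw [← abs_sin_half, show 2 * π * t / 2 = π * t by ring]
  have hl : Tendsto (fun n => ∫ t in (0 : ℝ)..1, (g n t - cos (π * t)) * (g n t - cos (π * t)))
      atTop (𝓝 (∫ t in (0 : ℝ)..1, 0)) := by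
    refine intervalIntegral.tendsto_integral_filter_of_dominated_convergence (fun _ => 2 * 2)
      (.of_forall fun n => Continuous.aestronglyMeasurable (by fun_prop))
      (.of_forall fun n => .of_forall fun t _ => ?_) intervalIntegrable_const ?_
    · have : |g n t - cos (π * t)| ≤ 2 :=
        (abs_sub _ _).trans (by linarith [gb n t, abs_cos_le_one (π * t)])
      rw [Real.norm_eq_abs, abs_mul]
      exact mul_le_mul this this (abs_nonneg _) zero_le_two
    · filter_upwards [MeasureTheory.Measure.ae_ne MeasureTheory.volume (1 : ℝ)] with t h1 ht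
      rw [Set.uIoc_of_le zero_le_one] at ht
      have h3 : 0 < sin (π * t) := sin_pos_of_pos_of_lt_pi (mul_pos pi_pos ht.1)
        (mul_lt_of_lt_one_right pi_pos (ht.2.lt_of_ne h1))
      have h4 : Tendsto (fun n => g n t) atTop
          (𝓝 (sin (2 * π * t) * (2 * |sin (π * t)| + 0)⁻¹)) :=
        ((tendsto_one_div_add_atTop_nhds_zero_nat.const_add _).inv₀ (by positivity)).const_mul _
      have h5 : sin (2 * π * t) * (2 * |sin (π * t)| + 0)⁻¹ = cos (π * t) := by
        rw [mul_assoc 2, sin_two_mul, abs_of_pos h3, add_zero]; field_simp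
      rw [h5] at h4
      simpa using (h4.sub_const (cos (π * t))).mul (h4.sub_const (cos (π * t)))
  rw [intervalIntegral.integral_zero] at hl
  obtain ⟨n, hn⟩ := (hl.eventually (gt_mem_nhds (pow_pos hε 2))).exists
  refine ⟨_, gS n, norm_cfc_le zero_le_one fun t _ => gb n t, ?_⟩
  have c1 : Continuous fun t : ℝ => cos (π * t) := by fun_prop
  have c2 : Continuous fun t => g n t - cos (π * t) := (gc n).sub c1
  rw [TS.n2_eq, ← cfc_sub _ _ x (gc n).continuousOn c1.continuousOn, star_cfc,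
    ← cfc_mul _ _ x c2.continuousOn c2.continuousOn, hx.2.2 _ (c2.fun_mul c2)]
  exact Real.sqrt_le_iff.2 ⟨hε.le, hn.le⟩

theorem mem_of_cos {T : TS A} {x : A} (hx : Unif T x) (S : StarSubalgebra ℂ A)
    (hS : IsClosed (S : Set A)) (h : cfc (fun t : ℝ => cos (π * t)) x ∈ S) : x ∈ S := by
  have hs := hx.1
  convert _root_.cfc_mem (𝕜' := ℂ) (fun z : ℝ => arccos z / π) h using 1
  rw [← cfc_comp' _ _ x (continuous_arccos.div_const _).continuousOn]
  conv_lhs => rw [← cfc_id' ℝ x]
  refine cfc_congr fun t ht => ?_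
  have := hx.2.1 ht
  rw [arccos_cos (mul_nonneg pi_pos.le this.1) (mul_le_of_le_one_right pi_pos.le this.2)]
  field_simp

end alg

variable {I : Type*} (F : Fock I H)

/-- Compatible pairs of vectors. -/
def D (i : I) (η ξ ζ : H) : Prop :=
  ∀ k : ℕ, (1 - F.l i * star (F.l i)) ((star (F.l i) ^ k) ζ) = ⟪F.Ω, (star (F.l i) ^ k) ξ⟫_ℂ • η

/-- Operators preserving the compatible pairs. -/
def Inv (i : I) (η : H) (a : H →L[ℂ] H) : Prop := ∀ ξ ζ, D F i η ξ ζ → D F i η (a ξ) (a ζ)

/-- The algebra of operators preserving the compatible pairs. -/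
def SS (i : I) (η : H) : StarSubalgebra ℂ (H →L[ℂ] H) where
  carrier := {a | Inv F i η a ∧ Inv F i η (star a)}
  mul_mem' ha hb := ⟨fun _ _ h => ha.1 _ _ (hb.1 _ _ h),
    fun _ _ h => by rw [star_mul]; exact hb.2 _ _ (ha.2 _ _ h)⟩
  add_mem' ha hb := ⟨fun _ _ h k => by
      simp only [add_apply, map_add, inner_add_right, add_smul, ha.1 _ _ h k, hb.1 _ _ h k],
    fun _ _ h k => by
      simp only [star_add, add_apply, map_add, inner_add_right, add_smul, ha.2 _ _ h k,
        hb.2 _ _ h k]⟩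
  algebraMap_mem' r := ⟨fun _ _ h k => by
      simp only [Algebra.algebraMap_eq_smul_one, smul_apply, one_apply_eq_self, map_smul, h k,
        inner_smul_right, mul_smul],
    fun _ _ h k => by
      simp only [Algebra.algebraMap_eq_smul_one, star_smul, star_one, smul_apply,
        one_apply_eq_self, map_smul, h k, inner_smul_right, mul_smul]⟩
  star_mem' ha := ⟨ha.2, by rw [star_star]; exact ha.1⟩

theorem closed_SS (i : I) (η : H) : IsClosed (SS F i η : Set (H →L[ℂ] H)) := by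
  have : IsClosed {a | Inv F i η a} := by
    simp only [Inv, D, Set.ofPred_forall]
    exact isClosed_iInter fun ξ => isClosed_iInter fun ζ => isClosed_iInter fun _ =>
      isClosed_iInter fun k => isClosed_eq (by fun_prop) (by fun_prop)
  exact this.inter (this.preimage continuous_star)

theorem s_mem (i : I) (η : H) : F.s i ∈ SS F i η := by
  have e : ∀ x, star (F.l i) (F.l i x) = x := DFunLike.congr_fun (F.l_iso i)
  have : Inv F i η (F.s i) := fun ξ ζ h k => by
    have h1 := h (k + 1)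
    simp only [pow_succ, mul_apply_eq_comp] at h1
    simp only [Fock.s, add_apply, map_add, inner_add_right, add_smul, h1, add_left_inj]
    cases k with
    | zero => simp [e, inner_star (F.l i), F.lΩ]
    | succ k => simp only [pow_succ, mul_apply_eq_comp, e, h k]
  exact ⟨this, by rwa [(F.s_sa i).star_eq]⟩

theorem free1 {i : I} {η : H} (hη : star (F.l i) η = 0) {f : H →L[ℂ] H} (hf : f ∈ SS F i η)
    (h0 : ⟪F.Ω, f F.Ω⟫_ℂ = 0) : f η = F.l i (star (F.l i) (f η)) := by
  have := hf.1 F.Ω η (fun k => by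
    cases k with
    | zero => simp [hη, F.norm_Ω]
    | succ k => simp [pow_succ, hη, F.lΩ]) 0
  simpa [h0, sub_eq_zero] using this

theorem ex_mem (i : I) (η : H) (Φ : ℝ → ℝ) (a : ℝ) :
    (ex (cfc Φ (F.sA i)) a : Alg F.M).1 ∈ SS F i η := by
  let S := (SS F i η).comap F.M.toStarSubalgebra.subtype
  have : IsClosed (S : Set (Alg F.M)) := (closed_SS F i η).preimage continuous_subtype_val
  have h : cfc Φ (F.sA i) ∈ S := _root_.cfc_mem (𝕜' := ℂ) Φ (s_mem F i η)
  have h' : ∀ f : ℝ → ℝ, cfc f (cfc Φ (F.sA i)) ∈ S := fun f => _root_.cfc_mem (𝕜' := ℂ) f h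
  exact (add_mem (h' _) (SMulMemClass.smul_mem _ (h' _)) : _ ∈ S)

theorem haar (Φ : I → ℝ → ℝ) (hΦ : ∀ i, Unif (ts F.tr) (cfc (Φ i) (F.sA i)))
    (ρ : FreeGroup I →* (H →L[ℂ] H)) (hρ : ∀ i b, ρ (FreeGroup.mk [(i, b)]) =
      (ex (cfc (Φ i) (F.sA i)) ((cond b 1 (-1) : ℤ) * (2 * π)) : Alg F.M).1)
    {g : FreeGroup I} (hg : g ≠ 1) : ⟪F.Ω, ρ g F.Ω⟫_ℂ = 0 := by
  classical
  have h1 : ∀ i (k : ℤ) η, k ≠ 0 → star (F.l i) η = 0 →
      ∃ ζ, (ex (cfc (Φ i) (F.sA i)) (k * (2 * π)) : Alg F.M).1 η = F.l i ζ :=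
    fun i k η hk hη => ⟨_, free1 F hη (ex_mem F i η _ _) (by rw [← F.τ_eq, τ_ex (hΦ i) hk])⟩
  have key : ∀ (w : List (I × Bool)) i b, FreeGroup.IsReduced ((i, b) :: w) →
      ∃ (k : ℤ) (η : H), 0 < cond b 1 (-1) * k ∧ star (F.l i) η = 0 ∧
        ρ (FreeGroup.mk ((i, b) :: w)) F.Ω =
          (ex (cfc (Φ i) (F.sA i)) (k * (2 * π)) : Alg F.M).1 η := fun w => by
    induction w with
    | nil => exact fun i b _ => ⟨cond b 1 (-1), _, by cases b <;> simp, F.lΩ i, by rw [hρ]⟩
    | cons p w ih =>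
      obtain ⟨j, c⟩ := p
      intro i b h
      obtain ⟨h2, h3⟩ := FreeGroup.isReduced_cons_cons.1 h
      obtain ⟨k, η, a1, a2, a3⟩ := ih j c h3
      rw [← List.singleton_append, ← FreeGroup.mul_mk, map_mul, mul_apply_eq_comp, hρ]
      by_cases hij : i = j
      · subst hij
        obtain rfl : b = c := h2 rfl
        refine ⟨cond b 1 (-1) + k, η, by cases b <;> simp at a1 ⊢ <;> omega, a2, ?_⟩
        rw [a3, Int.cast_add, add_mul, ← ex_mul]
        rfl
      · refine ⟨cond b 1 (-1), _, by cases b <;> simp, ?_, rfl⟩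
        obtain ⟨ζ, h4⟩ := h1 j k η (by rintro rfl; simp at a1) a2
        have := DFunLike.congr_fun (F.ll i j) ζ
        rw [if_neg hij] at this
        rw [a3, h4]
        exact this
  obtain ⟨⟨i, b⟩, w, e⟩ := List.exists_cons_of_ne_nil (FreeGroup.toWord_eq_nil_iff.not.2 hg)
  obtain ⟨k, η, a1, a2, a3⟩ := key w i b (e ▸ FreeGroup.isReduced_toWord)
  obtain ⟨ζ, h4⟩ := h1 i k η (by rintro rfl; simp at a1) a2
  rw [← FreeGroup.mk_toWord (x := g), e, a3, h4, inner_star, F.lΩ, inner_zero_left]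

section grp
variable {G : Type*} [Group G]

/-- The left regular representation as a homomorphism. -/
noncomputable def lam (G : Type*) [Group G] : G →* (ltwo G →L[ℂ] ltwo G) where
  toFun := leftRegular
  map_one' := by ext ξ h; change ξ (1⁻¹ * h) = ξ h; simp
  map_mul' a b := by ext ξ h; change ξ ((a * b)⁻¹ * h) = ξ (b⁻¹ * (a⁻¹ * h)); simp [mul_assoc]

theorem star_lam (g : G) : star (leftRegular g) = leftRegular g⁻¹ := by
  rw [leftRegular, LinearIsometryEquiv.star_eq_symm]
  ext ξ h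
  rfl

theorem lam_d (g h : G) : leftRegular g (d h) = d (g * h) := by
  classical
  ext k
  change d h (g⁻¹ * k) = _
  rw [d_apply, d_apply]
  exact if_congr inv_mul_eq_iff_eq_mul rfl rfl

theorem cyc_lam : Cyc (W (Set.range (leftRegular (G := G)))) (d 1) := fun η ε hε => by
  classical
  obtain ⟨s, hs⟩ := ((tendsto_iff_norm_sub_tendsto_zero.1
    (lp.hasSum_single (by norm_num) η)).eventually (gt_mem_nhds hε)).exists
  refine ⟨∑ g ∈ s, η g • leftRegular g, sum_mem fun g _ => csmul_mem _ (subset_W ⟨g, rfl⟩), ?_⟩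
  have e : ∀ g, η g • d g = lp.single 2 g (η g) := fun g => by
    ext v
    simp [d_apply, lp.single_apply, Pi.single_apply]
  simpa only [sum_apply, smul_apply, lam_d, mul_one, e] using hs

end grp

end HB

open HB FA Real in
theorem Fock.eqv_group {I : Type*} [DecidableEq (FreeGroup I)] (F : Fock I H) :
    Eqv (groupVNA (FreeGroup I)) (lp.single 2 (1 : FreeGroup I) (1 : ℂ) : ltwo (FreeGroup I))
      F.M F.Ω := by
  choose Φ Ψ h1 h2 h3 h4 using fun i => law (ts F.tr) (S := F.sA i)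
    (Subtype.ext (F.s_sa i).star_eq) (F.norm_s i) (F.τ_ch i)
  let p : FreeGroup I →* unitary (Alg F.M) :=
    FreeGroup.lift fun i => ⟨_, ex_unitary (h3 i).1 (2 * π)⟩
  let ρ : FreeGroup I →* (H →L[ℂ] H) :=
    (F.M.toStarSubalgebra.subtype : Alg F.M →* (H →L[ℂ] H)).comp ((unitary _).subtype.comp p)
  have hρ : ∀ g, ρ g = (p g : Alg F.M).1 := fun g => rfl
  have e1 : W (Set.range ρ) = F.M := by
    refine le_antisymm (W_le (by rintro _ ⟨g, rfl⟩; exact (p g).1.2)) (W_le ?_)
    rintro _ ⟨i, rfl⟩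
    have hc := isClosed_sub F.M (W (Set.range ρ))
    have a1 : ex (cfc (Φ i) (F.sA i)) (2 * π) ∈ sub F.M (W (Set.range ρ)) :=
      subset_W ⟨FreeGroup.of i, by simp [hρ, p]⟩
    have a2 := mem_of_cos (h3 i) _ hc (mem_of_n2_lim F.tr (W (Set.range ρ)) (Subtype.prop _)
      (C := 1) fun ε hε => by
      obtain ⟨y, b1, b2, b3⟩ := approx (h3 i) _ hc a1 hε
      exact ⟨y, b1, y.2, b2, by rwa [ts_n2] at b3⟩)
    have a3 := _root_.cfc_mem (𝕜' := ℂ) (Ψ i) a2
    rwa [h4] at a3
  have e2 : (lp.single 2 (1 : FreeGroup I) (1 : ℂ) : ltwo (FreeGroup I)) = d 1 := by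
    rw [d]; congr!
  rw [e2, ← e1]
  refine gns leftRegular ρ (·⁻¹) star_lam (fun g => ?_) _ _ (fun w => ?_) cyc_lam
    (e1 ▸ F.cyc_M)
  · rw [hρ, hρ, map_inv]; rfl
  · rw [← map_list_prod ρ, show w.map leftRegular = w.map (lam _) from rfl, ← map_list_prod]
    change ⟪d 1, leftRegular w.prod (d 1)⟫_ℂ = _
    rw [lam_d, inner_d, d_apply, mul_one]
    split_ifs with h
    · rw [← h, map_one, one_apply_eq_self, F.inner_Ω]
    · refine (haar F Φ h3 ρ (fun i b => ?_) (Ne.symm h)).symm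
      cases b
      · simp [hρ, p, ← star_ex]; rfl
      · simp [hρ, p]

end Crest.Agent.R134
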