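import Crest.Agent.R134.Defs

/-! Row 134, the steered words: definitions. -/

set_option autoImplicit false
set_option linter.unusedSectionVars false

open scoped InnerProductSpace ComplexOrder
open Crest.OpAlg Crest.Agent.R124 Crest.Agent.R95

namespace Crest.Agent.R134

variable {A C : Type*} [CStarAlgebra A] [CStarAlgebra C]

/-- Two orthogonal projections of trace `θ` and independent symmetries. -/
structure Let (T : TS A) (P : StarSubalgebra ℂ A) (m n : ℕ) (θ : ℝ) where
  p : A
  q : A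
  e : ℕ × ℕ → A
  hp : p ∈ P ∧ IsStarProjection p ∧ T.τ p = θ
  hq : q ∈ P ∧ IsStarProjection q ∧ T.τ q = θ
  pq : p * q = 0
  he : ∀ i, e i ∈ P ∧ star (e i) = e i ∧ e i * e i = 1
  cp : ∀ i, Commute (e i) p
  cq : ∀ i, Commute (e i) q
  ce : ∀ i j, Commute (e i) (e j)
  odd : ∀ r < m, ∀ j ≤ n, ∀ y ∈ Algebra.adjoin ℂ (({p, q} : Set A) ∪ e '' {(r, j)}ᶜ),
    T.τ (y * e (r, j)) = 0

/-- The Leibniz product of (element, derivative) pairs. -/
noncomputable def lb {T : TS A} (D : TD T C) {κ : Type*} (z z' : A × (κ → C)) : A × (κ → C) :=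
  (z.1 * z'.1, fun k => D.r z'.1 * z.2 k + D.l z.1 * z'.2 k)

/-- The norm closure of the "real" part of `N ⊗ Nᵒᵖ`. -/
noncomputable def RS {T : TS A} (D : TD T C) (N : StarSubalgebra ℂ A) : StarSubalgebra ℝ C :=
  (StarAlgebra.adjoin ℝ {t | ∃ u ∈ N, ∃ v ∈ N,
    t = D.l u * D.r v + D.l (star v) * D.r (star u)}).topologicalClosure

/-- The indices `(r, s), …, (r, s+k-1)`. -/
def row (r s k : ℕ) : List (ℕ × ℕ) := (List.range' s k).map fun j => (r, j)

namespace Let

variable {T : TS A} {P : StarSubalgebra ℂ A} {m n : ℕ} {θ : ℝ} (L : Let T P m n θ)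

/-- The product of the `e i * X * e i` along a list. -/
def xs (X : A) (l : List (ℕ × ℕ)) : A := (l.map fun i => L.e i * X * L.e i).prod

/-- The word of row `r`. -/
def ww (X : A) (r : ℕ) : A := L.p * L.xs X (row r 0 n) * (L.e (r, n) * L.q)

/-- The steered element. -/
def YY (X : A) : A := ∑ r : Fin m, (L.ww X r + star (L.ww X r))

/-- Left parts of the words `ww` (`false`) and of their adjoints (`true`). -/
def HH (X : A) (r j : ℕ) : Bool → A
  | false => L.p * L.xs X (row r 0 j) * L.e (r, j)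
  | true => L.q * L.e (r, n) * L.xs X (row r (j + 1) (n - 1 - j)).reverse * L.e (r, j)

/-- The free difference quotient of `YY`. -/
noncomputable def TT (D : TD T C) (X : A) : C :=
  ∑ a : Fin m × Fin n × Bool, D.l (L.HH X a.1 a.2.1 a.2.2) * D.r (star (L.HH X a.1 a.2.1 (!a.2.2)))

end Let

end Crest.Agent.R134
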