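import Crest.Agent.R134.Par

/-! Row 134, task M: moments of the steered words. -/

set_option autoImplicit false
set_option linter.unusedSectionVars false

open scoped InnerProductSpace ComplexOrder
open Crest.OpAlg Crest.Agent.R124 Crest.Agent.R95

namespace Crest.Agent.R134

variable {A C : Type*} [CStarAlgebra A] [CStarAlgebra C]

theorem τ_sms (T : TS A) (x : A) : T.τ (star x * x) = ((T.n2 x ^ 2 : ℝ) : ℂ) := by
  rw [T.n2_sq]
  exact Complex.ext rfl (by simpa using (Complex.nonneg_iff.1 (T.pos x)).2.symm)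

theorem τ_mss (T : TS A) (x : A) : T.τ (x * star x) = ((T.n2 x ^ 2 : ℝ) : ℂ) := by
  rw [T.comm, τ_sms]

namespace Let

variable {T : TS A} {P : StarSubalgebra ℂ A} {m n : ℕ} {θ : ℝ} (L : Let T P m n θ) {X : A}

namespace M

/-- the even letters for the index `i` -/
abbrev SS (i : ℕ × ℕ) : Set A := ({L.p, L.q} : Set A) ∪ L.e '' {i}ᶜ

theorem xs_nil : L.xs X [] = 1 := rfl
theorem xs_cons (i : ℕ × ℕ) (l : List (ℕ × ℕ)) :
    L.xs X (i :: l) = L.e i * X * L.e i * L.xs X l := by simp [xs]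

theorem star_xs (hX : SD T P fun _ : Unit => X) (l : List (ℕ × ℕ)) :
    star (L.xs X l) = L.xs X l.reverse := by
  induction l with
  | nil => simp [xs]
  | cons i l ih =>
    have h : star X = X := (hX.1 ()).star_eq
    rw [xs_cons, star_mul, ih]
    simp [xs, (L.he i).2.1, h, mul_assoc]

theorem e_uni (i : ℕ × ℕ) : L.e i ∈ unitary A :=
  Unitary.mem_iff.2 ⟨by rw [(L.he i).2.1, (L.he i).2.2], by rw [(L.he i).2.1, (L.he i).2.2]⟩

theorem fr_p (i : ℕ × ℕ) : Fr (SS L i) X L.p := Fr.ev (Or.inl (Or.inl rfl))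
theorem fr_q (i : ℕ × ℕ) : Fr (SS L i) X L.q := Fr.ev (Or.inl (Or.inr rfl))
theorem fr_e {i k : ℕ × ℕ} (h : k ≠ i) : Fr (SS L i) X (L.e k) := Fr.ev (Or.inr ⟨k, h, rfl⟩)

theorem fr_xs {i : ℕ × ℕ} {l : List (ℕ × ℕ)} (h : i ∉ l) : Fr (SS L i) X (L.xs X l) := by
  induction l with
  | nil => exact Fr.one
  | cons k l ih =>
    rw [List.mem_cons, not_or] at h
    rw [xs_cons]
    exact (((fr_e L (Ne.symm h.1)).mul Fr.gen).mul (fr_e L (Ne.symm h.1))).mul (ih h.2)

theorem par_e (i k : ℕ × ℕ) : Par (SS L i) (L.e i) X (decide (k = i)) (L.e k) := by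
  by_cases h : k = i
  · subst h; simpa using Par.od
  · simpa [h] using (fr_e L h).par

theorem par_xs (i : ℕ × ℕ) (l : List (ℕ × ℕ)) : Par (SS L i) (L.e i) X false (L.xs X l) := by
  induction l with
  | nil => exact Par.one
  | cons k l ih =>
    rw [xs_cons]
    simpa using (((par_e L i k).mul Par.gen).mul (par_e L i k)).mul ih

section chain
variable (hX : SD T P fun _ : Unit => X)
include hX

theorem n2_xs_mul {l : List (ℕ × ℕ)} (hl : l.Nodup) (hv : ∀ i ∈ l, i.1 < m ∧ i.2 ≤ n) {v : A}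
    (h : ∀ i ∈ l, Fr (SS L i) X v) : T.n2 (L.xs X l * v) = T.n2 v := by
  induction l with
  | nil => rw [xs_nil, one_mul]
  | cons i l ih =>
    obtain ⟨h1, h2⟩ := List.nodup_cons.1 hl
    have := peel (L.ph hX (hv i (by simp)).1 (hv i (by simp)).2) Fr.one
      ((fr_xs L h1).mul (h i (by simp)))
    rw [one_mul, T.n2_one, one_mul] at this
    rw [xs_cons, mul_assoc, this]
    exact ih h2 (fun k hk => hv k (by simp [hk])) fun k hk => h k (by simp [hk])

theorem n2_mid {l : List (ℕ × ℕ)} (hne : l ≠ []) (hl : l.Nodup)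
    (hv : ∀ i ∈ l, i.1 < m ∧ i.2 ≤ n) {u v : A} (hu : ∀ i ∈ l, Fr (SS L i) X u)
    (h : ∀ i ∈ l, Fr (SS L i) X v) : T.n2 (u * (L.xs X l * v)) = T.n2 u * T.n2 v := by
  obtain ⟨i, l, rfl⟩ := List.exists_cons_of_ne_nil hne
  obtain ⟨h1, h2⟩ := List.nodup_cons.1 hl
  have := peel (L.ph hX (hv i (by simp)).1 (hv i (by simp)).2) (hu i (by simp))
    ((fr_xs L h1).mul (h i (by simp)))
  rw [xs_cons, mul_assoc _ (L.xs X l), ← mul_assoc u, this,
    n2_xs_mul L hX h2 (fun k hk => hv k (by simp [hk])) fun k hk => h k (by simp [hk])]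

theorem n2_mul_xs {l : List (ℕ × ℕ)} (hl : l.Nodup) (hv : ∀ i ∈ l, i.1 < m ∧ i.2 ≤ n) {u : A}
    (h : ∀ i ∈ l, Fr (SS L i) X u) : T.n2 (u * L.xs X l) = T.n2 u := by
  by_cases hne : l = []
  · rw [hne, xs_nil, mul_one]
  · simpa [T.n2_one] using n2_mid L hX hne hl hv h fun _ _ => Fr.one

end chain

abbrev I (m n : ℕ) := Fin m × Fin n × Bool

/-- the position of the last symmetry -/
def pos (a : I m n) : ℕ × ℕ := (a.1, a.2.1)

/-- flip -/
def fl (a : I m n) : I m n := (a.1, a.2.1, !a.2.2)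

def pr (a : I m n) : A := if a.2.2 then L.q * L.e (a.1, n) else L.p

def ls (a : I m n) : List (ℕ × ℕ) :=
  if a.2.2 then (row a.1 (a.2.1 + 1) (n - 1 - a.2.1)).reverse else row a.1 0 a.2.1

variable (X) in
def H (a : I m n) : A := pr L a * (L.xs X (ls a) * L.e (pos a))

theorem HH_eq (a : I m n) : L.HH X a.1 a.2.1 a.2.2 = H L X a := by
  obtain ⟨r, j, _ | _⟩ := a <;> simp [HH, H, pr, ls, pos, mul_assoc]

theorem mem_row {r s k : ℕ} {i : ℕ × ℕ} : i ∈ row r s k ↔ i.1 = r ∧ s ≤ i.2 ∧ i.2 < s + k := by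
  obtain ⟨a, b⟩ := i
  simp only [row, List.mem_map, List.mem_range'_1, Prod.mk.injEq]
  exact ⟨fun ⟨j, h1, h2, h3⟩ => ⟨h2.symm, h3 ▸ h1⟩, fun h => ⟨b, h.2, h.1.symm, rfl⟩⟩

theorem nodup_row (r s k : ℕ) : (row r s k).Nodup :=
  (List.nodup_range' ..).map fun _ _ h => (Prod.mk.inj h).2

theorem ls_nodup (a : I m n) : (ls a).Nodup := by
  unfold ls; split_ifs
  exacts [List.nodup_reverse.2 (nodup_row ..), nodup_row ..]

theorem mem_ls {a : I m n} {i : ℕ × ℕ} (h : i ∈ ls a) : i.1 = a.1 ∧ i.2 < n ∧ i.2 ≠ a.2.1 := by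
  have := a.2.1.2
  unfold ls at h
  split_ifs at h
  · rw [List.mem_reverse, mem_row] at h; omega
  · rw [mem_row] at h; omega

theorem ls_val {a : I m n} (i : ℕ × ℕ) (h : i ∈ ls a) : i.1 < m ∧ i.2 ≤ n :=
  ⟨(mem_ls h).1 ▸ a.1.2, (mem_ls h).2.1.le⟩

theorem ls_len (a : I m n) : (ls a).length + (ls (fl a)).length = n - 1 := by
  obtain ⟨r, ⟨j, hj⟩, _ | _⟩ := a <;> simp [ls, fl, row] <;> omega

theorem fr_pr {i : ℕ × ℕ} (h : i.2 < n) (a : I m n) : Fr (SS L i) X (pr L a) := by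
  unfold pr; split_ifs
  exacts [(fr_q L i).mul (fr_e L fun e => by rw [← e] at h; exact lt_irrefl _ h), fr_p L i]

theorem star_pr (a : I m n) : star (pr L a) = pr L a := by
  unfold pr; split_ifs
  · rw [star_mul, (L.he _).2.1, L.hq.2.1.isSelfAdjoint.star_eq, (L.cq _).eq]
  · exact L.hp.2.1.isSelfAdjoint.star_eq

theorem qp : L.q * L.p = 0 := by
  have := congrArg star L.pq
  rwa [star_mul, L.hq.2.1.isSelfAdjoint.star_eq, L.hp.2.1.isSelfAdjoint.star_eq, star_zero] at this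

theorem pr_mul {a b : I m n} (h : a.2.2 ≠ b.2.2) : pr L a * pr L b = 0 := by
  obtain ⟨r, j, _ | _⟩ := a <;> obtain ⟨r', j', _ | _⟩ := b <;> simp [pr] at h ⊢
  · rw [← mul_assoc, L.pq, zero_mul]
  · rw [mul_assoc, (L.cp _).eq, ← mul_assoc, qp, zero_mul]

theorem n2_p : T.n2 L.p ^ 2 = θ := by rw [T.n2_proj_sq L.hp.2.1, L.hp.2.2]; simp
theorem n2_q : T.n2 L.q ^ 2 = θ := by rw [T.n2_proj_sq L.hq.2.1, L.hq.2.2]; simp

theorem n2_pr (a : I m n) : T.n2 (pr L a) ^ 2 = θ := by
  unfold pr; split_ifs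
  · rw [T.n2_mul_unitary (e_uni L _), n2_q]
  · exact n2_p L

theorem norm_e (i : ℕ × ℕ) : ‖L.e i‖ ≤ 1 := TS.norm_unitary_le (e_uni L i)

theorem norm_pr (a : I m n) : ‖pr L a‖ ≤ 1 := by
  unfold pr; split_ifs
  · exact (norm_mul_le _ _).trans (mul_le_one₀ (L.hq.2.1.norm_le _) (norm_nonneg _) (norm_e L _))
  · exact L.hp.2.1.norm_le _

include L in
theorem θ_mem : 0 ≤ θ ∧ θ ≤ 1 := by
  have := n2_p L
  exact ⟨this ▸ sq_nonneg _, this.symm.le.trans
    (pow_le_one₀ (T.n2_nonneg _) ((T.n2_le_norm _).trans (L.hp.2.1.norm_le _)))⟩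

theorem norm_xs (h3 : ‖X‖ ≤ 3) (l : List (ℕ × ℕ)) : ‖L.xs X l‖ ≤ 3 ^ l.length := by
  induction l with
  | nil => exact (TS.norm_unitary_le (one_mem _)).trans (by simp)
  | cons i l ih =>
    rw [xs_cons, List.length_cons, pow_succ']
    have h1 := norm_e L i
    refine (norm_mul_le _ _).trans (mul_le_mul ?_ ih (norm_nonneg _) (by norm_num))
    refine (norm_mul_le _ _).trans ((mul_le_of_le_one_right (norm_nonneg _) h1).trans ?_)
    exact (norm_mul_le _ _).trans ((mul_le_of_le_one_left (norm_nonneg _) h1).trans h3)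

theorem norm_H (h3 : ‖X‖ ≤ 3) (a : I m n) : ‖H L X a‖ ≤ 3 ^ n := by
  refine (norm_mul_le _ _).trans ((mul_le_of_le_one_left (norm_nonneg _) (norm_pr L a)).trans ?_)
  refine (norm_mul_le _ _).trans ((mul_le_of_le_one_right (norm_nonneg _) (norm_e L _)).trans ?_)
  exact (norm_xs L h3 _).trans (pow_le_pow_right₀ (by norm_num) (by have := ls_len a; omega))

theorem par_H (i : ℕ × ℕ) (a : I m n) : Par (SS L i) (L.e i) X
    (xor (a.2.2 && decide (((a.1 : ℕ), n) = i)) (decide (pos a = i))) (H L X a) := by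
  have h : Par (SS L i) (L.e i) X (a.2.2 && decide (((a.1 : ℕ), n) = i)) (pr L a) := by
    unfold pr; split_ifs with h
    · simpa [h] using (fr_q L i).par.mul (par_e L i _)
    · simpa [h] using (fr_p L i).par
  simpa [H] using h.mul ((par_xs L i _).mul (par_e L i (pos a)))

variable (hX : SD T P fun _ : Unit => X)
include hX

theorem star_H (a : I m n) :
    star (H L X a) = L.e (pos a) * (L.xs X (ls a).reverse * pr L a) := by
  rw [H, star_mul, star_mul, star_xs L hX, star_pr, (L.he _).2.1, mul_assoc]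

theorem n2_H (a : I m n) : T.n2 (H L X a) ^ 2 = θ := by
  rw [H, ← mul_assoc, T.n2_mul_unitary (e_uni L _),
    n2_mul_xs L hX (ls_nodup a) ls_val fun i hi => fr_pr L (mem_ls hi).2.1 a, n2_pr]

theorem sHH_zero {a b : I m n} (h : a.2.2 ≠ b.2.2) : star (H L X a) * H L X b = 0 := by
  rw [star_H L hX, H, mul_assoc, mul_assoc, ← mul_assoc (pr L a), pr_mul L h]
  simp

theorem n2_sHH {a b : I m n} (h : a.1 ≠ b.1) : T.n2 (star (H L X a) * H L X b) ^ 2 ≤ θ := by
  rw [star_H L hX, H, mul_assoc, T.n2_unitary_mul (e_uni L _), ← mul_assoc (pr L b),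
    ← mul_assoc, T.n2_mul_unitary (e_uni L _), mul_assoc,
    n2_xs_mul L hX (List.nodup_reverse.2 (ls_nodup a))
      (fun i hi => ls_val i (List.mem_reverse.1 hi)), ← mul_assoc,
    n2_mul_xs L hX (ls_nodup b) ls_val]
  · exact (pow_le_pow_left₀ (T.n2_nonneg _) ((T.n2_mul_le _ _).trans
      (mul_le_of_le_one_left (T.n2_nonneg _) (norm_pr L a))) 2).trans (n2_pr L b).le
  · exact fun i hi => (fr_pr L (mem_ls hi).2.1 a).mul (fr_pr L (mem_ls hi).2.1 b)
  · intro i hi
    have h1 := mem_ls (List.mem_reverse.1 hi)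
    exact (fr_pr L h1.2.1 a).mul ((fr_pr L h1.2.1 b).mul
      (fr_xs L fun h2 => h (Fin.ext (h1.1.symm.trans (mem_ls h2).1))))

theorem n2_HsH {a b : I m n} (h : a.1 ≠ b.1) (hne : ls a ≠ []) :
    T.n2 (H L X a * star (H L X b)) ^ 2 = θ ^ 2 := by
  rw [star_H L hX, H, mul_assoc, mul_assoc,
    n2_mid L hX hne (ls_nodup a) ls_val (fun i hi => fr_pr L (mem_ls hi).2.1 a),
    T.n2_unitary_mul (e_uni L _), T.n2_unitary_mul (e_uni L _),
    n2_xs_mul L hX (List.nodup_reverse.2 (ls_nodup b))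
      (fun i hi => ls_val i (List.mem_reverse.1 hi))
      (fun i hi => fr_pr L (mem_ls (List.mem_reverse.1 hi)).2.1 b), mul_pow, n2_pr, n2_pr, sq]
  intro i hi
  have h1 := mem_ls hi
  refine (fr_e L fun e => h1.2.2 (by rw [← e]; rfl)).mul
    ((fr_e L fun e => h (Fin.ext (h1.1.symm.trans (by rw [← e]; rfl)))).mul
      ((fr_xs L fun h2 => ?_).mul (fr_pr L h1.2.1 b)))
  exact h (Fin.ext (h1.1.symm.trans (mem_ls (List.mem_reverse.1 h2)).1))

theorem n2_HsH_comm (a b : I m n) :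
    T.n2 (H L X a * star (H L X b)) = T.n2 (H L X b * star (H L X a)) := by
  rw [← T.n2_star, star_mul, star_star]

theorem n2_HsH_le {a b : I m n} (h : a.1 ≠ b.1) : T.n2 (H L X a * star (H L X b)) ^ 2 ≤ θ := by
  have h0 := θ_mem L
  by_cases ha : ls a = []
  · by_cases hb : ls b = []
    · rw [star_H L hX, H, ha, hb, List.reverse_nil, xs_nil, one_mul, one_mul, mul_assoc]
      refine (pow_le_pow_left₀ (T.n2_nonneg _) ((T.n2_mul_le' _ _).trans
        (mul_le_of_le_one_right (T.n2_nonneg _) ?_)) 2).trans (n2_pr L a).le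
      refine (norm_mul_le _ _).trans (mul_le_one₀ (norm_e L _) (norm_nonneg _) ?_)
      exact (norm_mul_le _ _).trans (mul_le_one₀ (norm_e L _) (norm_nonneg _) (norm_pr L b))
    · rw [n2_HsH_comm L hX, n2_HsH L hX h.symm hb]; nlinarith
  · rw [n2_HsH L hX h ha]; nlinarith

theorem n2_HsH_mul (hn : 2 ≤ n) {a b : I m n} (h : a.1 ≠ b.1) :
    T.n2 (H L X a * star (H L X b)) ^ 2 * T.n2 (H L X (fl a) * star (H L X (fl b))) ^ 2 ≤
      θ ^ 3 := by
  have h0 := θ_mem L
  by_cases ha : ls a = []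
  · have hb : ls (fl a) ≠ [] := by
      intro hb
      have := ls_len a
      rw [ha, hb] at this
      simp at this; omega
    rw [n2_HsH L hX (a := fl a) (b := fl b) h hb, pow_succ' θ 2]
    exact mul_le_mul_of_nonneg_right (n2_HsH_le L hX h) (sq_nonneg _)
  · rw [n2_HsH L hX h ha, pow_succ θ 2]
    exact mul_le_mul_of_nonneg_left (n2_HsH_le L hX (a := fl a) (b := fl b) h) (sq_nonneg _)

theorem TT_mul (D : TD T C) : L.TT D X * star (L.TT D X) = ∑ a : I m n, ∑ b : I m n,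
    D.l (H L X a * star (H L X b)) * D.r (H L X (fl b) * star (H L X (fl a))) := by
  have e : L.TT D X = ∑ a : I m n, D.l (H L X a) * D.r (star (H L X (fl a))) :=
    Finset.sum_congr rfl fun a _ => by rw [← HH_eq, ← HH_eq]; rfl
  rw [e, star_sum, Finset.sum_mul_sum]
  refine Finset.sum_congr rfl fun a _ => Finset.sum_congr rfl fun b _ => ?_
  rw [star_mul, ← D.l_star, ← D.r_star, star_star, D.l_mul, D.r_mul, D.comm, mul_assoc, mul_assoc,
    ← mul_assoc (D.r _), D.comm, mul_assoc]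

theorem τ_two {a b : I m n} (h : b ≠ a) : T.τ (H L X a * star (H L X b)) = 0 := by
  by_cases h1 : b.2.2 = a.2.2
  · have hp := L.ph hX a.1.2 a.2.1.2.le
    have h2 := (par_H L (X := X) (pos a) a).mul ((par_H L (pos a) b).star hp)
    have h3 : pos b ≠ pos a := fun e => h (Prod.ext (Fin.ext (Prod.mk.inj e).1)
      (Prod.ext (Fin.ext (Prod.mk.inj e).2) h1))
    have h4 : ∀ r : ℕ, (r, n) ≠ pos a := fun r e => a.2.1.2.ne (Prod.mk.inj e).2.symm
    simp only [h3, h4, decide_false, decide_true, Bool.and_false, Bool.false_xor,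
      Bool.xor_false] at h2
    exact h2.τ hp
  · rw [T.comm, sHH_zero L hX h1, map_zero]

/-- a nonzero four-fold moment forces a pairing -/
theorem pairing {a b c d : I m n}
    (h : T.τ (H L X a * star (H L X b) * (H L X c * star (H L X d))) ≠ 0) :
    (b.1 = a.1 ∧ c.1 = a.1 ∧ d.1 = a.1) ∨ (b = a ∧ d = c ∧ a.1 ≠ c.1) ∨
      (d = a ∧ c = b ∧ a.1 ≠ b.1) ∨ (c = a ∧ d = b ∧ a.1 ≠ b.1) := by
  have key : ∀ (r : Fin m) (j : ℕ), j ≤ n → xor
      (xor (xor (a.2.2 && decide (((a.1 : ℕ), n) = (r.1, j))) (decide (pos a = (r.1, j))))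
        (xor (b.2.2 && decide (((b.1 : ℕ), n) = (r.1, j))) (decide (pos b = (r.1, j)))))
      (xor (xor (c.2.2 && decide (((c.1 : ℕ), n) = (r.1, j))) (decide (pos c = (r.1, j))))
        (xor (d.2.2 && decide (((d.1 : ℕ), n) = (r.1, j))) (decide (pos d = (r.1, j))))) =
      false := by
    intro r j hj
    have hp := L.ph hX r.2 hj
    have h2 := ((par_H L (X := X) (r, j) a).mul ((par_H L (r, j) b).star hp)).mul
      ((par_H L (r, j) c).mul ((par_H L (r, j) d).star hp))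
    by_contra h3
    rw [Bool.not_eq_false] at h3
    rw [h3] at h2
    exact h (h2.τ hp)
  obtain ⟨ar, aj, ab⟩ := a
  obtain ⟨br, bj, bb⟩ := b
  obtain ⟨cr, cj, cb⟩ := c
  obtain ⟨dr, dj, db⟩ := d
  have k1 := key ar aj aj.2.le
  have k2 := key br bj bj.2.le
  have k3 := key cr cj cj.2.le
  have k5 := key ar n le_rfl
  have k6 := key br n le_rfl
  have k7 := key cr n le_rfl
  have n1 := aj.2.ne
  have n2 := bj.2.ne
  have n3 := cj.2.ne
  have n4 := dj.2.ne
  clear key h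
  simp only [pos, Prod.mk.injEq, n1, n2, n3, n4, n1.symm, n2.symm, n3.symm, and_false,
    decide_false, Bool.and_false, Bool.false_xor, Bool.xor_false, and_true, Fin.val_inj,
    decide_true, Bool.and_true] at k1 k2 k3 k5 k6 k7 ⊢
  by_cases h1 : br = ar ∧ bj = aj
  · obtain ⟨rfl, rfl⟩ := h1
    grind
  by_cases h2 : cr = ar ∧ cj = aj
  · obtain ⟨rfl, rfl⟩ := h2
    grind
  obtain ⟨rfl, rfl⟩ : dr = ar ∧ dj = aj := by simpa [h1, h2] using k1
  grind

theorem four_le (h3 : ‖X‖ ≤ 3) (hn : 2 ≤ n) (a b c d : I m n) :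
    ‖T.τ (H L X a * star (H L X b) * (H L X c * star (H L X d))) *
      T.τ (H L X (fl d) * star (H L X (fl c)) * (H L X (fl b) * star (H L X (fl a))))‖ ≤
      (if b.1 = a.1 then 1 else 0) * ((if c.1 = a.1 then 1 else 0) *
        ((if d.1 = a.1 then 1 else 0) * 3 ^ (8 * n))) +
      (if b = a then 1 else 0) * ((if c.2.2 = a.2.2 then 1 else 0) *
        ((if d = c then 1 else 0) * θ ^ 2)) +
      (if c = b then 1 else 0) * ((if d = a then 1 else 0) * θ ^ 3) +
      (if c = a then 1 else 0) * ((if d = b then 1 else 0) * θ ^ 3) := by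
  have h0 := (θ_mem L).1
  have p1 : (0 : ℝ) ≤ (if b.1 = a.1 then 1 else 0) * ((if c.1 = a.1 then 1 else 0) *
    ((if d.1 = a.1 then 1 else 0) * 3 ^ (8 * n))) := by positivity
  have p2 : (0 : ℝ) ≤ (if b = a then 1 else 0) * ((if c.2.2 = a.2.2 then 1 else 0) *
    ((if d = c then 1 else 0) * θ ^ 2)) := by positivity
  have p3 : (0 : ℝ) ≤ (if c = b then 1 else 0) * ((if d = a then 1 else 0) * θ ^ 3) := by positivity
  have p4 : (0 : ℝ) ≤ (if c = a then 1 else 0) * ((if d = b then 1 else 0) * θ ^ 3) := by positivity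
  by_cases h : T.τ (H L X a * star (H L X b) * (H L X c * star (H L X d))) = 0
  · rw [h, zero_mul, norm_zero]; linarith
  rw [norm_mul]
  rcases pairing L hX h with ⟨h1, h2, h4⟩ | ⟨rfl, rfl, h1⟩ | ⟨rfl, rfl, h1⟩ | ⟨rfl, rfl, h1⟩
  · have k : ∀ a b c d : I m n,
        ‖T.τ (H L X a * star (H L X b) * (H L X c * star (H L X d)))‖ ≤ 3 ^ (4 * n) := by
      intro a b c d
      have k2 : ∀ a b : I m n, ‖H L X a * star (H L X b)‖ ≤ 3 ^ n * 3 ^ n := fun a b =>
        (norm_mul_le _ _).trans (mul_le_mul (norm_H L h3 a) (by rw [norm_star]; exact norm_H L h3 b)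
          (norm_nonneg _) (by positivity))
      refine (T.norm_τ_le _).trans ((norm_mul_le _ _).trans ((mul_le_mul (k2 a b) (k2 c d)
        (norm_nonneg _) (by positivity)).trans (le_of_eq (by ring))))
    have := mul_le_mul (k a b c d) (k (fl d) (fl c) (fl b) (fl a)) (norm_nonneg _) (by positivity)
    rw [← pow_add, show 4 * n + 4 * n = 8 * n by ring] at this
    simp only [h1, h2, h4, if_true, one_mul] at p1 ⊢
    linarith
  · have k : ∀ a c : I m n, T.τ (H L X a * star (H L X a) * (H L X c * star (H L X c))) =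
        ((T.n2 (star (H L X a) * H L X c) ^ 2 : ℝ) : ℂ) := by
      intro a c
      rw [← τ_mss, star_mul, star_star, mul_assoc (H L X a), T.comm]
      simp only [mul_assoc]
    have h2 : d.2.2 = b.2.2 := by
      by_contra h2
      rw [k, sHH_zero L hX (Ne.symm h2), T.n2_zero] at h
      simp at h
    rw [k, k, Complex.norm_real, Complex.norm_real, Real.norm_of_nonneg (sq_nonneg _),
      Real.norm_of_nonneg (sq_nonneg _)]
    have := mul_le_mul (n2_sHH L hX h1) (n2_sHH L hX (a := fl d) (b := fl b) h1.symm)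
      (sq_nonneg _) h0
    simp only [h2, if_true, one_mul] at p1 ⊢
    nlinarith
  · have k := mul_le_mul (T.cs (H L X d * star (H L X c)) (H L X c * star (H L X d)))
      (T.cs (H L X (fl d) * star (H L X (fl c))) (H L X (fl c) * star (H L X (fl d))))
      (norm_nonneg _) (mul_nonneg (T.n2_nonneg _) (T.n2_nonneg _))
    rw [n2_HsH_comm L hX c d, n2_HsH_comm L hX (fl c) (fl d), ← sq, ← sq] at k
    have := n2_HsH_mul L hX hn h1
    simp only [if_true, one_mul] at p1 ⊢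
    linarith
  · have k := mul_le_mul (T.cs (H L X c * star (H L X d)) (H L X c * star (H L X d)))
      (T.cs (H L X (fl d) * star (H L X (fl c))) (H L X (fl d) * star (H L X (fl c))))
      (norm_nonneg _) (mul_nonneg (T.n2_nonneg _) (T.n2_nonneg _))
    rw [n2_HsH_comm L hX (fl d) (fl c), ← sq (T.n2 _), ← sq (T.n2 _)] at k
    have := n2_HsH_mul L hX hn h1
    simp only [if_true, one_mul] at p1 p2 ⊢
    linarith

end M

open M

theorem YY_n2 (hX : SD T P fun _ : Unit => X) (hn : 1 ≤ n) :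
    T.n2 (L.YY X) ^ 2 = 2 * m * θ ^ 2 := by
  have hww : ∀ r s : ℕ, L.ww X r * L.ww X s = 0 := fun r s => by
    simp only [ww, mul_assoc]
    rw [← mul_assoc L.q, qp]
    simp
  have hss : ∀ r s : ℕ, star (L.ww X r) * star (L.ww X s) = 0 := fun r s => by
    rw [← star_mul, hww, star_zero]
  have hpar : ∀ (i : ℕ × ℕ) (r : ℕ),
      Par (SS L i) (L.e i) X (decide ((r, n) = i)) (L.ww X r) := fun i r => by
    simpa [ww] using ((fr_p L i).par.mul (par_xs L i _)).mul ((par_e L i (r, n)).mul (fr_q L i).par)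
  have h1 : ∀ r s : Fin m, T.τ (star (L.ww X r) * L.ww X s) =
      if s = r then ((θ ^ 2 : ℝ) : ℂ) else 0 := by
    intro r s
    split_ifs with h
    · subst h
      have hv : ∀ i ∈ row s 0 n, i.1 = s ∧ i.2 < n := fun i hi => by
        rw [mem_row] at hi; omega
      rw [τ_sms, ww, mul_assoc, n2_mid L hX _ (nodup_row ..)
        (fun i hi => ⟨(hv i hi).1 ▸ s.2, (hv i hi).2.le⟩) (fun i _ => fr_p L i)
        (fun i hi => (fr_e L fun e => (hv i hi).2.ne (by rw [← e])).mul (fr_q L i)),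
        T.n2_unitary_mul (e_uni L _), mul_pow, n2_p, n2_q, sq]
      rw [← List.length_pos_iff]
      simp [row]; omega
    · have hp := L.ph hX r.2 le_rfl
      have h2 := ((hpar (r, n) r).star hp).mul (hpar (r, n) s)
      have h3 : ((s : ℕ), n) ≠ (r.1, n) := fun e => h (Fin.ext (Prod.mk.inj e).1)
      simp only [h3, decide_false, decide_true, Bool.xor_false] at h2
      exact h2.τ hp
  rw [T.n2_sq, YY, star_sum, Finset.sum_mul_sum]
  simp only [star_add, star_star, add_mul, mul_add, hww, hss, map_sum, map_add, add_zero, zero_add,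
    T.comm (L.ww X _) (star _), h1, eq_comm (a := (_ : Fin m)), Finset.sum_add_distrib]
  simp [-Complex.ofReal_pow]
  ring

theorem TT_two (D : TD T C) (hX : SD T P fun _ : Unit => X) :
    D.T2.τ (L.TT D X * star (L.TT D X)) = ((2 * m * n * θ ^ 2 : ℝ) : ℂ) := by
  rw [TT_mul L hX D]
  simp only [map_sum, D.τ_lr]
  rw [Finset.sum_congr rfl fun a _ => Finset.sum_eq_single a
    (fun b _ h => by rw [τ_two L hX h, zero_mul]) (by simp)]
  simp only [τ_mss, n2_H L hX]
  simp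
  ring

theorem TT_four (D : TD T C) (hX : SD T P fun _ : Unit => X) (h3 : ‖X‖ ≤ 3) (hn : 2 ≤ n) :
    (D.T2.τ (L.TT D X * star (L.TT D X) * (L.TT D X * star (L.TT D X)))).re ≤
      (m * n) ^ 2 * (2 * θ ^ 2 + 8 * θ ^ 3) + 16 * m * n ^ 4 * 3 ^ (8 * n) := by
  have e : D.T2.τ (L.TT D X * star (L.TT D X) * (L.TT D X * star (L.TT D X))) =
      ∑ a : I m n, ∑ b : I m n, ∑ c : I m n, ∑ d : I m n,
        T.τ (H L X a * star (H L X b) * (H L X c * star (H L X d))) *
        T.τ (H L X (fl d) * star (H L X (fl c)) * (H L X (fl b) * star (H L X (fl a)))) := by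
    rw [TT_mul L hX D]
    simp only [Finset.sum_mul, map_sum]
    refine Finset.sum_congr rfl fun a _ => Finset.sum_congr rfl fun b _ => ?_
    simp only [Finset.mul_sum, map_sum]
    refine Finset.sum_congr rfl fun c _ => Finset.sum_congr rfl fun d _ => ?_
    rw [← D.τ_lr, D.l_mul _ (_ * _), D.r_mul (_ * _), mul_assoc, mul_assoc (D.l _),
      ← mul_assoc (D.r _), D.comm, mul_assoc]
  have c1 : ∀ (r : Fin m) (x : ℝ), ∑ a : I m n, (if a.1 = r then (1 : ℝ) else 0) * x =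
      2 * n * x := fun r x => by
    rw [Fintype.sum_prod_type, Finset.sum_eq_single r (fun _ _ h => by simp [h]) (by simp)]
    simp [mul_comm]
  have c2 : ∀ (b : Bool) (x : ℝ), ∑ a : I m n, (if a.2.2 = b then (1 : ℝ) else 0) * x =
      m * n * x := fun b x => by
    cases b <;> simp [Fintype.sum_prod_type, mul_assoc]
  have c3 : ∀ (b : I m n) (x : ℝ), ∑ a : I m n, (if a = b then (1 : ℝ) else 0) * x = x :=
    fun b x => by simp
  rw [e]
  refine (Complex.re_le_norm _).trans ((norm_sum_le _ _).trans ((Finset.sum_le_sum fun a _ =>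
    (norm_sum_le _ _).trans (Finset.sum_le_sum fun b _ => (norm_sum_le _ _).trans
      (Finset.sum_le_sum fun c _ => (norm_sum_le _ _).trans
        (Finset.sum_le_sum fun d _ => four_le L hX h3 hn a b c d)))).trans (le_of_eq ?_)))
  simp only [Finset.sum_add_distrib, ← Finset.mul_sum, c1, c2, c3]
  simp
  ring

end Let

end Crest.Agent.R134
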