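import Crest.Agent.R134.Let

/-! Row 134, task P: parity and peeling. -/

set_option autoImplicit false
set_option linter.unusedSectionVars false

open scoped InnerProductSpace ComplexOrder
open Crest.OpAlg Crest.Agent.R124 Crest.Agent.R95

namespace Crest.Agent.R134

variable {A : Type*} [CStarAlgebra A] {T : TS A} {P : StarSubalgebra ℂ A}

/-- Words in `X`, even letters from `S` and the odd letter `ε`, with their parity. -/
inductive PW (S : Set A) (ε : A) : Bool → List (Unit ⊕ A) → Prop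
  | nil : PW S ε false []
  | gen {b w} : PW S ε b w → PW S ε b (Sum.inl () :: w)
  | ev {b w y} : y ∈ S → PW S ε b w → PW S ε b (Sum.inr y :: w)
  | od {b w} : PW S ε b w → PW S ε (!b) (Sum.inr ε :: w)

/-- Words without the odd letter. -/
def FW (S : Set A) (w : List (Unit ⊕ A)) : Prop := ∀ y, Sum.inr y ∈ w → y ∈ S

/-- Monomials of parity `b`. -/
def Par (S : Set A) (ε X : A) (b : Bool) (y : A) : Prop := ∃ w, PW S ε b w ∧ y = wp (fun _ => X) w

/-- Monomials without the odd letter. -/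
def Fr (S : Set A) (X : A) (y : A) : Prop := ∃ w, FW S w ∧ y = wp (fun _ => X) w

/-- The standing assumptions. -/
structure PH (T : TS A) (P : StarSubalgebra ℂ A) (S : Set A) (ε X : A) : Prop where
  sd : SD T P fun _ : Unit => X
  hS : ∀ y ∈ S, y ∈ P ∧ star y = y ∧ Commute ε y
  hε : ε ∈ P ∧ star ε = ε ∧ ε * ε = 1
  odd : ∀ y ∈ Algebra.adjoin ℂ S, T.τ (y * ε) = 0

variable {S : Set A} {ε X : A}

namespace PW

theorem append {b c : Bool} {u v : List (Unit ⊕ A)} (hu : PW S ε b u) (hv : PW S ε c v) :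
    PW S ε (xor b c) (u ++ v) := by
  induction hu with
  | nil => simpa using hv
  | gen _ ih => exact ih.gen
  | ev hy _ ih => exact ih.ev hy
  | od _ ih => simpa using ih.od

theorem split {u v : List (Unit ⊕ A)} : ∀ {b : Bool}, PW S ε b (u ++ v) →
    ∃ c d, PW S ε c u ∧ PW S ε d v ∧ xor c d = b := by
  induction u with
  | nil => exact fun h => ⟨false, _, nil, h, by simp⟩
  | cons a u ih =>
    intro b h
    rw [List.cons_append] at h
    cases h with
    | gen h => obtain ⟨c, d, h1, h2, h3⟩ := ih h; exact ⟨c, d, h1.gen, h2, h3⟩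
    | ev hy h => obtain ⟨c, d, h1, h2, h3⟩ := ih h; exact ⟨c, d, h1.ev hy, h2, h3⟩
    | od h => obtain ⟨c, d, h1, h2, h3⟩ := ih h; exact ⟨!c, d, h1.od, h2, by simp [← h3]⟩

theorem tail {b : Bool} {w : List (Unit ⊕ A)} (h : PW S ε b (Sum.inl () :: w)) : PW S ε b w := by
  cases h with
  | gen h => exact h

theorem reverse {b : Bool} {w : List (Unit ⊕ A)} (h : PW S ε b w) : PW S ε b w.reverse := by
  induction h with
  | nil => exact nil
  | gen _ ih => simpa using ih.append nil.gen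
  | ev hy _ ih => simpa using ih.append (nil.ev hy)
  | od _ ih => simpa using ih.append nil.od

theorem mem {b : Bool} {w : List (Unit ⊕ A)} (h : PW S ε b w) {y : A} (hy : Sum.inr y ∈ w) :
    y ∈ S ∨ y = ε := by
  induction h with
  | nil => simp at hy
  | gen _ ih => exact ih (by simpa using hy)
  | ev hz _ ih =>
    rcases List.mem_cons.1 hy with h | h
    · exact Or.inl (Sum.inr.inj h ▸ hz)
    · exact ih h
  | od _ ih =>
    rcases List.mem_cons.1 hy with h | h
    · exact Or.inr (Sum.inr.inj h)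
    · exact ih h

theorem ok (h : PH T P S ε X) {b : Bool} {w : List (Unit ⊕ A)} (hw : PW S ε b w) : OK P w :=
  fun _ hy => (hw.mem hy).elim (fun h1 => (h.hS _ h1).1) fun h1 => h1 ▸ h.hε.1

theorem star_wp (h : PH T P S ε X) {b : Bool} {w : List (Unit ⊕ A)} (hw : PW S ε b w) :
    star (wp (fun _ => X) w) = wp (fun _ => X) w.reverse := by
  induction hw with
  | nil => simp
  | gen _ ih => simp [ih, (h.sd.1 ()).star_eq]
  | ev hy _ ih => simp [ih, (h.hS _ hy).2.1]
  | od _ ih => simp [ih, h.hε.2.1]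

theorem pure (h : PH T P S ε X) {b : Bool} {w : List (Unit ⊕ A)} (hw : PW S ε b w)
    (h0 : Sum.inl () ∉ w) : ∃ y ∈ Algebra.adjoin ℂ S, Commute ε y ∧
      wp (fun _ => X) w = y * (if b then ε else 1) := by
  induction hw with
  | nil => exact ⟨1, one_mem _, Commute.one_right _, by simp⟩
  | gen _ ih => simp at h0
  | ev hy _ ih =>
    obtain ⟨z, h1, h2, h3⟩ := ih fun h => h0 (List.mem_cons_of_mem _ h)
    exact ⟨_, mul_mem (Algebra.subset_adjoin hy) h1, (h.hS _ hy).2.2.mul_right h2,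
      by rw [wp_inr, h3, mul_assoc]⟩
  | @od b _ _ ih =>
    obtain ⟨z, h1, h2, h3⟩ := ih fun h => h0 (List.mem_cons_of_mem _ h)
    refine ⟨z, h1, h2, ?_⟩
    rw [wp_inr, h3, ← mul_assoc, h2.eq, mul_assoc]
    cases b <;> simp [h.hε.2.2]

theorem τ (h : PH T P S ε X) : ∀ (k : ℕ) (w : List (Unit ⊕ A)), w.length < k →
    PW S ε true w → T.τ (wp (fun _ => X) w) = 0 := by
  intro k
  induction k with
  | zero => intro w hk; omega
  | succ k ih =>
    intro w hk hw
    by_cases h0 : Sum.inl () ∈ w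
    · obtain ⟨u, v, rfl⟩ := List.append_of_mem h0
      obtain ⟨c, d, h1, h2, h3⟩ := hw.split
      have h4 := h2.tail.append h1
      rw [Bool.xor_comm, h3] at h4
      rw [wp_append, T.comm, wp_inl, mul_assoc, ← wp_append,
        h.sd.2 () (Set.mem_univ _) _ (h4.ok h)]
      refine ssum_eq_zero fun u' a v' e => ?_
      split_ifs with ha
      swap
      · rfl
      have hl := congrArg List.length e
      simp only [List.length_append, List.length_cons] at hl hk
      rw [e, ha] at h4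
      obtain ⟨c', d', a1, a2, a3⟩ := h4.split
      cases c'
      · rw [Bool.false_xor] at a3
        rw [ih v' (by omega) (a3 ▸ a2.tail), mul_zero]
      · rw [ih u' (by omega) a1, zero_mul]
    · obtain ⟨y, h1, -, h2⟩ := hw.pure h h0
      rw [h2]
      exact h.odd y h1

end PW

theorem FW.pw {w : List (Unit ⊕ A)} (h : FW S w) : PW S ε false w := by
  induction w with
  | nil => exact PW.nil
  | cons a w ih =>
    have := ih fun y hy => h y (List.mem_cons_of_mem _ hy)
    rcases a with _ | y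
    · exact this.gen
    · exact this.ev (h y (List.mem_cons_self ..))

theorem Par.one : Par S ε X false 1 := ⟨[], PW.nil, rfl⟩
theorem Par.gen : Par S ε X false X := ⟨_, PW.nil.gen, by simp⟩
theorem Par.ev {y : A} (hy : y ∈ S) : Par S ε X false y := ⟨_, PW.nil.ev hy, by simp⟩
theorem Par.od : Par S ε X true ε := ⟨_, PW.nil.od, by simp⟩
theorem Par.mul {b c : Bool} {y z : A} (hy : Par S ε X b y) (hz : Par S ε X c z) :
    Par S ε X (xor b c) (y * z) := by
  obtain ⟨u, h1, rfl⟩ := hy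
  obtain ⟨v, h2, rfl⟩ := hz
  exact ⟨_, h1.append h2, by simp⟩
theorem Par.star (h : PH T P S ε X) {b : Bool} {y : A} (hy : Par S ε X b y) :
    Par S ε X b (star y) := by
  obtain ⟨u, h1, rfl⟩ := hy
  exact ⟨_, h1.reverse, h1.star_wp h⟩
theorem Par.τ (h : PH T P S ε X) {y : A} (hy : Par S ε X true y) : T.τ y = 0 := by
  obtain ⟨u, h1, rfl⟩ := hy
  exact PW.τ h _ u (Nat.lt_succ_self _) h1

theorem Fr.one : Fr S X 1 := ⟨[], fun _ h => by simp at h, rfl⟩
theorem Fr.gen : Fr S X X := ⟨[Sum.inl ()], fun _ h => by simp at h, by simp⟩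
theorem Fr.ev {y : A} (hy : y ∈ S) : Fr S X y :=
  ⟨[Sum.inr y], fun _ h => by simp at h; exact h ▸ hy, by simp⟩
theorem Fr.mul {y z : A} (hy : Fr S X y) (hz : Fr S X z) : Fr S X (y * z) := by
  obtain ⟨u, h1, rfl⟩ := hy
  obtain ⟨v, h2, rfl⟩ := hz
  exact ⟨u ++ v, fun y hy => (List.mem_append.1 hy).elim (h1 y) (h2 y), by simp⟩
theorem Fr.star (h : PH T P S ε X) {y : A} (hy : Fr S X y) : Fr S X (star y) := by
  obtain ⟨u, h1, rfl⟩ := hy
  exact ⟨u.reverse, fun y hy => h1 y (List.mem_reverse.1 hy), h1.pw.star_wp h⟩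
theorem Fr.par {y : A} (hy : Fr S X y) : Par S ε X false y := by
  obtain ⟨u, h1, rfl⟩ := hy
  exact ⟨u, h1.pw, rfl⟩

theorem peel (h : PH T P S ε X) {u v : A} (hu : Fr S X u) (hv : Fr S X v) :
    T.n2 (u * (ε * X * ε) * v) = T.n2 u * T.n2 v := by
  obtain ⟨w1, a1, e1⟩ := (hu.star h).mul hu
  obtain ⟨w2, a2, e2⟩ := hv.mul (hv.star h)
  have hX : star X = X := (h.sd.1 ()).star_eq
  have hε := h.hε.2
  have k : ∀ y, T.τ (ε * (y * ε)) = T.τ y := fun y => by
    rw [T.comm, mul_assoc, hε.2, mul_one]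
  have e : T.τ (star (u * (ε * X * ε) * v) * (u * (ε * X * ε) * v)) =
      T.τ (star u * u) * T.τ (v * star v) := by
    have p1 := (a1.pw (ε := ε)).append PW.nil.od
    have p2 := (a2.pw (ε := ε)).append PW.nil.od
    have := h.sd.2 () (Set.mem_univ _) _ ((p1.od.append p2.od.gen).ok h)
    rw [ssum_append, ssum_cons, ssum_cons, ssum_cons, ssum_append, ssum_append,
      ssum_eq_zero (w := w1), ssum_eq_zero (w := w2)] at this
    · simp only [ssum_cons, ssum_nil, reduceCtorEq, if_false, if_true, add_zero, zero_add,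
        List.append_nil, wp_append, wp_inr, wp_inl, wp_nil, mul_one, ← e1, ← e2, k] at this
      rw [← this, star_mul, star_mul, star_mul, star_mul, hX, hε.1, mul_assoc (star v), T.comm,
        mul_assoc ε, mul_assoc ε, mul_assoc ε, T.comm ε]
      simp only [mul_assoc]
    · intro u' a v' e
      split_ifs
      · rw [PW.τ h _ (v' ++ [Sum.inr ε]) (Nat.lt_succ_self _)
          ((FW.pw fun y hy => a2 y (by simp [e, hy])).append PW.nil.od), mul_zero]
      · rfl
    · intro u' a v' e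
      split_ifs
      · rw [PW.τ h _ (Sum.inr ε :: u') (Nat.lt_succ_self _)
          (FW.pw fun y hy => a1 y (by simp [e, hy])).od, zero_mul]
      · rfl
  refine (pow_left_inj₀ (T.n2_nonneg _) (mul_nonneg (T.n2_nonneg _) (T.n2_nonneg _))
    two_ne_zero).1 ?_
  rw [mul_pow, T.n2_sq, T.n2_sq, T.n2_sq, e, T.comm v, Complex.mul_re,
    ← (Complex.nonneg_iff.1 (T.pos v)).2, mul_zero, sub_zero]

theorem Let.ph {m n : ℕ} {θ : ℝ} (L : Let T P m n θ) (hX : SD T P fun _ : Unit => X) {r j : ℕ}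
    (hr : r < m) (hj : j ≤ n) : PH T P (({L.p, L.q} : Set A) ∪ L.e '' {(r, j)}ᶜ) (L.e (r, j)) X := by
  refine ⟨hX, ?_, L.he _, L.odd r hr j hj⟩
  rintro y ((rfl | rfl) | ⟨i, -, rfl⟩)
  · exact ⟨L.hp.1, L.hp.2.1.isSelfAdjoint.star_eq, L.cp _⟩
  · exact ⟨L.hq.1, L.hq.2.1.isSelfAdjoint.star_eq, L.cq _⟩
  · exact ⟨(L.he i).1, (L.he i).2.1, L.ce _ _⟩

end Crest.Agent.R134
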