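import Crest.Agent.R134.Core3
import Crest.Agent.R134.Mom
import Crest.Agent.R134.Eig

/-! Row 134: steering a Wick word towards a block of a semicircular generator. -/

set_option autoImplicit false
set_option linter.unusedSectionVars false

open scoped InnerProductSpace ComplexOrder
open Crest.OpAlg Crest.Agent.R124 Crest.Agent.R95 Filter Topology Function

namespace Crest.Agent.R134

variable {A C : Type*} [CStarAlgebra A] [CStarAlgebra C] {T : TS A} {P : StarSubalgebra ℂ A}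
  {ι : Type*} {Y : ι → A}

theorem rmem {Q : StarSubalgebra ℂ A} (c : ℝ) {x : A} (hx : x ∈ Q) : c • x ∈ Q := by
  rw [← Complex.coe_smul]; exact SMulMemClass.smul_mem _ hx

theorem Bs_mono {Y' : ι → A} {J J' : Set ι} (h : ∀ k ∈ J, Y k ∈ Bs P Y' J') :
    Bs P Y J ≤ Bs P Y' J' := Bs_le Bs_closed (fun _ => Bs_P) h

theorem rot_mem {Q : StarSubalgebra ℂ A} {a b : A} {c s : ℝ} (hcs : c ^ 2 + s ^ 2 = 1)
    (h1 : c • a + s • b ∈ Q) (h2 : (-s) • a + c • b ∈ Q) : a ∈ Q ∧ b ∈ Q := by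
  constructor
  · convert add_mem (rmem c h1) (rmem (-s) h2) using 1
    nth_rewrite 1 [← one_smul ℝ a, ← hcs]
    module
  · convert add_mem (rmem s h1) (rmem c h2) using 1
    nth_rewrite 1 [← one_smul ℝ b, ← hcs]
    module

theorem rot_Bs {i j : ι} {c s : ℝ} (hcs : c ^ 2 + s ^ 2 = 1) {Y' : ι → A}
    (hi : Y' i = c • Y i + s • Y j) (hj : Y' j = (-s) • Y i + c • Y j)
    (h2 : ∀ k, k ≠ i → k ≠ j → Y' k = Y k) {J : Set ι} (hiJ : i ∈ J) (hjJ : j ∈ J) :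
    Bs P Y J ≤ Bs P Y' J := Bs_mono fun k hk => by
  have := rot_mem hcs (hi ▸ Bs_Y (P := P) (Y := Y') hiJ) (hj ▸ Bs_Y (Y := Y') hjJ)
  by_cases h3 : k = i
  · exact h3 ▸ this.1
  by_cases h4 : k = j
  · exact h4 ▸ this.2
  exact h2 k h3 h4 ▸ Bs_Y hk

theorem exists_upd (Y : ι → A) {i j : ι} (hij : i ≠ j) (a b : A) :
    ∃ Y' : ι → A, Y' i = a ∧ Y' j = b ∧ ∀ k, k ≠ i → k ≠ j → Y' k = Y k := by
  classical
  exact ⟨update (update Y i a) j b, by simp [hij], by simp, fun k h1 h2 => by simp [h1, h2]⟩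

theorem gen_le {X : A} {Q : StarSubalgebra ℂ A} (hP : P ≤ Q) (hX : X ∈ Q) : gen P X ≤ Q :=
  StarAlgebra.adjoin_le (by
    rintro y (rfl | hy)
    · exact hX
    · exact hP hy)

theorem SD.τ_free (D : TD T C) (h : SD T P Y) {i : ι} {z : A} (hz : z ∈ Bs P Y {i}ᶜ) :
    T.τ (Y i * z) = 0 := by
  simpa using drive D h (c := 0) (s := 0) (zero_mem _) rfl [] (by simp [OK]) hz

theorem SD.τ_sq (h : SD T P Y) (i : ι) : T.τ (Y i * Y i) = 1 := by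
  simpa [ssum_cons, T.one] using h.2 i trivial [Sum.inl i] (by simp [OK])

namespace Let

variable {m n : ℕ} {θ : ℝ} (L : Let T P m n θ)

/-- The symmetric block of `y`. -/
def es (y : A) : A := L.p * y * L.q + L.q * y * L.p

/-- Blocks that are left untouched. -/
def orth (u v : A) : Prop := (u * L.p = 0 ∨ L.q * v = 0) ∧ (u * L.q = 0 ∨ L.p * v = 0)

theorem es_mem {Q : StarSubalgebra ℂ A} (hP : P ≤ Q) {y : A} (hy : y ∈ Q) : L.es y ∈ Q :=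
  add_mem (mul_mem (mul_mem (hP L.hp.1) hy) (hP L.hq.1))
    (mul_mem (mul_mem (hP L.hq.1) hy) (hP L.hp.1))

theorem es_sa {y : A} (hy : IsSelfAdjoint y) : star (L.es y) = L.es y := by
  simp only [es, star_add, star_mul, hy.star_eq, L.hp.2.1.isSelfAdjoint.star_eq,
    L.hq.2.1.isSelfAdjoint.star_eq, mul_assoc, add_comm]

theorem ee_sa (D : TD T C) : star (D.l L.p * D.r L.q + D.l L.q * D.r L.p) =
    D.l L.p * D.r L.q + D.l L.q * D.r L.p := by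
  simp only [star_add, D.star_lr, L.hp.2.1.isSelfAdjoint.star_eq, L.hq.2.1.isSelfAdjoint.star_eq]

theorem es_CL (D : TD T C) {κ : Type*} [Fintype κ] [DecidableEq κ] (e : κ → ι) (k : κ) :
    (L.es (Y (e k)), Pi.single k (D.l L.p * D.r L.q + D.l L.q * D.r L.p)) ∈ CL P D Y e := by
  rw [Pi.single_add]
  exact add_mem (CL_gen k (Bs_P L.hp.1) (Bs_P L.hq.1)) (CL_gen k (Bs_P L.hq.1) (Bs_P L.hp.1))

theorem es_n2 (D : TD T C) (h : SD T P Y) (i : ι) : T.n2 (L.es (Y i)) ^ 2 = 2 * θ ^ 2 := by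
  have := CL_n2 h (fun _ _ _ => rfl) (L.es_CL D (fun _ : Unit => i) ())
  have qp : L.q * L.p = 0 := by
    simpa [L.hp.2.1.isSelfAdjoint.star_eq, L.hq.2.1.isSelfAdjoint.star_eq] using
      congrArg star L.pq
  simp only [Finset.univ_unique, Finset.sum_singleton, PUnit.default_eq_unit,
    Pi.single_eq_same] at this
  rw [this, TS.n2_sq, ee_sa]
  simp only [add_mul, mul_add, D.lr_mul, L.pq, qp, L.hp.2.1.isIdempotentElem.eq,
    L.hq.2.1.isIdempotentElem.eq, map_zero, mul_zero, add_zero, zero_add, map_add, D.τ_lr,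
    L.hp.2.2, L.hq.2.2, ← Complex.ofReal_mul, ← Complex.ofReal_add, Complex.ofReal_re]
  ring

theorem step (D : TD T C) (hf : T.Faith) (hm : 1 ≤ m) (hn : 2 ≤ n) (h : SD T P Y) {x i j : ι}
    (hxi : x ≠ i) (hxj : x ≠ j) (hij : i ≠ j) {c s : ℝ} (hc : 0 ≤ c) (hs : 0 ≤ s)
    (hcs : c ^ 2 + s ^ 2 = 1) :
    ∃ Y' : ι → A, SD T P Y' ∧ (∀ k, k ≠ x → k ≠ i → k ≠ j → Y' k = Y k) ∧
      (∀ J, x ∈ J → i ∈ J → j ∈ J → Bs P Y J ≤ Bs P Y' J) ∧
      (∀ u ∈ P, ∀ v ∈ P, L.orth u v → u * Y' i * v = u * Y i * v) ∧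
      (∀ z ∈ Bs P Y {i, j}ᶜ, T.τ (Y' x * z) = c * T.τ (Y x * z) ∧
        T.τ (L.YY (Y' x) * z) = c ^ n * T.τ (L.YY (Y x) * z)) ∧
      s * c ^ (n - 1) * (√(m * n) * (2 * θ ^ 2 - 4 * θ ^ 3 - 8 * n ^ 2 * 3 ^ (8 * n) / m)) ≤
        (T.τ (L.YY (Y' x) * L.es (Y i))).re := by
  have hXB : Y x ∈ Bs P Y {i, j}ᶜ := Bs_Y (by simp [hxi, hxj])
  have hm0 : (0 : ℝ) < m := by exact_mod_cast hm
  have hn0 : (0 : ℝ) < n := by exact_mod_cast (by omega : 0 < n)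
  have hν : 0 < √(m * n) := by positivity
  have hν2 : √(m * n) ^ 2 = m * n := Real.sq_sqrt (by positivity)
  generalize √(m * n) = ν at hν hν2
  obtain ⟨S, S', U, hU, t1, t2, t3, t4, t5⟩ := typeII hf h hij (gen_le (fun _ => Bs_P) hXB)
    (SMulMemClass.smul_mem ν⁻¹ (L.TT_real D (X := Y x)))
  obtain ⟨Y1, a1, a2, a3⟩ := exists_upd Y hij S S'
  have h1 := t1 Y1 a1 a2 a3
  have a4 : Y1 x = Y x := a3 x hxi hxj
  obtain ⟨Y', b1, b2, b3⟩ := exists_upd Y1 hxj (c • Y1 x + s • Y1 j) ((-s) • Y1 x + c • Y1 j)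
  have h2 := rot D h1 hxj hcs b1 b2 b3
  have hB : Bs P Y {i, j}ᶜ ≤ Bs P Y1 {j}ᶜ := Bs_mono fun k hk => by
    simp only [Set.mem_compl_iff, Set.mem_insert_iff, Set.mem_singleton_iff, not_or] at hk
    exact a3 k hk.1 hk.2 ▸ Bs_Y hk.2
  rw [a4] at b1
  obtain ⟨e1, e2⟩ := L.eig D (Bs P Y1 {j}ᶜ) (fun _ => Bs_P) (hB hXB) (h.1 x) (h2.single x) b1
    fun w hw z hz => drive D h1 (hB hXB) b1 w hw hz
  refine ⟨Y', h2, fun k k1 k2 k3 => (b3 k k1 k3).trans (a3 k k2 k3), fun J j1 j2 j3 => ?_,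
    fun u hu v hv ho => ?_, fun z hz => ⟨?_, e1 z (hB hz)⟩, ?_⟩
  · refine le_trans (Bs_mono fun k hk => ?_) (rot_Bs hcs (a4 ▸ b1) b2 b3 j1 j3)
    have := t2 (Bs P Y1 J) Bs_closed (gen_le (fun _ => Bs_P) (a4 ▸ Bs_Y j1)) (a1 ▸ Bs_Y j2)
      (a2 ▸ Bs_Y j3)
    by_cases h3 : k = i
    · exact h3 ▸ this.1
    by_cases h4 : k = j
    · exact h4 ▸ this.2
    exact a3 k h3 h4 ▸ Bs_Y hk
  · rw [b3 i hxi.symm hij, a1]
    exact t3 u (Bs_P hu) v (Bs_P hv) (by rw [mul_smul_comm, L.TT_supp D ho.1 ho.2, smul_zero])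
  · rw [b1, add_mul, smul_mul_assoc, smul_mul_assoc, map_add, T.τ_rsmul, T.τ_rsmul,
      h1.τ_free D (hB hz), mul_zero, add_zero]
  have g1 : (Y' x, fun k => (s : ℂ) • U k) ∈ Gr P D Y (pr i j) := by
    convert add_mem (Submodule.smul_mem _ (c : ℂ) (Gr_B (D := D) h (range_pr i j ▸ hXB)))
      (Submodule.smul_mem _ (s : ℂ) (CL_Gr h (pr_inj hij) hU)) using 1
    ext <;> simp [b1, a2]
  have g2 := CL_pair h (L.es_CL D (pr i j) true)
    (L.YY_der D (h2.1 x) _ (fun _ a _ b => Gr_mul a b) (fun _ => Gr_P) g1)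
  have c2 := D.T2.cont
  have g3 : D.T2.τ (L.TT D (Y' x) * U true) = c ^ (n - 1) * D.T2.τ (L.TT D (Y x) * U true) := by
    refine clspan_ind (p := fun z : A × (Bool → C) => D.T2.τ (L.TT D (Y' x) * z.2 true) =
      c ^ (n - 1) * D.T2.τ (L.TT D (Y x) * z.2 true)) (isClosed_eq (by fun_prop) (by fun_prop))
      (by simp) ?_ ?_ ?_ hU
    · intro a b ha hb
      simp only [Prod.snd_add, Pi.add_apply, mul_add, map_add, ha, hb]
    · intro a b hb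
      simp only [Prod.smul_snd, Pi.smul_apply, mul_smul_comm, map_smul, hb, smul_eq_mul]; ring
    · rintro _ ⟨_ | _, u, hu, v, hv, rfl⟩
      · simp
      · rw [range_pr] at hu hv
        simpa using e2 u (hB hu) v (hB hv)
  simp only [Fintype.sum_bool, Pi.single_eq_same, ne_eq, Bool.false_eq_true, not_false_eq_true,
    Pi.single_eq_of_ne, star_zero, zero_mul, map_zero, add_zero, ee_sa, L.es_sa (h.1 _),
    mul_smul_comm, map_smul, smul_zero] at g2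
  rw [D.T2.comm, mul_assoc, t4 _ (by rw [mul_smul_comm, L.TT_e]) (L.ee_sa D), g3] at g2
  rw [T.comm]
  refine le_trans ?_ (congrArg Complex.re g2).ge
  rw [smul_eq_mul, ← Complex.ofReal_pow, Complex.re_ofReal_mul, Complex.re_ofReal_mul, mul_assoc]
  refine mul_le_mul_of_nonneg_left (mul_le_mul_of_nonneg_left ?_ (by positivity)) hs
  have m2 := L.TT_two D (h.single x)
  have m4 := L.TT_four D (h.single x) (h.norm_le D hf x) hn
  simp only [star_smul, star_trivial, smul_mul_assoc, mul_smul_comm, TS.τ_rsmul,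
    Complex.re_ofReal_mul, m2, Complex.ofReal_re] at t5
  generalize (D.T2.τ (L.TT D (Y x) * U true)).re = a at t5 ⊢
  generalize (D.T2.τ (L.TT D (Y x) * star (L.TT D (Y x)) *
    (L.TT D (Y x) * star (L.TT D (Y x))))).re = b at t5 m4
  have e3 : ν⁻¹ * (ν⁻¹ * (2 * m * n * θ ^ 2)) = 2 * θ ^ 2 := by
    rw [mul_assoc 2, ← hν2]; field_simp
  have e4 : ν⁻¹ * (ν⁻¹ * (ν⁻¹ * (ν⁻¹ * b))) ≤
      2 * θ ^ 2 + 8 * θ ^ 3 + 16 * n ^ 2 * 3 ^ (8 * n) / m := by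
    have : ν⁻¹ * (ν⁻¹ * (ν⁻¹ * (ν⁻¹ * b))) = b / (m * n) ^ 2 := by rw [← hν2]; field_simp
    rw [this, div_le_iff₀ (by positivity)]
    refine m4.trans (le_of_eq ?_)
    field_simp
  rw [e3] at t5
  rw [← le_inv_mul_iff₀ hν]
  rw [mul_assoc 16, mul_div_assoc] at e4
  rw [mul_assoc 8, mul_div_assoc]
  generalize (n ^ 2 * 3 ^ (8 * n) / m : ℝ) = R at e4 ⊢
  linarith

theorem steps (D : TD T C) (hf : T.Faith) (hm : 1 ≤ m) (hn : 2 ≤ n) {c s μ : ℝ} (hc : 0 ≤ c)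
    (hs : 0 ≤ s) (hcs : c ^ 2 + s ^ 2 = 1) (hμ : (c ^ n) ^ 2 + μ ^ 2 = 1) {x t : ℕ} (hxt : x ≠ t)
    (K : ℕ) : ∀ (Y : ℕ → A) (N : ℕ), SD T P Y → x < N → t < N →
    ∃ Y' : ℕ → A, SD T P Y' ∧ (∀ k < N, k ≠ x → k ≠ t → Y' k = Y k) ∧
      (∀ J, x ∈ J → t ∈ J → (∀ k ≥ N, k ∈ J) → Bs P Y J ≤ Bs P Y' J) ∧
      (∀ u ∈ P, ∀ v ∈ P, L.orth u v → u * Y' t * v = u * Y t * v) ∧
      T.τ (Y' x * Y x) = c ^ K ∧
      s * c ^ (n - 1) * (√(m * n) * (2 * θ ^ 2 - 4 * θ ^ 3 - 8 * n ^ 2 * 3 ^ (8 * n) / m)) *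
        (1 - ((c ^ n) ^ 2) ^ K) ≤ μ * (T.τ (L.YY (Y' x) * L.es (Y t))).re := by
  generalize hκ : s * c ^ (n - 1) *
    (√(m * n) * (2 * θ ^ 2 - 4 * θ ^ 3 - 8 * n ^ 2 * 3 ^ (8 * n) / m)) = κ
  induction K with
  | zero =>
    intro Y N h _ _
    refine ⟨Y, h, fun _ _ _ _ => rfl, fun _ _ _ _ => le_rfl, fun _ _ _ _ _ => rfl,
      by simp [h.τ_sq], ?_⟩
    have hy : L.YY (Y x) ∈ Bs P Y {t}ᶜ := gen_le (fun _ => Bs_P) (Bs_Y hxt) L.YY_mem
    have : ∀ u ∈ P, ∀ v ∈ P, T.τ (L.YY (Y x) * (u * Y t * v)) = 0 := fun u hu v hv => by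
      rw [mul_assoc, ← mul_assoc, T.comm, mul_assoc]
      exact h.τ_free D (mul_mem (Bs_P hv) (mul_mem hy (Bs_P hu)))
    simp [es, mul_add, this _ L.hp.1 _ L.hq.1, this _ L.hq.1 _ L.hp.1]
  | succ K ih =>
    intro Y N h hx ht
    have hμ' : (c ^ n) ^ 2 + (-μ) ^ 2 = 1 := by rw [neg_sq, hμ]
    obtain ⟨Y1, a1, a2, a3⟩ := exists_upd Y ht.ne (c ^ n • Y t + (-μ) • Y N)
      ((- -μ) • Y t + c ^ n • Y N)
    obtain ⟨Y2, h2, b1, b2, b3, b4, b5⟩ := ih Y1 (N + 2) (rot D h ht.ne hμ' a1 a2 a3) (by omega)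
      (by omega)
    obtain ⟨Y3, h3, c1, c2, c3, c4, c5⟩ := L.step D hf hm hn h2 (x := x) (i := N) (j := N + 1)
      (by omega) (by omega) (by omega) hc hs hcs
    obtain ⟨Y4, d1, d2, d3⟩ := exists_upd Y3 ht.ne (c ^ n • Y3 t + μ • Y3 N)
      ((-μ) • Y3 t + c ^ n • Y3 N)
    have e1 : Y2 N = Y1 N := b1 N (by omega) hx.ne' ht.ne'
    have e2 : Y t = c ^ n • Y1 t + μ • Y1 N := by
      rw [a1, a2]
      nth_rewrite 1 [← one_smul ℝ (Y t), ← hμ]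
      module
    have e3 : Y1 x = Y x := a3 x hxt hx.ne
    have e4 : Y4 x = Y3 x := d3 x hxt hx.ne
    have hB := b2 {N, N + 1}ᶜ (by simp; omega) (by simp; omega) fun k hk => by simp; omega
    refine ⟨Y4, rot D h3 ht.ne hμ d1 d2 d3, fun k k1 k2 k3 => ?_, fun J j1 j2 j3 => ?_,
      fun u hu v hv ho => ?_, ?_, ?_⟩
    · rw [d3 k k3 k1.ne, c1 k k2 k1.ne (by omega), b1 k (by omega) k2 k3, a3 k k3 k1.ne]
    · exact ((rot_Bs hμ' a1 a2 a3 j2 (j3 N le_rfl)).trans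
        (b2 J j1 j2 fun k hk => j3 k (by omega))).trans ((c2 J j1 (j3 N le_rfl)
        (j3 _ (by omega))).trans (rot_Bs hμ d1 d2 d3 j2 (j3 N le_rfl)))
    · rw [d1, e2, c1 t hxt.symm ht.ne (by omega)]
      simp only [mul_add, add_mul, mul_smul_comm, smul_mul_assoc, c3 u hu v hv ho, b3 u hu v hv ho,
        e1]
    · rw [e4, ← e3, (c4 _ (hB (Bs_Y (by simp; omega)))).1, b4, pow_succ']
    · have e5 : L.es (Y t) = c ^ n • L.es (Y1 t) + μ • L.es (Y2 N) := by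
        rw [e2, e1]
        simp only [es, mul_add, add_mul, mul_smul_comm, smul_mul_assoc, smul_add]; abel
      rw [e4, e5, mul_add, mul_smul_comm, mul_smul_comm, map_add, T.τ_rsmul, T.τ_rsmul,
        (c4 _ (L.es_mem (fun _ => Bs_P) (hB (Bs_Y (by simp; omega))))).2, ← Complex.ofReal_pow,
        Complex.add_re, Complex.re_ofReal_mul, Complex.re_ofReal_mul, Complex.re_ofReal_mul]
      rw [hκ] at c5
      have f1 := mul_le_mul_of_nonneg_left b5 (sq_nonneg (c ^ n))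
      have f2 := mul_le_mul_of_nonneg_left c5 (sq_nonneg μ)
      have f3 : κ * (1 - ((c ^ n) ^ 2) ^ (K + 1)) =
          (c ^ n) ^ 2 * (κ * (1 - ((c ^ n) ^ 2) ^ K)) + μ ^ 2 * κ := by
        rw [show μ ^ 2 = 1 - (c ^ n) ^ 2 by linarith]; ring
      nlinarith

end Let

end Crest.Agent.R134
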