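import Crest.Agent.R134.Defs

/-! Row 134, task D: the tensor product with the opposite algebra. -/

set_option autoImplicit false
set_option linter.unusedSectionVars false

open scoped InnerProductSpace ComplexOrder
open Crest.OpAlg Crest.Agent.R124 Crest.Agent.R95

namespace Crest.Agent.R134

universe u

namespace Tens
open UniformSpace TensorProduct

section cpl
variable {E : Type*} [SeminormedAddCommGroup E] [InnerProductSpace ℂ E]

theorem cext {f g : Completion E →L[ℂ] Completion E} (h : ∀ a : E, f a = g a) : f = g := by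
  ext x
  exact Completion.induction_on x (isClosed_eq f.continuous g.continuous) h

/-- Extension of operators to the completion. -/
noncomputable def cpl : (E →L[ℂ] E) →ₗ[ℂ] (Completion E →L[ℂ] Completion E) where
  toFun f := f.completion
  map_add' f g := cext fun a => by simp [Completion.coe_add]
  map_smul' c f := cext fun a => by simp [Completion.coe_smul]

theorem cpl_coe (f : E →L[ℂ] E) (a : E) : cpl f (a : Completion E) = (f a : E) :=
  ContinuousLinearMap.completion_apply_coe f a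

theorem cpl_mul (f g : E →L[ℂ] E) : cpl (f * g) = cpl f * cpl g :=
  cext fun a => by simp [cpl_coe]

theorem cpl_one : cpl (1 : E →L[ℂ] E) = 1 := cext fun a => by simp [cpl_coe]

theorem cpl_norm (f : E →L[ℂ] E) {C : ℝ} (hC : 0 ≤ C) (h : ∀ a, ‖f a‖ ≤ C * ‖a‖) :
    ‖cpl f‖ ≤ C := by
  refine ContinuousLinearMap.opNorm_le_bound _ hC fun x => ?_
  refine Completion.induction_on x (isClosed_le (by fun_prop) (by fun_prop)) fun a => ?_
  rw [cpl_coe, Completion.norm_coe, Completion.norm_coe]; exact h a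

theorem cpl_adj {f g : E →L[ℂ] E} (h : ∀ a b, ⟪f a, b⟫_ℂ = ⟪a, g b⟫_ℂ) (x y : Completion E) :
    ⟪cpl f x, y⟫_ℂ = ⟪x, cpl g y⟫_ℂ := by
  refine Completion.induction_on₂ x y (isClosed_eq (by fun_prop) (by fun_prop)) fun a b => ?_
  rw [cpl_coe, cpl_coe, Completion.inner_coe, Completion.inner_coe, h]

end cpl

variable {A : Type u} [CStarAlgebra A] (T : TS A)

/-- Left multiplication on the pre-Hilbert space. -/
noncomputable def L0 (x : A) : T.L →L[ℂ] T.L :=
  (T.v.toLinearMap ∘ₗ LinearMap.mulLeft ℂ x ∘ₗ T.v.symm.toLinearMap).mkContinuous ‖x‖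
    fun a => T.n2_mul_le x (T.v.symm a)

/-- Right multiplication on the pre-Hilbert space. -/
noncomputable def R0 (x : A) : T.L →L[ℂ] T.L :=
  (T.v.toLinearMap ∘ₗ LinearMap.mulRight ℂ x ∘ₗ T.v.symm.toLinearMap).mkContinuous ‖x‖
    fun a => (T.n2_mul_le' (T.v.symm a) x).trans (mul_comm _ _).le

theorem L0_apply (x : A) (a : T.L) : L0 T x a = T.v (x * T.v.symm a) := rfl
theorem R0_apply (x : A) (a : T.L) : R0 T x a = T.v (T.v.symm a * x) := rfl

/-- The GNS space. -/
abbrev G := Completion T.L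

/-- Left regular representation. -/
noncomputable def L1 : A →ₗ[ℂ] (G T →L[ℂ] G T) :=
  cpl ∘ₗ { toFun := L0 T
           map_add' := fun x y => by ext a; simp [L0_apply, add_mul]
           map_smul' := fun c x => by ext a; simp [L0_apply] }

/-- Right regular representation. -/
noncomputable def R1 : A →ₗ[ℂ] (G T →L[ℂ] G T) :=
  cpl ∘ₗ { toFun := R0 T
           map_add' := fun x y => by ext a; simp [R0_apply, mul_add]
           map_smul' := fun c x => by ext a; simp [R0_apply] }

theorem L1_eq (x : A) : L1 T x = cpl (L0 T x) := rfl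
theorem R1_eq (x : A) : R1 T x = cpl (R0 T x) := rfl

theorem L1_mul (x y : A) : L1 T (x * y) = L1 T x * L1 T y := by
  rw [L1_eq, L1_eq, L1_eq, ← cpl_mul]; congr 1; ext a; simp [L0_apply, mul_assoc]

theorem R1_mul (x y : A) : R1 T (x * y) = R1 T y * R1 T x := by
  rw [R1_eq, R1_eq, R1_eq, ← cpl_mul]; congr 1; ext a; simp [R0_apply, mul_assoc]

theorem L1_one : L1 T 1 = 1 := by
  rw [L1_eq, ← cpl_one]; congr 1; ext a; simp [L0_apply]

theorem R1_one : R1 T 1 = 1 := by
  rw [R1_eq, ← cpl_one]; congr 1; ext a; simp [R0_apply]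

theorem L1_norm (x : A) : ‖L1 T x‖ ≤ ‖x‖ :=
  cpl_norm _ (norm_nonneg _) fun a => T.n2_mul_le x (T.v.symm a)

theorem R1_norm (x : A) : ‖R1 T x‖ ≤ ‖x‖ :=
  cpl_norm _ (norm_nonneg _) fun a => (T.n2_mul_le' (T.v.symm a) x).trans (mul_comm _ _).le

theorem L1_adj (x : A) (a b : G T) : ⟪L1 T (star x) a, b⟫_ℂ = ⟪a, L1 T x b⟫_ℂ := by
  refine cpl_adj (fun a b => ?_) a b
  obtain ⟨a, rfl⟩ := T.v.surjective a
  obtain ⟨b, rfl⟩ := T.v.surjective b
  simp [L0_apply, TS.inner_v, mul_assoc]

theorem R1_adj (x : A) (a b : G T) : ⟪R1 T (star x) a, b⟫_ℂ = ⟪a, R1 T x b⟫_ℂ := by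
  rw [R1_eq, R1_eq]
  refine cpl_adj (fun a b => ?_) a b
  obtain ⟨a, rfl⟩ := T.v.surjective a
  obtain ⟨b, rfl⟩ := T.v.surjective b
  rw [R0_apply, R0_apply, TS.inner_v, TS.inner_v, LinearEquiv.symm_apply_apply,
    LinearEquiv.symm_apply_apply, star_mul, star_star, mul_assoc, T.comm, mul_assoc]

/-- The cyclic vector. -/
noncomputable def w : G T := (T.v 1 : T.L)

theorem w_L1 (x : A) : ⟪w T, L1 T x (w T)⟫_ℂ = T.τ x := by
  rw [w, L1_eq, cpl_coe, Completion.inner_coe]; simp [L0_apply, TS.inner_v]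

theorem w_R1 (x : A) : ⟪w T, R1 T x (w T)⟫_ℂ = T.τ x := by
  rw [w, R1_eq, cpl_coe, Completion.inner_coe]; simp [R0_apply, TS.inner_v]

/-- The Hilbert space tensor square. -/
abbrev K := Completion (G T ⊗[ℂ] G T)

/-- The operator `x ⊗ yᵒᵖ`. -/
noncomputable def op (x y : A) : K T →L[ℂ] K T := cpl (mapL (L1 T x) (R1 T y))

theorem op_mul (x y x' y' : A) : op T x y * op T x' y' = op T (x * x') (y' * y) := by
  rw [op, op, op, L1_mul, R1_mul, mapL_mul, cpl_mul]

theorem op_one : op T 1 1 = 1 := by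
  have h : mapL (1 : G T →L[ℂ] G T) (1 : G T →L[ℂ] G T) = 1 := mapL_id_id
  rw [op, L1_one, R1_one, h, cpl_one]

theorem op_norm (x y : A) : ‖op T x y‖ ≤ ‖x‖ * ‖y‖ :=
  cpl_norm _ (by positivity) fun a => ((mapL (L1 T x) (R1 T y)).le_opNorm a).trans
    (mul_le_mul_of_nonneg_right ((norm_mapL_le _ _).trans
      (mul_le_mul (L1_norm T x) (R1_norm T y) (norm_nonneg _) (norm_nonneg _))) (norm_nonneg _))

theorem op_star (x y : A) : op T (star x) (star y) = star (op T x y) := by
  rw [ContinuousLinearMap.star_eq_adjoint, ContinuousLinearMap.eq_adjoint_iff]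
  refine cpl_adj fun a b => ?_
  induction a using TensorProduct.induction_on with
  | zero => simp
  | add a a' h h' => rw [map_add, inner_add_left, inner_add_left, h, h']
  | tmul a a' =>
    induction b using TensorProduct.induction_on with
    | zero => simp
    | add b b' h h' => rw [map_add, inner_add_right, inner_add_right, h, h']
    | tmul b b' => rw [mapL_tmul, mapL_tmul, inner_tmul, inner_tmul, L1_adj, R1_adj]

/-- The cyclic vector of the tensor square. -/
noncomputable def ww : K T := (w T ⊗ₜ[ℂ] w T : G T ⊗[ℂ] G T)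

theorem ww_op (x y : A) : ⟪ww T, op T x y (ww T)⟫_ℂ = T.τ x * T.τ y := by
  rw [ww, op, cpl_coe, Completion.inner_coe, mapL_tmul, inner_tmul, w_L1, w_R1]

theorem op_addl (x x' y : A) : op T (x + x') y = op T x y + op T x' y := by
  rw [op, op, op, map_add, mapL_add_left, map_add]
theorem op_addr (x y y' : A) : op T x (y + y') = op T x y + op T x y' := by
  rw [op, op, op, map_add, mapL_add_right, map_add]
theorem op_smull (c : ℂ) (x y : A) : op T (c • x) y = c • op T x y := by
  rw [op, op, map_smul, mapL_smul_left, map_smul]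
theorem op_smulr (c : ℂ) (x y : A) : op T x (c • y) = c • op T x y := by
  rw [op, op, map_smul, mapL_smul_right, map_smul]

/-- Abstract representation data. -/
structure Rp (K : Type u) [NormedAddCommGroup K] [InnerProductSpace ℂ K] [CompleteSpace K] where
  op : A → A → K →L[ℂ] K
  ww : K
  op_mul : ∀ x y x' y', op x y * op x' y' = op (x * x') (y' * y)
  op_one : op 1 1 = 1
  op_norm : ∀ x y, ‖op x y‖ ≤ ‖x‖ * ‖y‖
  op_star : ∀ x y, op (star x) (star y) = star (op x y)
  ww_op : ∀ x y, ⟪ww, op x y ww⟫_ℂ = T.τ x * T.τ y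
  op_addl : ∀ x x' y, op (x + x') y = op x y + op x' y
  op_addr : ∀ x y y', op x (y + y') = op x y + op x y'
  op_smull : ∀ (c : ℂ) x y, op (c • x) y = c • op x y
  op_smulr : ∀ (c : ℂ) x y, op x (c • y) = c • op x y

/-- The concrete data. -/
noncomputable def rp : Rp T (K T) :=
  ⟨op T, ww T, op_mul T, op_one T, op_norm T, op_star T, ww_op T, op_addl T, op_addr T,
    op_smull T, op_smulr T⟩

namespace Rp
variable {T} {K : Type u} [NormedAddCommGroup K] [InnerProductSpace ℂ K] [CompleteSpace K]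
  (R : Rp T K)

/-- The span of the elementary tensors. -/
noncomputable def V : Submodule ℂ (K →L[ℂ] K) :=
  Submodule.span ℂ (Set.range fun p : A × A => R.op p.1 p.2)

theorem op_mem (x y : A) : R.op x y ∈ R.V := Submodule.subset_span ⟨(x, y), rfl⟩

theorem V_mul {a b : K →L[ℂ] K} (ha : a ∈ R.V) (hb : b ∈ R.V) :
    a * b ∈ R.V ∧ ⟪R.ww, (a * b) R.ww⟫_ℂ = ⟪R.ww, (b * a) R.ww⟫_ℂ := by
  induction ha using Submodule.span_induction with
  | zero => simp
  | add a a' _ _ h h' =>
    rw [add_mul, mul_add]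
    refine ⟨add_mem h.1 h'.1, ?_⟩
    rw [add_apply, add_apply, inner_add_right, inner_add_right, h.2, h'.2]
  | smul c a _ h =>
    rw [smul_mul_assoc, mul_smul_comm]
    refine ⟨Submodule.smul_mem _ _ h.1, ?_⟩
    rw [smul_apply, smul_apply, inner_smul_right, inner_smul_right, h.2]
  | mem a ha =>
    obtain ⟨⟨x, y⟩, rfl⟩ := ha
    induction hb using Submodule.span_induction with
    | zero => simp
    | add a a' _ _ h h' =>
      rw [add_mul, mul_add]
      refine ⟨add_mem h.1 h'.1, ?_⟩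
      rw [add_apply, add_apply, inner_add_right, inner_add_right, h.2, h'.2]
    | smul c a _ h =>
      rw [smul_mul_assoc, mul_smul_comm]
      refine ⟨Submodule.smul_mem _ _ h.1, ?_⟩
      rw [smul_apply, smul_apply, inner_smul_right, inner_smul_right, h.2]
    | mem b hb =>
      obtain ⟨⟨x', y'⟩, rfl⟩ := hb
      simp only [R.op_mul]
      refine ⟨R.op_mem _ _, ?_⟩
      rw [R.ww_op, R.ww_op, T.comm x x', T.comm y y']

/-- The span as a star subalgebra. -/
noncomputable def S : StarSubalgebra ℂ (K →L[ℂ] K) where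
  toSubalgebra := R.V.toSubalgebra (R.op_one ▸ R.op_mem 1 1) fun _ _ ha hb => (R.V_mul ha hb).1
  star_mem' {a} ha := by
    change a ∈ R.V at ha
    change star a ∈ R.V
    induction ha using Submodule.span_induction with
    | zero => simp
    | add a a' _ _ h h' => rw [star_add]; exact add_mem h h'
    | smul c a _ h => rw [star_smul]; exact Submodule.smul_mem _ _ h
    | mem a ha =>
      obtain ⟨⟨x, y⟩, rfl⟩ := ha
      rw [← R.op_star]; exact R.op_mem _ _

/-- The C*-algebra. -/
noncomputable abbrev C := R.S.topologicalClosure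

instance : IsClosed ((R.C : StarSubalgebra ℂ (K →L[ℂ] K)) : Set (K →L[ℂ] K)) :=
  R.S.isClosed_topologicalClosure

theorem opC (x y : A) : R.op x y ∈ R.C := R.S.le_topologicalClosure (R.op_mem x y)

theorem C_tr {a b : K →L[ℂ] K} (ha : a ∈ R.C) (hb : b ∈ R.C) :
    ⟪R.ww, (a * b) R.ww⟫_ℂ = ⟪R.ww, (b * a) R.ww⟫_ℂ := by
  have h : Set.EqOn (fun p : (K →L[ℂ] K) × (K →L[ℂ] K) => ⟪R.ww, (p.1 * p.2) R.ww⟫_ℂ)
      (fun p => ⟪R.ww, (p.2 * p.1) R.ww⟫_ℂ) ((R.S : Set _) ×ˢ (R.S : Set _)) :=
    fun p hp => (R.V_mul hp.1 hp.2).2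
  have h2 := h.closure (by fun_prop) (by fun_prop)
  rw [closure_prod_eq] at h2
  exact h2 (x := (a, b)) ⟨ha, hb⟩

/-- The product trace. -/
noncomputable def T2 : TS R.C where
  τ := { toFun := fun a => ⟪R.ww, a.1 R.ww⟫_ℂ
         map_add' := fun a b => by simp
         map_smul' := fun c a => by simp }
  pos x := by
    change 0 ≤ ⟪R.ww, (star x.1) (x.1 R.ww)⟫_ℂ
    rw [ContinuousLinearMap.star_eq_adjoint,
      ContinuousLinearMap.adjoint_inner_right, inner_self_eq_norm_sq_to_K]
    positivity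
  comm x y := R.C_tr x.2 y.2
  one := by
    change ⟪R.ww, (1 : K →L[ℂ] K) R.ww⟫_ℂ = 1
    rw [← R.op_one, R.ww_op, T.one, mul_one]

/-- Left embedding. -/
noncomputable def lC : A →L[ℂ] R.C :=
  LinearMap.mkContinuous
    { toFun := fun x => ⟨R.op x 1, R.opC _ _⟩
      map_add' := fun x y => Subtype.ext (R.op_addl x y 1)
      map_smul' := fun c x => Subtype.ext (R.op_smull c x 1) } ‖(1 : A)‖
    fun x => (R.op_norm x 1).trans (mul_comm _ _).le

/-- Right embedding. -/
noncomputable def rC : A →L[ℂ] R.C :=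
  LinearMap.mkContinuous
    { toFun := fun x => ⟨R.op 1 x, R.opC _ _⟩
      map_add' := fun x y => Subtype.ext (R.op_addr 1 x y)
      map_smul' := fun c x => Subtype.ext (R.op_smulr c 1 x) } ‖(1 : A)‖
    fun x => R.op_norm 1 x

include R in
theorem ex : ∃ (C : Type u) (_ : CStarAlgebra C), Nonempty (TD T C) := by
  refine ⟨R.C, inferInstance, ⟨{
    T2 := R.T2
    l := R.lC
    r := R.rC
    l_one := Subtype.ext R.op_one
    r_one := Subtype.ext R.op_one
    l_mul := fun x y => Subtype.ext ?_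
    r_mul := fun x y => Subtype.ext ?_
    l_star := fun x => Subtype.ext ?_
    r_star := fun x => Subtype.ext ?_
    comm := fun x y => Subtype.ext ?_
    τ_lr := fun x y => ?_ }⟩⟩
  · change R.op _ _ = R.op _ _ * R.op _ _
    rw [R.op_mul, mul_one]
  · change R.op _ _ = R.op _ _ * R.op _ _
    rw [R.op_mul, mul_one]
  · change R.op _ _ = star (R.op _ _)
    rw [← R.op_star, star_one]
  · change R.op _ _ = star (R.op _ _)
    rw [← R.op_star, star_one]
  · change R.op _ _ * R.op _ _ = R.op _ _ * R.op _ _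
    simp [R.op_mul]
  · change ⟪R.ww, (R.op x 1 * R.op 1 y) R.ww⟫_ℂ = _
    rw [R.op_mul, mul_one, mul_one, R.ww_op]

end Rp

end Tens

set_option linter.unusedVariables false in
theorem exists_TD {A : Type u} [CStarAlgebra A] (T : TS A) (hf : T.Faith) :
    ∃ (C : Type u) (_ : CStarAlgebra C), Nonempty (TD T C) := (Tens.rp T).ex

end Crest.Agent.R134
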